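import Mathlib

/-! Cauchy integrals over the unit circle in a Banach algebra, and division by split polynomials. -/

set_option autoImplicit false

open Filter Topology Set Metric Complex Polynomial Real

namespace Crest.Agent.R132B

section alg

variable {𝔸 : Type} [NormedRing 𝔸] [NormedAlgebra ℂ 𝔸] [CompleteSpace 𝔸]

omit [CompleteSpace 𝔸] in
theorem isUnit_one_sub_smul {T : 𝔸} (hT : spectrum ℂ T ⊆ ball 0 1) {z : ℂ} (hz : ‖z‖ ≤ 1) :
    IsUnit (1 - z • T) := by
  by_cases h0 : z = 0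
  · simp [h0]
  have h1 : z⁻¹ ∉ spectrum ℂ T := fun h => by
    have := hT h
    rw [mem_ball_zero_iff, norm_inv] at this
    have h2 := (inv_lt_one₀ (norm_pos_iff.2 h0)).1 this
    linarith
  rw [spectrum.notMem_iff] at h1
  have h2 : 1 - z • T = algebraMap ℂ 𝔸 z * (algebraMap ℂ 𝔸 z⁻¹ - T) := by
    rw [mul_sub, ← map_mul, mul_inv_cancel₀ h0, map_one, Algebra.smul_def]
  rw [h2]
  exact ((IsUnit.mk0 z h0).map _).mul h1

/-- the resolvent-type function `(1 - z T)⁻¹` -/
noncomputable def rs (T : 𝔸) (z : ℂ) : 𝔸 := Ring.inverse (1 - z • T)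

theorem differentiableAt_rs {T : 𝔸} (hT : spectrum ℂ T ⊆ ball 0 1) {z : ℂ} (hz : ‖z‖ ≤ 1) :
    DifferentiableAt ℂ (rs T) z :=
  DifferentiableAt.inverse (by fun_prop) (isUnit_one_sub_smul hT hz)

omit [CompleteSpace 𝔸] in
theorem rs_zero (T : 𝔸) : rs T 0 = 1 := by simp [rs]

theorem continuousOn_rs {T : 𝔸} (hT : spectrum ℂ T ⊆ ball 0 1) :
    ContinuousOn (rs T) (sphere 0 1) := fun z hz =>
  (differentiableAt_rs hT (mem_sphere_zero_iff_norm.1 hz).le).continuousAt.continuousWithinAt

theorem continuousOn_rs_inv {T : 𝔸} (hT : spectrum ℂ T ⊆ ball 0 1) :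
    ContinuousOn (fun z => rs T z⁻¹) (sphere 0 1) := by
  refine (continuousOn_rs hT).comp (continuousOn_inv₀.mono fun z hz h => ?_) fun z hz => ?_
  · rw [mem_singleton_iff] at h
    simp [h] at hz
  · simpa using hz

theorem avg_hol {E : Type} [NormedAddCommGroup E] [NormedSpace ℂ E] [CompleteSpace E] {u : ℂ → E}
    (hu : ∀ z ∈ closedBall (0 : ℂ) 1, DifferentiableAt ℂ u z) : circleAverage u 0 1 = u 0 := by
  refine DiffContOnCl.circleAverage (DifferentiableOn.diffContOnCl ?_)
  rw [abs_one, closure_ball _ one_ne_zero]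
  exact fun z hz => (hu z hz).differentiableWithinAt

theorem contOn_sphere {E : Type} [NormedAddCommGroup E] [NormedSpace ℂ E] {u : ℂ → E}
    (hu : ∀ z ∈ closedBall (0 : ℂ) 1, DifferentiableAt ℂ u z) : ContinuousOn u (sphere 0 1) :=
  fun z hz => (hu z (sphere_subset_closedBall hz)).continuousAt.continuousWithinAt

theorem circInt {E : Type} [NormedAddCommGroup E] {u : ℂ → E}
    (hu : ContinuousOn u (sphere 0 1)) : CircleIntegrable u 0 1 :=
  hu.circleIntegrable zero_le_one

/-- the Cauchy integral -/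
noncomputable def cauchy (T : 𝔸) (u : ℂ → ℂ) : 𝔸 := circleAverage (fun z => u z • rs T z⁻¹) 0 1

theorem cauchy_one {T : 𝔸} (hT : spectrum ℂ T ⊆ ball 0 1) : cauchy T (fun _ => 1) = 1 := by
  simp only [cauchy, one_smul]
  rw [circleAverage_zero_one_congr_inv, avg_hol fun z hz => differentiableAt_rs hT (by simpa using hz),
    rs_zero]

theorem cauchy_add {T : 𝔸} (hT : spectrum ℂ T ⊆ ball 0 1) {u v : ℂ → ℂ}
    (hu : ContinuousOn u (sphere 0 1)) (hv : ContinuousOn v (sphere 0 1)) :
    cauchy T (fun z => u z + v z) = cauchy T u + cauchy T v := by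
  simp only [cauchy, add_smul]
  exact circleAverage_fun_add (circInt (hu.smul (continuousOn_rs_inv hT)))
    (circInt (hv.smul (continuousOn_rs_inv hT)))

omit [CompleteSpace 𝔸] in
theorem cauchy_smul (T : 𝔸) (c : ℂ) (u : ℂ → ℂ) :
    cauchy T (fun z => c * u z) = c • cauchy T u := by
  simp only [cauchy, mul_smul]
  exact circleAverage_fun_smul

theorem cauchy_mul_X {T : 𝔸} (hT : spectrum ℂ T ⊆ ball 0 1) {u : ℂ → ℂ}
    (hu : ∀ z ∈ closedBall (0 : ℂ) 1, DifferentiableAt ℂ u z) :
    cauchy T (fun z => z * u z) = T * cauchy T u := by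
  have hc : ContinuousOn (fun z => u z • rs T z⁻¹) (sphere 0 1) :=
    (contOn_sphere hu).smul (continuousOn_rs_inv hT)
  have h1 := (ContinuousLinearMap.mul ℝ 𝔸 T).circleAverage_comp_comm (circInt hc)
  have h2 : circleAverage (fun z => (z * u z) • (1 : 𝔸)) 0 1 = 0 := by
    rw [avg_hol fun z hz => (differentiableAt_fun_id.fun_mul (hu z hz)).smul_const _]
    simp
  rw [ContinuousLinearMap.mul_apply'] at h1
  have hc2 : ContinuousOn (fun z => (z * u z) • (1 : 𝔸)) (sphere 0 1) :=
    (continuousOn_id.fun_mul (contOn_sphere hu)).smul continuousOn_const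
  rw [cauchy, cauchy, ← h1, ← add_zero (circleAverage (_ ∘ _) 0 1), ← h2,
    ← circleAverage_fun_add
      (circInt ((ContinuousLinearMap.mul ℝ 𝔸 T).continuous.comp_continuousOn hc)) (circInt hc2)]
  refine circleAverage_congr_sphere fun z hz => ?_
  have hz' : ‖z‖ = 1 := by simpa using hz
  have hz0 : z ≠ 0 := fun h => by simp [h] at hz'
  have h3 : (1 - z⁻¹ • T) * rs T z⁻¹ = 1 :=
    Ring.mul_inverse_cancel _ (isUnit_one_sub_smul hT (by simp [hz']))
  simp only [Function.comp_apply, ContinuousLinearMap.mul_apply']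
  rw [← h3, sub_mul, one_mul, smul_sub, smul_mul_assoc, smul_smul, mul_smul_comm,
    mul_right_comm, mul_inv_cancel₀ hz0, one_mul, add_sub_cancel]

theorem cauchy_poly {T : 𝔸} (hT : spectrum ℂ T ⊆ ball 0 1) (Q : ℂ[X]) {u : ℂ → ℂ}
    (hu : ∀ z ∈ closedBall (0 : ℂ) 1, DifferentiableAt ℂ u z) :
    cauchy T (fun z => Q.eval z * u z) = aeval T Q * cauchy T u := by
  induction Q using Polynomial.induction_on with
  | C a => simp only [eval_C, cauchy_smul, aeval_C, Algebra.smul_def]
  | add P Q hP hQ =>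
    simp only [eval_add, add_mul, map_add]
    rw [cauchy_add hT (P.continuous.continuousOn.fun_mul (contOn_sphere hu))
      (Q.continuous.continuousOn.fun_mul (contOn_sphere hu)), hP, hQ]
  | monomial n a ih =>
    have := cauchy_mul_X hT (u := fun z => (C a * X ^ n).eval z * u z) fun z hz =>
      ((C a * X ^ n).differentiableAt).fun_mul (hu z hz)
    rw [ih] at this
    rw [show C a * X ^ (n + 1) = X * (C a * X ^ n) by ring, map_mul, aeval_X, mul_assoc, ← this]
    simp only [eval_mul, eval_X, mul_assoc]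

theorem cauchy_eq {T : 𝔸} (hT : spectrum ℂ T ⊆ ball 0 1) {Q ψ : ℂ[X]} {u r : ℂ → ℂ}
    (hr : ∀ z ∈ closedBall (0 : ℂ) 1, DifferentiableAt ℂ r z) (hψ : aeval T ψ = 0)
    (hu : ∀ z ∈ sphere (0 : ℂ) 1, u z = Q.eval z + ψ.eval z * r z) :
    cauchy T u = aeval T Q := by
  have h1 : cauchy T u = cauchy T fun z => Q.eval z * 1 + ψ.eval z * r z :=
    circleAverage_congr_sphere fun z hz => by
      simp only [hu z (by simpa using hz), mul_one]
  rw [h1, cauchy_add hT (Q.continuous.continuousOn.fun_mul continuousOn_const)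
    (ψ.continuous.continuousOn.fun_mul (contOn_sphere hr)),
    cauchy_poly hT Q fun _ _ => differentiableAt_const _, cauchy_poly hT ψ hr, cauchy_one hT, hψ]
  simp

theorem avg_second {T : 𝔸} (hT : spectrum ℂ T ⊆ ball 0 1) {u : ℂ → ℂ}
    (hu : ∀ z ∈ closedBall (0 : ℂ) 1, DifferentiableAt ℂ u z) :
    circleAverage (fun z => u z • (rs T z - 1)) 0 1 = 0 := by
  rw [avg_hol fun z hz => (hu z hz).fun_smul
    ((differentiableAt_rs hT (by simpa using hz)).sub_const 1)]
  simp [rs_zero]

/-- the operator Poisson kernel -/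
noncomputable def pk (T T' : 𝔸) (z : ℂ) : 𝔸 := rs T z⁻¹ + (rs T' z - 1)

theorem continuousOn_pk {T T' : 𝔸} (hT : spectrum ℂ T ⊆ ball 0 1)
    (hT' : spectrum ℂ T' ⊆ ball 0 1) : ContinuousOn (pk T T') (sphere 0 1) :=
  (continuousOn_rs_inv hT).add ((continuousOn_rs hT').sub continuousOn_const)

theorem avg_pk {T T' : 𝔸} (hT : spectrum ℂ T ⊆ ball 0 1) (hT' : spectrum ℂ T' ⊆ ball 0 1)
    {u : ℂ → ℂ} (hu : ∀ z ∈ closedBall (0 : ℂ) 1, DifferentiableAt ℂ u z) :
    circleAverage (fun z => u z • pk T T' z) 0 1 = cauchy T u := by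
  simp only [pk, smul_add]
  rw [circleAverage_fun_add (circInt ((contOn_sphere hu).fun_smul (continuousOn_rs_inv hT)))
    (circInt ((contOn_sphere hu).fun_smul ((continuousOn_rs hT').fun_sub continuousOn_const))),
    avg_second hT' hu, add_zero, cauchy]

end alg

section poly

theorem exists_div {W : Set ℂ} (hW : IsOpen W) (s : Multiset ℂ) :
    ∀ {u : ℂ → ℂ}, (∀ μ ∈ s, μ ∈ W) → DifferentiableOn ℂ u W →
      ∃ (Q : ℂ[X]) (r : ℂ → ℂ), DifferentiableOn ℂ r W ∧
        ∀ z ∈ W, u z = Q.eval z + (s.map (z - ·)).prod * r z := by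
  induction s using Multiset.induction_on with
  | empty => intro u _ hu; exact ⟨0, u, hu, by simp⟩
  | cons a t ih =>
    intro u hs hu
    obtain ⟨Q, r, hr, h⟩ := ih (u := dslope u a) (fun μ hμ => hs μ (Multiset.mem_cons_of_mem hμ))
      ((Complex.differentiableOn_dslope (hW.mem_nhds (hs a (Multiset.mem_cons_self a t)))).2 hu)
    refine ⟨C (u a) + (X - C a) * Q, r, hr, fun z hz => ?_⟩
    have h1 := sub_smul_dslope u a z
    rw [h z hz, smul_eq_mul] at h1
    simp only [eval_add, eval_C, eval_mul, eval_sub, eval_X, Multiset.map_cons, Multiset.prod_cons]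
    linear_combination -h1

theorem dvd_of_factor {W : Set ℂ} (hW : IsOpen W) (s : Multiset ℂ) {r : ℂ → ℂ}
    (hr : ContinuousOn r W) :
    ∀ {P : ℂ[X]}, (∀ μ ∈ s, μ ∈ W) → (∀ z ∈ W, P.eval z = (s.map (z - ·)).prod * r z) →
      (s.map (X - C ·)).prod ∣ P := by
  induction s using Multiset.induction_on with
  | empty => simp
  | cons a t ih =>
    intro P hs h
    have ha := hs a (Multiset.mem_cons_self a t)
    have h0 : P.IsRoot a := by simpa using h a ha
    obtain ⟨P1, rfl⟩ := dvd_iff_isRoot.2 h0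
    rw [Multiset.map_cons, Multiset.prod_cons]
    refine mul_dvd_mul_left _ (ih (fun μ hμ => hs μ (Multiset.mem_cons_of_mem hμ)) fun z hz => ?_)
    have h1 : ∀ z ∈ W, z ≠ a → P1.eval z = (t.map (z - ·)).prod * r z := by
      intro z hz hza
      have := h z hz
      simp only [eval_mul, eval_sub, eval_X, eval_C, Multiset.map_cons, Multiset.prod_cons,
        mul_assoc] at this
      exact mul_left_cancel₀ (sub_ne_zero.2 hza) this
    by_cases hza : z = a
    · subst hza
      have h2 : Continuous fun z : ℂ => (t.map (z - ·)).prod :=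
        continuous_multiset_prod t fun _ _ => by fun_prop
      have h3 : ContinuousAt (fun z => (t.map (z - ·)).prod * r z) z :=
        h2.continuousAt.mul (hr.continuousAt (hW.mem_nhds hz))
      refine tendsto_nhds_unique_of_eventuallyEq (l := 𝓝[≠] z)
        (P1.continuous.continuousAt.tendsto.mono_left nhdsWithin_le_nhds)
        (h3.tendsto.mono_left nhdsWithin_le_nhds) ?_
      filter_upwards [nhdsWithin_le_nhds (hW.mem_nhds hz), self_mem_nhdsWithin] with y hy hy'
      exact h1 y hy hy'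
    · exact h1 z hz hza

theorem exists_sub_eval (Q : ℂ[X]) : ∃ E : ℂ × ℂ → ℂ, Continuous E ∧
    ∀ a b, Q.eval a - Q.eval b = (a - b) * E (a, b) := by
  induction Q using Polynomial.induction_on with
  | C a => exact ⟨0, continuous_zero, by simp⟩
  | add P Q hP hQ =>
    obtain ⟨E, hE, h⟩ := hP
    obtain ⟨E', hE', h'⟩ := hQ
    refine ⟨E + E', hE.add hE', fun a b => ?_⟩
    simp only [eval_add, Pi.add_apply]
    linear_combination h a b + h' a b
  | monomial n c ih =>
    obtain ⟨E, hE, h⟩ := ih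
    refine ⟨fun x => c * x.1 ^ n + x.2 * E x, by fun_prop, fun a b => ?_⟩
    have := h a b
    simp only [eval_mul, eval_C, eval_pow, eval_X] at this ⊢
    linear_combination b * this

theorem dvd_sub_comp {W : Set ℂ} (hW : IsOpen W) (s : Multiset ℂ) (hs : ∀ μ ∈ s, μ ∈ W)
    {f v r1 r2 r3 : ℂ → ℂ} {p q Q : ℂ[X]} (hf : DifferentiableOn ℂ f W)
    (hr1 : ContinuousOn r1 W) (hr2 : ContinuousOn r2 W) (hr3 : ContinuousOn r3 W)
    (h1 : ∀ z ∈ W, f z = p.eval z + (s.map (z - ·)).prod * r1 z)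
    (h2 : ∀ z ∈ W, v z = q.eval z + (s.map (z - ·)).prod * r2 z)
    (h3 : ∀ z ∈ W, v z = Q.eval (f z) + ((s.map f).map (f z - ·)).prod * r3 z) :
    (s.map (X - C ·)).prod ∣ q - Q.comp p := by
  obtain ⟨E, hE, hE'⟩ := exists_sub_eval Q
  have h4 : ContinuousOn (fun z => (s.map fun μ => dslope f μ z).prod) W :=
    continuousOn_multiset_prod s fun μ hμ =>
      ((Complex.differentiableOn_dslope (hW.mem_nhds (hs μ hμ))).2 hf).continuousOn
  refine dvd_of_factor hW s (r := fun z => r1 z * E (f z, p.eval z) +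
    (s.map fun μ => dslope f μ z).prod * r3 z - r2 z)
    (((hr1.mul (hE.comp_continuousOn (hf.continuousOn.prodMk p.continuous.continuousOn))).add
      (h4.mul hr3)).sub hr2) hs fun z hz => ?_
  have h5 : ((s.map f).map (f z - ·)).prod =
      (s.map (z - ·)).prod * (s.map fun μ => dslope f μ z).prod := by
    rw [← Multiset.prod_map_mul, Multiset.map_map]
    congr 1
    refine Multiset.map_congr rfl fun μ _ => ?_
    exact (sub_smul_dslope f μ z).symm
  have h6 := hE' (f z) (p.eval z)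
  have h7 := h3 z hz
  rw [h5] at h7
  rw [eval_sub, eval_comp]
  linear_combination h7 - h2 z hz + h6 + E (f z, p.eval z) * h1 z hz

theorem dvd_comp (s : Multiset ℂ) {f : ℂ → ℂ} {p : ℂ[X]} (h : ∀ μ ∈ s, f μ = p.eval μ) :
    (s.map (X - C ·)).prod ∣ (((s.map f).map (X - C ·)).prod).comp p := by
  rw [multiset_prod_comp, Multiset.map_map, Multiset.map_map]
  refine Multiset.prod_dvd_prod_of_dvd _ _ fun μ hμ => ?_
  simp only [Function.comp_apply, sub_comp, X_comp, C_comp, h μ hμ]
  exact X_sub_C_dvd_sub_C_eval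

end poly

end Crest.Agent.R132B
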