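import Mathlib

/-! Norm estimates for matrices given as averages against a positive density. -/

set_option autoImplicit false

open Matrix Complex
open scoped ComplexOrder MatrixOrder Kronecker Matrix.Norms.L2Operator Real InnerProductSpace

namespace Crest.Agent.R132B

variable {ι κ : Type} [Fintype ι] [DecidableEq ι] [Fintype κ] [DecidableEq κ]

theorem norm_le_iff_psd (X : Matrix ι ι ℂ) {c : ℝ} (hc : 0 ≤ c) :
    ‖X‖ ≤ c ↔ (((c ^ 2 : ℝ) : ℂ) • (1 : Matrix ι ι ℂ) - Xᴴ * X).PosSemidef := by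
  have h1 := CStarAlgebra.norm_le_iff_le_algebraMap (Xᴴ * X) (sq_nonneg c)
    (Matrix.nonneg_iff_posSemidef.2 (posSemidef_conjTranspose_mul_self X))
  rw [l2_opNorm_conjTranspose_mul_self, Matrix.le_iff, Algebra.algebraMap_eq_smul_one, ← sq,
    sq_le_sq₀ (norm_nonneg _) hc] at h1
  rw [h1, Complex.coe_smul]

theorem norm_one_kron_le {v : Matrix κ κ ℂ} {c : ℝ} (hc : 0 ≤ c) (h : ‖v‖ ≤ c) :
    ‖(1 : Matrix ι ι ℂ) ⊗ₖ v‖ ≤ c := by
  rw [norm_le_iff_psd _ hc] at h ⊢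
  have := (PosSemidef.one (n := ι) (R := ℂ)).kronecker h
  refine (congrArg PosSemidef ?_).mpr this
  rw [conjTranspose_kronecker, ← mul_kronecker_mul, conjTranspose_one, Matrix.one_mul,
    ← one_kronecker_one, ← kronecker_smul, sub_eq_iff_eq_add, ← kronecker_add, sub_add_cancel]

theorem norm_kron_one_le {v : Matrix ι ι ℂ} {c : ℝ} (hc : 0 ≤ c) (h : ‖v‖ ≤ c) :
    ‖v ⊗ₖ (1 : Matrix κ κ ℂ)‖ ≤ c := by
  rw [norm_le_iff_psd _ hc] at h ⊢
  have := h.kronecker (PosSemidef.one (n := κ) (R := ℂ))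
  refine (congrArg PosSemidef ?_).mpr this
  rw [conjTranspose_kronecker, ← mul_kronecker_mul, conjTranspose_one, Matrix.one_mul,
    ← one_kronecker_one, ← smul_kronecker, sub_eq_iff_eq_add, ← add_kronecker, sub_add_cancel]

/-- the sesquilinear form of a matrix -/
noncomputable def fm (X : Matrix ι ι ℂ) (x y : EuclideanSpace ℂ ι) : ℂ :=
  ⟪x, toEuclideanCLM (n := ι) (𝕜 := ℂ) X y⟫_ℂ

theorem fm_eq (X : Matrix ι ι ℂ) (x y : EuclideanSpace ℂ ι) :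
    fm X x y = ∑ i, ∑ j, (starRingEnd ℂ) (x i) * y j * X i j := by
  simp only [fm, PiLp.inner_apply, ofLp_toEuclideanCLM, mulVec, dotProduct, RCLike.inner_apply,
    Finset.sum_mul]
  refine Finset.sum_congr rfl fun i _ => Finset.sum_congr rfl fun j _ => ?_
  ring

theorem fm_conj (P W : Matrix ι ι ℂ) (x y : EuclideanSpace ℂ ι) :
    fm (Pᴴ * W * P) x y = fm W (toEuclideanCLM (n := ι) (𝕜 := ℂ) P x)
      (toEuclideanCLM (n := ι) (𝕜 := ℂ) P y) := by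
  simp only [fm, map_mul, ← star_eq_conjTranspose, map_star, ContinuousLinearMap.star_eq_adjoint,
    mul_apply_eq_comp, ContinuousLinearMap.adjoint_inner_right]

theorem fm_one (x : EuclideanSpace ℂ ι) : (fm 1 x x).re = ‖x‖ ^ 2 := by
  simp only [fm, map_one, one_apply_eq_self]
  exact inner_self_eq_norm_sq (𝕜 := ℂ) x

theorem fm_kron_le {Λ : Matrix ι ι ℂ} (hΛ : Λ.PosSemidef) {v : Matrix κ κ ℂ} {M : ℝ} (hM : 0 ≤ M)
    (hv : ‖v‖ ≤ M) (x y : EuclideanSpace ℂ (ι × κ)) :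
    (fm (Λ ⊗ₖ v) x y).re ≤ M / 2 * ((fm (Λ ⊗ₖ (1 : Matrix κ κ ℂ)) x x).re +
      (fm (Λ ⊗ₖ (1 : Matrix κ κ ℂ)) y y).re) := by
  obtain ⟨N, rfl⟩ := CStarAlgebra.nonneg_iff_eq_star_mul_self.1 (Matrix.nonneg_iff_posSemidef.2 hΛ)
  have h1 : ∀ W : Matrix κ κ ℂ, (star N * N) ⊗ₖ W =
      (N ⊗ₖ (1 : Matrix κ κ ℂ))ᴴ * ((1 : Matrix ι ι ℂ) ⊗ₖ W) * (N ⊗ₖ (1 : Matrix κ κ ℂ)) := by
    intro W
    rw [conjTranspose_kronecker, ← mul_kronecker_mul, ← mul_kronecker_mul]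
    simp [star_eq_conjTranspose]
  rw [h1, h1, fm_conj, fm_conj, fm_conj, one_kronecker_one, fm_one, fm_one]
  generalize toEuclideanCLM (n := ι × κ) (𝕜 := ℂ) (N ⊗ₖ (1 : Matrix κ κ ℂ)) x = a
  generalize toEuclideanCLM (n := ι × κ) (𝕜 := ℂ) (N ⊗ₖ (1 : Matrix κ κ ℂ)) y = b
  have h2 := norm_one_kron_le (ι := ι) hM hv
  rw [cstar_norm_def] at h2
  have h3 := (toEuclideanCLM (n := ι × κ) (𝕜 := ℂ) ((1 : Matrix ι ι ℂ) ⊗ₖ v)).le_of_opNorm_le h2 b
  have h4 := norm_inner_le_norm (𝕜 := ℂ) a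
    (toEuclideanCLM (n := ι × κ) (𝕜 := ℂ) ((1 : Matrix ι ι ℂ) ⊗ₖ v) b)
  have h5 := re_le_norm (fm ((1 : Matrix ι ι ℂ) ⊗ₖ v) a b)
  have h6 := mul_le_mul_of_nonneg_left h3 (norm_nonneg a)
  have h7 := mul_nonneg hM (sq_nonneg (‖a‖ - ‖b‖))
  unfold fm at h5 ⊢
  nlinarith

theorem norm_le_of_fm {X : Matrix ι ι ℂ} {M : ℝ} (hM : 0 ≤ M)
    (h : ∀ x y, (fm X x y).re ≤ M / 2 * (‖x‖ ^ 2 + ‖y‖ ^ 2)) : ‖X‖ ≤ M := by
  rw [cstar_norm_def]
  refine ContinuousLinearMap.opNorm_le_bound _ hM fun y => ?_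
  set e := toEuclideanCLM (n := ι) (𝕜 := ℂ) X with he
  have h1 := h (((‖y‖ : ℝ) : ℂ) • e y) (((‖e y‖ : ℝ) : ℂ) • y)
  simp only [fm, ← he, map_smul, inner_smul_left, inner_smul_right, conj_ofReal, norm_smul,
    norm_real, norm_norm, inner_self_eq_norm_sq_to_K] at h1
  have h2 : ((‖e y‖ : ℂ) * (‖y‖ * (‖e y‖ : ℂ) ^ 2)).re = ‖e y‖ * (‖y‖ * ‖e y‖ ^ 2) := by
    norm_cast
  erw [h2] at h1
  rcases (norm_nonneg (e y)).eq_or_lt with h3 | h3
  · rw [← h3]; positivity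
  rcases (norm_nonneg y).eq_or_lt with h4 | h4
  · have : y = 0 := norm_eq_zero.1 h4.symm
    simp [this]
  have h5 : ‖y‖ * ‖e y‖ ^ 2 * ‖e y‖ ≤ ‖y‖ * ‖e y‖ ^ 2 * (M * ‖y‖) := by nlinarith
  exact le_of_mul_le_mul_left h5 (by positivity)

theorem fm_continuous {K : ℝ → Matrix ι ι ℂ} (hK : ∀ i j, Continuous fun θ => K θ i j)
    (x y : EuclideanSpace ℂ ι) : Continuous fun θ => (fm (K θ) x y).re := by
  simp only [fm_eq]
  exact continuous_re.comp (continuous_finsetSum _ fun i _ => continuous_finsetSum _ fun j _ =>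
    continuous_const.mul (hK i j))

theorem fm_mean {K : ℝ → Matrix ι ι ℂ} (hK : ∀ i j, Continuous fun θ => K θ i j)
    {X : Matrix ι ι ℂ}
    (hX : ∀ i j, X i j = (2 * π : ℂ)⁻¹ * ∫ θ in (0 : ℝ)..2 * π, K θ i j)
    (x y : EuclideanSpace ℂ ι) :
    (fm X x y).re = (2 * π)⁻¹ * ∫ θ in (0 : ℝ)..2 * π, (fm (K θ) x y).re := by
  have h1 : fm X x y = (2 * π : ℂ)⁻¹ * ∫ θ in (0 : ℝ)..2 * π, fm (K θ) x y := by
    simp only [fm_eq, hX]
    rw [intervalIntegral.integral_finsetSum fun i _ =>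
      (continuous_finsetSum _ fun j _ => continuous_const.fun_mul (hK i j)).intervalIntegrable _ _,
      Finset.mul_sum]
    refine Finset.sum_congr rfl fun i _ => ?_
    rw [intervalIntegral.integral_finsetSum fun j _ =>
      (continuous_const.fun_mul (hK i j)).intervalIntegrable _ _, Finset.mul_sum]
    refine Finset.sum_congr rfl fun j _ => ?_
    rw [intervalIntegral.integral_const_mul]
    ring
  have h2 : Continuous fun θ => fm (K θ) x y := by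
    simp only [fm_eq]
    exact continuous_finsetSum _ fun i _ => continuous_finsetSum _ fun j _ =>
      continuous_const.mul (hK i j)
  have h3 := reCLM.intervalIntegral_comp_comm (h2.intervalIntegrable (μ := MeasureTheory.volume)
    0 (2 * π))
  simp only [reCLM_apply] at h3
  rw [h1, h3, show (2 * π : ℂ)⁻¹ = (((2 * π)⁻¹ : ℝ) : ℂ) by push_cast; rfl, re_ofReal_mul]

theorem norm_mean_le {Λ : ℝ → Matrix ι ι ℂ} (hΛ : ∀ i j, Continuous fun θ => Λ θ i j)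
    (hΛ' : ∀ θ, (Λ θ).PosSemidef)
    (h1 : ∀ a b, (2 * π : ℂ)⁻¹ * ∫ θ in (0 : ℝ)..2 * π, Λ θ a b = (1 : Matrix ι ι ℂ) a b)
    {v : ℝ → Matrix κ κ ℂ} (hv : ∀ i j, Continuous fun θ => v θ i j) {M : ℝ} (hM : 0 ≤ M)
    (hv' : ∀ θ, ‖v θ‖ ≤ M) {X : Matrix (ι × κ) (ι × κ) ℂ}
    (hX : ∀ i j, X i j = (2 * π : ℂ)⁻¹ * ∫ θ in (0 : ℝ)..2 * π, Λ θ i.1 j.1 * v θ i.2 j.2) :
    ‖X‖ ≤ M := by
  refine norm_le_of_fm hM fun x y => ?_
  have hK : ∀ i j, Continuous fun θ => (Λ θ ⊗ₖ v θ) i j := fun i j => (hΛ _ _).mul (hv _ _)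
  have hK1 : ∀ i j, Continuous fun θ => (Λ θ ⊗ₖ (1 : Matrix κ κ ℂ)) i j :=
    fun i j => (hΛ _ _).mul continuous_const
  have h2 : ∀ i j, (1 : Matrix (ι × κ) (ι × κ) ℂ) i j =
      (2 * π : ℂ)⁻¹ * ∫ θ in (0 : ℝ)..2 * π, (Λ θ ⊗ₖ (1 : Matrix κ κ ℂ)) i j := by
    intro i j
    rw [← one_kronecker_one]
    simp only [kroneckerMap_apply]
    rw [intervalIntegral.integral_mul_const, ← mul_assoc, h1]
  rw [fm_mean hK hX, ← fm_one, ← fm_one, fm_mean hK1 h2, fm_mean hK1 h2, ← mul_add,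
    ← intervalIntegral.integral_add ((fm_continuous hK1 x x).intervalIntegrable _ _)
      ((fm_continuous hK1 y y).intervalIntegrable _ _), mul_left_comm,
    ← intervalIntegral.integral_const_mul (M / 2)]
  refine mul_le_mul_of_nonneg_left ?_ (by positivity)
  refine intervalIntegral.integral_mono_on Real.two_pi_pos.le
    ((fm_continuous hK x y).intervalIntegrable _ _)
    ((continuous_const.mul ((fm_continuous hK1 x x).add
      (fm_continuous hK1 y y))).intervalIntegrable _ _) fun θ _ => ?_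
  exact fm_kron_le (hΛ' θ) hM (hv' θ) x y

end Crest.Agent.R132B
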