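import Mathlib
import Crest.Prelude.Def_NumRangeMetric

/-! The numerical range is convex (Toeplitz–Hausdorff) and, in finite dimension, compact. -/

open Filter Topology Set Metric
open scoped InnerProductSpace ComplexConjugate

namespace Crest.Agent.R132

variable {E : Type*} [NormedAddCommGroup E] [InnerProductSpace ℂ E]

/-- The numerical range of a linear map. -/
def NR (A : E →ₗ[ℂ] E) : Set ℂ := {z | ∃ x : E, ‖x‖ = 1 ∧ z = ⟪x, A x⟫_ℂ}

theorem exists_unit_of_zero_one (B : E →ₗ[ℂ] E) {x y : E} (hx : ‖x‖ = 1) (hy : ‖y‖ = 1)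
    (h1 : ⟪x, B x⟫_ℂ = 1) (h0 : ⟪y, B y⟫_ℂ = 0) {t : ℝ} (ht0 : 0 ≤ t) (ht1 : t ≤ 1) :
    ∃ z : E, ‖z‖ = 1 ∧ ⟪z, B z⟫_ℂ = t := by
  set α := ⟪x, B y⟫_ℂ with hα
  set β := ⟪y, B x⟫_ℂ with hβ
  obtain ⟨l, hl1, hl⟩ : ∃ l : ℂ, ‖l‖ = 1 ∧ (l * (β - conj α)).im = 0 := by
    obtain ⟨c, hc, hc2⟩ := Complex.exists_norm_mul_eq_self (β - conj α)
    refine ⟨conj c, by simpa using hc, ?_⟩
    have : conj c * (β - conj α) = ‖β - conj α‖ := by
      have hcc : conj c * c = 1 := by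
        rw [mul_comm, Complex.mul_conj, Complex.normSq_eq_norm_sq, hc]; simp
      calc conj c * (β - conj α) = conj c * (c * ‖β - conj α‖) := by rw [hc2]
        _ = ‖β - conj α‖ := by rw [← mul_assoc, hcc, one_mul]
    rw [this]; simp
  have hll : conj l * l = 1 := by
    rw [mul_comm, Complex.mul_conj, Complex.normSq_eq_norm_sq, hl1]; simp
  let z : ℝ → E := fun s => ((s : ℂ) * l) • x + ((1 - s : ℝ) : ℂ) • y
  have hzc : Continuous z := by fun_prop
  set γ : ℝ := (conj l * α + l * β).re with hγ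
  have hγ' : conj l * α + l * β = γ := by
    apply Complex.ext
    · simp [hγ]
    · simp only [Complex.mul_im, Complex.sub_re, Complex.sub_im, Complex.conj_re,
        Complex.conj_im] at hl
      simp only [Complex.add_im, Complex.mul_im, Complex.conj_re, Complex.conj_im,
        Complex.ofReal_im]
      linarith
  have hzB : ∀ s, ⟪z s, B (z s)⟫_ℂ = ((s ^ 2 + s * (1 - s) * γ : ℝ) : ℂ) := by
    intro s
    simp only [z, map_add, map_smul, inner_add_left, inner_add_right, inner_smul_left,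
      inner_smul_right, h1, h0, ← hα, ← hβ, map_mul, Complex.conj_ofReal]
    push_cast
    rw [← hγ']
    linear_combination (s : ℂ) ^ 2 * hll
  let φ : ℝ → ℝ := fun s => s ^ 2 + s * (1 - s) * γ - t * ‖z s‖ ^ 2
  have hφc : Continuous φ := by fun_prop
  have hφ0 : φ 0 ≤ 0 := by simp [φ, z, hy, ht0]
  have hφ1 : 0 ≤ φ 1 := by simp [φ, z, norm_smul, hx, hl1, ht1]
  obtain ⟨s, hs, hs0⟩ := intermediate_value_Icc (zero_le_one' ℝ) hφc.continuousOn ⟨hφ0, hφ1⟩
  have hz0 : z s ≠ 0 := by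
    intro h
    have e : ((s : ℂ) * l) • x = -(((1 - s : ℝ) : ℂ) • y) := eq_neg_of_add_eq_zero_left h
    have e1 := congrArg norm e
    rw [norm_neg, norm_smul, norm_smul, norm_mul, hx, hy, hl1, Complex.norm_real,
      Complex.norm_real, Real.norm_of_nonneg hs.1, Real.norm_of_nonneg (by linarith [hs.2])] at e1
    have e2 : ⟪((s : ℂ) * l) • x, B (((s : ℂ) * l) • x)⟫_ℂ = 0 := by
      rw [e]; simp [inner_smul_left, inner_smul_right, h0]
    simp only [map_smul, inner_smul_left, inner_smul_right, h1, map_mul,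
      Complex.conj_ofReal] at e2
    have e3 : (s : ℂ) ^ 2 = 0 := by linear_combination e2 - (s : ℂ) ^ 2 * hll
    have e4 : s = 0 := by exact_mod_cast pow_eq_zero_iff (two_ne_zero) |>.mp e3
    rw [e4] at e1; norm_num at e1
  have hn : ‖z s‖ ≠ 0 := norm_ne_zero_iff.mpr hz0
  refine ⟨((‖z s‖⁻¹ : ℝ) : ℂ) • z s, ?_, ?_⟩
  · rw [norm_smul, Complex.norm_real, norm_inv, norm_norm, inv_mul_cancel₀ hn]
  · rw [map_smul, inner_smul_left, inner_smul_right, hzB, Complex.conj_ofReal]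
    have : s ^ 2 + s * (1 - s) * γ = t * ‖z s‖ ^ 2 := by
      simp only [φ] at hs0; linarith
    rw [this]
    have hn' : ((‖z s‖ : ℝ) : ℂ) ≠ 0 := by exact_mod_cast hn
    push_cast
    field_simp

theorem convex_NR (A : E →ₗ[ℂ] E) : Convex ℝ (NR A) := by
  rintro _ ⟨x, hx, rfl⟩ _ ⟨y, hy, rfl⟩ s t hs ht hst
  set a := ⟪x, A x⟫_ℂ with ha
  set b := ⟪y, A y⟫_ℂ with hb
  by_cases hab : a = b
  · refine ⟨x, hx, ?_⟩
    rw [← hab, ← add_smul, hst, one_smul]
  have hab' : a - b ≠ 0 := sub_ne_zero.mpr hab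
  let B : E →ₗ[ℂ] E := (a - b)⁻¹ • (A - b • LinearMap.id)
  have hB : ∀ z : E, ‖z‖ = 1 → ⟪z, B z⟫_ℂ = (a - b)⁻¹ * (⟪z, A z⟫_ℂ - b) := by
    intro z hz
    simp [B, inner_smul_right, inner_sub_right, inner_self_eq_norm_sq_to_K, hz]
  obtain ⟨z, hz, hz2⟩ := exists_unit_of_zero_one B hx hy
    (by rw [hB x hx, ← ha, inv_mul_cancel₀ hab']) (by rw [hB y hy, ← hb]; simp) hs
    (by linarith)
  refine ⟨z, hz, ?_⟩
  rw [hB z hz] at hz2
  have : ⟪z, A z⟫_ℂ = b + s * (a - b) := by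
    field_simp at hz2; linear_combination hz2
  rw [this]
  have ht' : t = 1 - s := by linarith
  simp only [ht', Complex.real_smul]
  push_cast
  ring

theorem isCompact_NR [FiniteDimensional ℂ E] (A : E →ₗ[ℂ] E) : IsCompact (NR A) := by
  haveI : ProperSpace E := FiniteDimensional.proper ℂ E
  have hA : Continuous A := A.continuous_of_finiteDimensional
  have : NR A = (fun x : E => ⟪x, A x⟫_ℂ) '' sphere 0 1 := by
    ext z
    simp only [NR, mem_setOf_eq, mem_image, mem_sphere_iff_norm, sub_zero]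
    exact ⟨fun ⟨x, h1, h2⟩ => ⟨x, h1, h2.symm⟩, fun ⟨x, h1, h2⟩ => ⟨x, h1, h2.symm⟩⟩
  rw [this]
  exact (isCompact_sphere 0 1).image (by fun_prop)

open Crest.AnalysisR.NumRange

theorem numRange_eq_NR {n : ℕ} (A : Matrix (Fin n) (Fin n) ℂ) :
    numRange A = NR (Matrix.toEuclideanLin A) := rfl

theorem convex_numRange {n : ℕ} (A : Matrix (Fin n) (Fin n) ℂ) : Convex ℝ (numRange A) :=
  convex_NR _

theorem isCompact_numRange {n : ℕ} (A : Matrix (Fin n) (Fin n) ℂ) : IsCompact (numRange A) :=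
  isCompact_NR _

end Crest.Agent.R132
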