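import Mathlib
import Crest.Prelude.Def_NumRangeMetric
import Crest.Agent.R132.TH

/-! A holomorphic function agreeing with a polynomial on the spectrum differs from it by a
holomorphic multiple of the characteristic polynomial. -/

open Filter Topology Set Metric Polynomial
open scoped InnerProductSpace

namespace Crest.Agent.R132

open Crest.AnalysisR.NumRange

theorem exists_factor_multiset {U : Set ℂ} (hU : IsOpen U) (s : Multiset ℂ) :
    ∀ {φ : ℂ → ℂ}, (∀ μ ∈ s, μ ∈ U) → DifferentiableOn ℂ φ U →
      (∀ μ ∈ s, ((s.count μ : ℕ) : ℕ∞) ≤ analyticOrderAt φ μ) →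
      ∃ r : ℂ → ℂ, DifferentiableOn ℂ r U ∧ ∀ z ∈ U, φ z = (s.map (z - ·)).prod * r z := by
  classical
  induction s using Multiset.induction_on with
  | empty => intro φ _ hφ _; exact ⟨φ, hφ, by simp⟩
  | cons a t ih =>
    intro φ hs hφ hord
    have haU : a ∈ U := hs a (Multiset.mem_cons_self a t)
    have ha0 : φ a = 0 := by
      apply apply_eq_zero_of_analyticOrderAt_ne_zero
      intro h0
      have := hord a (Multiset.mem_cons_self a t)
      rw [h0, Multiset.count_cons_self] at this
      simp at this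
    have hφ1 : DifferentiableOn ℂ (dslope φ a) U :=
      (Complex.differentiableOn_dslope (hU.mem_nhds haU)).mpr hφ
    have hfac : φ = (fun z => z - a) * dslope φ a := by
      ext z
      have := sub_smul_dslope φ a z
      rw [ha0, sub_zero, smul_eq_mul] at this
      exact this.symm
    obtain ⟨r, hr, hr2⟩ := ih (φ := dslope φ a) (fun μ hμ => hs μ (Multiset.mem_cons_of_mem hμ))
      hφ1 (by
        intro μ hμ
        have hμU := hs μ (Multiset.mem_cons_of_mem hμ)
        have h1 := hord μ (Multiset.mem_cons_of_mem hμ)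
        have h2 : analyticOrderAt φ μ =
            analyticOrderAt (fun z => z - a) μ + analyticOrderAt (dslope φ a) μ := by
          conv_lhs => rw [hfac]
          exact analyticOrderAt_mul (by fun_prop) (hφ1.analyticAt (hU.mem_nhds hμU))
        rw [h2] at h1
        by_cases hμa : μ = a
        · subst hμa
          rw [analyticOrderAt_id_sub_const_self, Multiset.count_cons_self] at h1
          push_cast at h1
          rw [add_comm] at h1
          exact (ENat.add_le_add_iff_left (k := 1) (by simp)).mp h1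
        · rwa [analyticOrderAt_id_sub_const_of_ne hμa, zero_add,
            Multiset.count_cons_of_ne hμa] at h1)
    refine ⟨r, hr, fun z hz => ?_⟩
    rw [Multiset.map_cons, Multiset.prod_cons, mul_assoc, ← hr2 z hz]
    conv_lhs => rw [hfac]
    rfl

theorem exists_factor {n : ℕ} (A : Matrix (Fin n) (Fin n) ℂ) {U : Set ℂ} {f : ℂ → ℂ} {p : ℂ[X]}
    (hU : IsOpen U) (hsp : spectrum ℂ A ⊆ U) (hf : DifferentiableOn ℂ f U)
    (hp : AgreesOnSpectrum A f p) :
    ∃ r : ℂ → ℂ, DifferentiableOn ℂ r U ∧ ∀ z ∈ U, f z = p.eval z + A.charpoly.eval z * r z := by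
  classical
  have hroot : ∀ μ ∈ A.charpoly.roots, μ ∈ spectrum ℂ A := fun μ hμ =>
    Matrix.mem_spectrum_iff_isRoot_charpoly.mpr (isRoot_of_mem_roots hμ)
  have hpd : Differentiable ℂ (fun z => p.eval z) := p.differentiable
  obtain ⟨r, hr, hr2⟩ := exists_factor_multiset hU A.charpoly.roots (φ := fun z => f z - p.eval z)
    (fun μ hμ => hsp (hroot μ hμ)) (hf.sub hpd.differentiableOn) (by
      intro μ hμ
      have hμU := hsp (hroot μ hμ)
      have hfa : AnalyticAt ℂ f μ := hf.analyticAt (hU.mem_nhds hμU)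
      have hpa : AnalyticAt ℂ (fun z => p.eval z) μ := hpd.analyticAt μ
      have h1 : ((n : ℕ) : ℕ∞) ≤ analyticOrderAt (fun z => f z - p.eval z) μ := by
        rw [natCast_le_analyticOrderAt_iff_iteratedDeriv_eq_zero (hfa.fun_sub hpa)]
        intro i hi
        rw [iteratedDeriv_fun_sub hfa.contDiffAt hpa.contDiffAt, hp μ (hroot μ hμ) i hi, sub_self]
      refine le_trans ?_ h1
      have h2 : A.charpoly.roots.count μ ≤ n := by
        refine (Multiset.count_le_card _ _).trans ((card_roots' _).trans ?_)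
        rw [Matrix.charpoly_natDegree_eq_dim]; simp
      exact_mod_cast h2)
  refine ⟨r, hr, fun z hz => ?_⟩
  rw [(IsAlgClosed.splits A.charpoly).eval_eq_prod_roots_of_monic A.charpoly_monic, ← hr2 z hz]
  ring

theorem spectrum_subset_numRange {n : ℕ} (A : Matrix (Fin n) (Fin n) ℂ) :
    spectrum ℂ A ⊆ numRange A := by
  intro μ hμ
  rw [← Matrix.spectrum_toEuclideanLin, ← Module.End.hasEigenvalue_iff_mem_spectrum] at hμ
  obtain ⟨x, hx⟩ := hμ.exists_hasEigenvector
  have hx0 : ‖x‖ ≠ 0 := norm_ne_zero_iff.mpr hx.2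
  have hx1 : ‖((‖x‖⁻¹ : ℝ) : ℂ) • x‖ = 1 := by
    rw [norm_smul, Complex.norm_real, norm_inv, norm_norm, inv_mul_cancel₀ hx0]
  refine ⟨((‖x‖⁻¹ : ℝ) : ℂ) • x, hx1, ?_⟩
  rw [map_smul, hx.apply_eq_smul, smul_comm, inner_smul_right, inner_self_eq_norm_sq_to_K, hx1]
  simp

end Crest.Agent.R132
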