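import Mathlib

/-! An injective holomorphic function has nonvanishing derivative. -/

open Filter Topology Set Metric

namespace Crest.Agent.R132

theorem deriv_ne_zero_of_injOn {U : Set ℂ} {f : ℂ → ℂ} {z : ℂ} (hU : IsOpen U)
    (hf : DifferentiableOn ℂ f U) (hi : Set.InjOn f U) (hz : z ∈ U) : deriv f z ≠ 0 := by
  intro hd
  have hUz : U ∈ 𝓝 z := hU.mem_nhds hz
  have hfa : AnalyticAt ℂ f z := hf.analyticAt hUz
  have hF : AnalyticAt ℂ (fun w => f w - f z) z := hfa.sub analyticAt_const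
  -- `f` is not locally constant
  have hnc : ¬ ∀ᶠ w in 𝓝 z, f w - f z = 0 := by
    intro h
    have h2 : ∀ᶠ w in 𝓝[≠] z, False := by
      filter_upwards [nhdsWithin_le_nhds h, nhdsWithin_le_nhds hUz, self_mem_nhdsWithin]
        with w hw hwU hwz
      exact hwz (hi hwU hz (sub_eq_zero.mp hw))
    exact h2.exists.elim fun _ h => h
  have htop : analyticOrderAt (fun w => f w - f z) z ≠ ⊤ := by
    rwa [Ne, analyticOrderAt_eq_top]
  have h2 : ((2 : ℕ) : ℕ∞) ≤ analyticOrderAt (fun w => f w - f z) z := by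
    rw [natCast_le_analyticOrderAt_iff_iteratedDeriv_eq_zero hF]
    intro i hi2
    interval_cases i
    · simp
    · simp [hd]
  obtain ⟨k, hk⟩ := ENat.ne_top_iff_exists.mp htop
  rw [← hk] at h2
  have hk2 : 2 ≤ k := by exact_mod_cast h2
  obtain ⟨G, hGa, hG0, hG⟩ := (hF.analyticOrderAt_eq_natCast).mp hk.symm
  have hk0 : k ≠ 0 := by omega
  set c : ℂ := (G z) ^ ((k : ℂ)⁻¹) with hc
  have hck : c ^ k = G z := Complex.cpow_nat_inv_pow _ hk0
  let ψ : ℂ → ℂ := fun w => c * Complex.exp (Complex.log (G w / G z) / k)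
  have hGq : AnalyticAt ℂ (fun w => G w / G z) z := hGa.div analyticAt_const hG0
  have hψ : AnalyticAt ℂ ψ z := by
    refine analyticAt_const.mul (AnalyticAt.cexp' (AnalyticAt.div ?_ analyticAt_const ?_))
    · refine hGq.clog ?_
      simp [div_self hG0]
    · exact_mod_cast hk0
  have hGne : ∀ᶠ w in 𝓝 z, G w ≠ 0 := hGa.continuousAt.eventually_ne hG0
  let h : ℂ → ℂ := fun w => (w - z) * ψ w
  have hha : AnalyticAt ℂ h z := (analyticAt_id.sub analyticAt_const).mul hψ
  have hhk : ∀ᶠ w in 𝓝 z, h w ^ k = f w - f z := by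
    filter_upwards [hG, hGne] with w hw hw0
    have e1 : Complex.exp (Complex.log (G w / G z) / k) ^ k = G w / G z := by
      rw [← Complex.exp_nat_mul, mul_div_cancel₀ _ (by exact_mod_cast hk0),
        Complex.exp_log (div_ne_zero hw0 hG0)]
    simp only [h, ψ, mul_pow, hck, e1, hw, smul_eq_mul]
    field_simp
  have hz0 : h z = 0 := by simp [h]
  rcases hha.eventually_constant_or_nhds_le_map_nhds with hc0 | hop
  · apply hnc
    filter_upwards [hc0, hhk] with w hw hw2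
    rw [← hw2, hw, hz0, zero_pow hk0]
  · have hs : {w | w ∈ U ∧ h w ^ k = f w - f z} ∈ 𝓝 z := inter_mem hUz hhk
    have := hop (image_mem_map hs)
    rw [hz0] at this
    obtain ⟨ε, hε, hb⟩ := Metric.mem_nhds_iff.mp this
    have hζ := Complex.isPrimitiveRoot_exp k hk0
    set ζ := Complex.exp (2 * Real.pi * Complex.I / k) with hζd
    have hζ1 : ζ ≠ 1 := hζ.ne_one (by omega)
    have hζn : ‖ζ‖ = 1 := hζ.norm'_eq_one hk0
    obtain ⟨w₁, ⟨hw₁U, hw₁⟩, e₁⟩ := hb (show ((ε / 2 : ℝ) : ℂ) ∈ ball (0 : ℂ) ε by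
      rw [mem_ball_zero_iff, Complex.norm_real, Real.norm_of_nonneg (by positivity)]; linarith)
    obtain ⟨w₂, ⟨hw₂U, hw₂⟩, e₂⟩ := hb (show ζ * ((ε / 2 : ℝ) : ℂ) ∈ ball (0 : ℂ) ε by
      rw [mem_ball_zero_iff, norm_mul, hζn, Complex.norm_real,
        Real.norm_of_nonneg (by positivity)]; linarith)
    have hfe : f w₁ = f w₂ := by
      have : f w₁ - f z = f w₂ - f z := by
        rw [← hw₁, ← hw₂, e₁, e₂, mul_pow, hζ.pow_eq_one, one_mul]
      exact sub_left_inj.mp this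
    have hw := hi hw₁U hw₂U hfe
    rw [hw, e₂] at e₁
    have hε2 : ((ε / 2 : ℝ) : ℂ) ≠ 0 := by
      rw [Ne, Complex.ofReal_eq_zero]; positivity
    exact hζ1 (mul_left_eq_self₀.mp e₁ |>.resolve_right hε2)

end Crest.Agent.R132
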