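import Crest.Agent.R132.BWeight
import Crest.Agent.R132.BCauchy
import Crest.Agent.R132.BNorm
import Crest.Agent.R132.Inj
import Crest.Agent.R132.Factor

/-! Auxiliary statements for the common boundary density. -/

set_option autoImplicit false

open Matrix Complex Polynomial Metric Set Filter Topology
open scoped ComplexOrder MatrixOrder Kronecker Matrix.Norms.L2Operator Real

namespace Crest.Agent.R132B

open Crest.AnalysisR.NumRange

variable {ι : Type} [Fintype ι] [DecidableEq ι]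

theorem aeval_conj {S S' : Matrix ι ι ℂ} (h : S * S' = 1) (h' : S' * S = 1) (A : Matrix ι ι ℂ)
    (q : ℂ[X]) : aeval (S * A * S') q = S * aeval A q * S' := by
  induction q using Polynomial.induction_on with
  | C a => simp only [aeval_C, Algebra.algebraMap_eq_smul_one, Matrix.mul_smul, Matrix.smul_mul,
      Matrix.mul_one, h]
  | add P Q hP hQ => simp only [map_add, hP, hQ, Matrix.mul_add, Matrix.add_mul]
  | monomial n a ih =>
    rw [pow_succ, ← mul_assoc, map_mul, ih, map_mul _ (C a * X ^ n), aeval_X, aeval_X]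
    calc S * aeval A (C a * X ^ n) * S' * (S * A * S')
        = S * aeval A (C a * X ^ n) * (S' * S) * A * S' := by simp only [Matrix.mul_assoc]
      _ = _ := by rw [h']; simp only [Matrix.mul_assoc, Matrix.mul_one]

theorem pk_psd {T : Matrix ι ι ℂ} (hT : spectrum ℂ T ⊆ ball 0 1)
    (h : (1 - Tᴴ * T).PosSemidef) {z : ℂ} (hz : ‖z‖ = 1) : (pk T Tᴴ z).PosSemidef := by
  have hz0 : z ≠ 0 := fun h => by simp [h] at hz
  have hu := isUnit_one_sub_smul hT (z := z⁻¹) (by simp [hz])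
  have hc : star z⁻¹ = z := by
    rw [inv_eq_conj hz]; simp
  have h1 : rs Tᴴ z = (rs T z⁻¹)ᴴ := by
    rw [rs, rs, ← star_eq_conjTranspose, ← star_eq_conjTranspose, ← Ring.inverse_star, star_sub,
      star_one, star_smul, hc]
  have h2 : (1 - z⁻¹ • T) * rs T z⁻¹ = 1 := Ring.mul_inverse_cancel _ hu
  have h3 : (rs T z⁻¹)ᴴ * (1 - z • Tᴴ) = 1 := by
    have := congrArg conjTranspose h2
    rwa [conjTranspose_mul, conjTranspose_sub, conjTranspose_one, conjTranspose_smul, hc] at this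
  refine (congrArg PosSemidef ?_).mpr (h.conjTranspose_mul_mul_same (rs T z⁻¹))
  rw [pk, h1]
  have h4 : 1 - Tᴴ * T = (1 - z • Tᴴ) + (1 - z⁻¹ • T) - (1 - z • Tᴴ) * (1 - z⁻¹ • T) := by
    simp only [Matrix.mul_sub, Matrix.sub_mul, Matrix.mul_one, Matrix.one_mul, Matrix.smul_mul,
      Matrix.mul_smul, smul_sub, smul_smul, inv_mul_cancel₀ hz0, one_smul]
    abel
  rw [h4]
  generalize rs T z⁻¹ = R at *
  generalize 1 - z⁻¹ • T = K at *
  generalize 1 - z • Tᴴ = K' at *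
  simp only [Matrix.mul_sub, Matrix.sub_mul, Matrix.mul_add, Matrix.add_mul, h3, Matrix.one_mul,
    ← Matrix.mul_assoc]
  rw [Matrix.mul_assoc, h2, Matrix.mul_one]
  abel

theorem spectrum_conjTranspose_subset {T : Matrix ι ι ℂ} (hT : spectrum ℂ T ⊆ ball 0 1) :
    spectrum ℂ Tᴴ ⊆ ball 0 1 := by
  intro z hz
  rw [← star_eq_conjTranspose, spectrum.map_star, Set.mem_star] at hz
  simpa using hT hz

theorem spectrum_subset_of_aeval {T : Matrix ι ι ℂ} [Nonempty ι] {s : Multiset ℂ}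
    (h : aeval T (s.map (X - C ·)).prod = 0) {z : ℂ} (hz : z ∈ spectrum ℂ T) : z ∈ s := by
  have h1 := spectrum.subset_polynomial_aeval T (s.map (X - C ·)).prod ⟨z, hz, rfl⟩
  rw [h, spectrum.zero_eq] at h1
  simpa [eval_multiset_prod, sub_eq_zero] using h1

theorem mean_entry {T T' : Matrix ι ι ℂ} (hT : spectrum ℂ T ⊆ ball 0 1)
    (hT' : spectrum ℂ T' ⊆ ball 0 1) {w : ℝ → ℝ} {γ : ℝ → ℂ}
    (h : ∀ (F : ℂ → ℂ), ContinuousOn F (sphere 0 1) →
        (2 * π)⁻¹ • ∫ θ in (0 : ℝ)..2 * π, w θ • F (γ θ) = Real.circleAverage F 0 1)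
    {u : ℂ → ℂ} (hu : ∀ z ∈ closedBall (0 : ℂ) 1, DifferentiableAt ℂ u z) (a b : ι) :
    (2 * π : ℂ)⁻¹ * ∫ θ in (0 : ℝ)..2 * π, (w θ • pk T T' (γ θ)) a b * u (γ θ) =
      cauchy T u a b := by
  let L : Matrix ι ι ℂ →L[ℝ] ℂ := (entryLinearMap ℝ ℂ a b).toContinuousLinearMap
  have hc : ContinuousOn (fun z => u z • pk T T' z) (sphere 0 1) :=
    (contOn_sphere hu).smul (continuousOn_pk hT hT')
  have h1 := L.circleAverage_comp_comm (circInt hc)
  rw [avg_pk hT hT' hu, ← h _ (L.continuous.comp_continuousOn hc)] at h1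
  refine Eq.trans ?_ h1
  rw [real_smul]
  congr 1
  · simp
  · refine intervalIntegral.integral_congr fun θ _ => ?_
    simp [L]
    ring

theorem differentiableAt_invFunOn {U : Set ℂ} {f : ℂ → ℂ} (hU : IsOpen U)
    (hf : DifferentiableOn ℂ f U) (hi : InjOn f U) {z : ℂ} (hz : z ∈ U) :
    DifferentiableAt ℂ (Function.invFunOn f U) (f z) := by
  have h1 := (hf.analyticAt (hU.mem_nhds hz)).hasStrictDerivAt
  refine (h1.to_local_left_inverse (R132.deriv_ne_zero_of_injOn hU hf hi hz) ?_).hasDerivAt.differentiableAt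
  filter_upwards [hU.mem_nhds hz] with y hy
  exact hi.leftInvOn_invFunOn hy

theorem isOpen_image {U W : Set ℂ} {f : ℂ → ℂ} (hU : IsOpen U)
    (hf : DifferentiableOn ℂ f U) (hi : InjOn f U) (hW : IsOpen W) (hWU : W ⊆ U) :
    IsOpen (f '' W) := by
  rw [isOpen_iff_mem_nhds]
  rintro _ ⟨z, hz, rfl⟩
  have h1 := (hf.analyticAt (hU.mem_nhds (hWU hz))).hasStrictDerivAt
  rw [← h1.map_nhds_eq (R132.deriv_ne_zero_of_injOn hU hf hi (hWU hz))]
  exact image_mem_map (hW.mem_nhds hz)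

theorem closedBall_subset_image {Ω U : Set ℂ} (hΩ₂ : Bornology.IsBounded Ω) (hΩU : closure Ω ⊆ U)
    {f : ℂ → ℂ} (hf₁ : DifferentiableOn ℂ f U) (hf₃ : f '' Ω = ball 0 1) :
    closedBall 0 1 ⊆ f '' closure Ω := by
  rw [← closure_ball _ one_ne_zero, ← hf₃]
  exact closure_minimal (image_mono subset_closure)
    (hΩ₂.isCompact_closure.image_of_continuousOn (hf₁.continuousOn.mono hΩU)).isClosed

theorem charpoly_eq_prod {n : ℕ} (A : Matrix (Fin n) (Fin n) ℂ) :
    A.charpoly = (A.charpoly.roots.map (X - C ·)).prod :=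
  (IsAlgClosed.splits A.charpoly).eq_prod_roots_of_monic A.charpoly_monic

theorem charpoly_eval_eq {n : ℕ} (A : Matrix (Fin n) (Fin n) ℂ) (z : ℂ) :
    A.charpoly.eval z = (A.charpoly.roots.map (z - ·)).prod :=
  (IsAlgClosed.splits A.charpoly).eval_eq_prod_roots_of_monic A.charpoly_monic z

theorem root_mem_spectrum {n : ℕ} {A : Matrix (Fin n) (Fin n) ℂ} {μ : ℂ}
    (h : μ ∈ A.charpoly.roots) : μ ∈ spectrum ℂ A :=
  Matrix.mem_spectrum_iff_isRoot_charpoly.mpr (isRoot_of_mem_roots h)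

theorem aeval_psi {n : ℕ} (hn : 1 ≤ n) {A B : Matrix (Fin n) (Fin n) ℂ} {f : ℂ → ℂ} {p : ℂ[X]}
    (hp : AgreesOnSpectrum A f p) (hB : aeval B A.charpoly = 0) :
    aeval (aeval B p) ((A.charpoly.roots.map f).map (X - C ·)).prod = 0 := by
  obtain ⟨c, hc⟩ := dvd_comp A.charpoly.roots (f := f) (p := p) fun μ hμ => by
    simpa using (hp μ (root_mem_spectrum hμ) 0 hn).symm
  rw [← aeval_comp, hc, ← charpoly_eq_prod, map_mul, hB, zero_mul]

/-- the functional calculus of `B` computed through the Cauchy integral of `T = p(B)` -/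
theorem cauchy_comp {n : ℕ} (hn : 1 ≤ n) {A B : Matrix (Fin n) (Fin n) ℂ} {Ω U V : Set ℂ}
    (hΩ₂ : Bornology.IsBounded Ω) (hU : IsOpen U) (hΩU : closure Ω ⊆ U) {f : ℂ → ℂ}
    (hf₁ : DifferentiableOn ℂ f U) (hf₂ : InjOn f U) (hf₃ : f '' Ω = ball 0 1)
    (hA : spectrum ℂ A ⊆ Ω) {p : ℂ[X]} (hp : AgreesOnSpectrum A f p)
    (hB : aeval B A.charpoly = 0) (hT : spectrum ℂ (aeval B p) ⊆ ball 0 1)
    (hV : IsOpen V) (hΩV : closure Ω ⊆ V) {v : ℂ → ℂ} (hv : DifferentiableOn ℂ v V) {q : ℂ[X]}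
    (hq : AgreesOnSpectrum A v q) :
    (∀ z ∈ closedBall (0 : ℂ) 1, DifferentiableAt ℂ (v ∘ Function.invFunOn f U) z) ∧
      cauchy (aeval B p) (v ∘ Function.invFunOn f U) = aeval B q := by
  have hW : IsOpen (U ∩ V) := hU.inter hV
  have hΩW : closure Ω ⊆ U ∩ V := subset_inter hΩU hΩV
  have hW' := isOpen_image hU hf₁ hf₂ hW inter_subset_left
  have hb : closedBall 0 1 ⊆ f '' (U ∩ V) :=
    (closedBall_subset_image hΩ₂ hΩU hf₁ hf₃).trans (image_mono hΩW)
  have hu : ∀ z ∈ f '' (U ∩ V), DifferentiableAt ℂ (v ∘ Function.invFunOn f U) z := by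
    rintro _ ⟨z, hz, rfl⟩
    refine DifferentiableAt.comp _ ?_ (differentiableAt_invFunOn hU hf₁ hf₂ hz.1)
    rw [hf₂.leftInvOn_invFunOn hz.1]
    exact hv.differentiableAt (hV.mem_nhds hz.2)
  have hsp : spectrum ℂ A ⊆ U ∩ V := hA.trans (subset_closure.trans hΩW)
  refine ⟨fun z hz => hu z (hb hz), ?_⟩
  obtain ⟨Q, r, hr, hQ⟩ := exists_div hW' (A.charpoly.roots.map f) (u := v ∘ Function.invFunOn f U)
    (fun μ hμ => by
      obtain ⟨ν, hν, rfl⟩ := Multiset.mem_map.1 hμ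
      exact mem_image_of_mem f (hsp (root_mem_spectrum hν)))
    fun z hz => (hu z hz).differentiableWithinAt
  obtain ⟨r1, hr1, h1⟩ := R132.exists_factor A hW hsp (hf₁.mono inter_subset_left) hp
  obtain ⟨r2, hr2, h2⟩ := R132.exists_factor A hW hsp (hv.mono inter_subset_right) hq
  simp only [charpoly_eval_eq] at h1 h2
  obtain ⟨c, hc⟩ := dvd_sub_comp hW A.charpoly.roots (fun μ hμ => hsp (root_mem_spectrum hμ))
    (r3 := fun z => r (f z)) (Q := Q) (hf₁.mono inter_subset_left) hr1.continuousOn hr2.continuousOn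
    (hr.continuousOn.comp (hf₁.continuousOn.mono inter_subset_left) (mapsTo_image _ _)) h1 h2
    fun z hz => by
      rw [← hQ _ (mem_image_of_mem f hz), Function.comp_apply, hf₂.leftInvOn_invFunOn hz.1]
  rw [cauchy_eq hT (Q := Q) (r := r) (fun z hz => hr.differentiableAt (hW'.mem_nhds (hb hz)))
    (aeval_psi hn hp hB) fun z hz => by
      rw [hQ z (hb (sphere_subset_closedBall hz))]
      simp [eval_multiset_prod]]
  have h3 := congrArg (aeval B) hc
  rw [← charpoly_eq_prod, map_mul, hB, zero_mul, map_sub, aeval_comp, sub_eq_zero] at h3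
  exact h3.symm

end Crest.Agent.R132B
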