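import Mathlib

/-! The boundary weight: change of variables along an injective parametrisation of the circle. -/

set_option autoImplicit false

open Filter Topology Set Metric Complex
open scoped Real

namespace Crest.Agent.R132B

/-- A curve on the unit circle with logarithmic derivative `i w`, `w ≥ 0`, injective on a period,
allows a change of variables. -/
theorem change_var {γ : ℝ → ℂ} {w : ℝ → ℝ} (hw : Continuous w) (hw0 : ∀ θ, 0 ≤ w θ)
    (hγ : ∀ θ, HasDerivAt γ (I * w θ * γ θ) θ) (h1 : ‖γ 0‖ = 1) (hper : γ (2 * π) = γ 0)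
    (hinj : ∀ θ ∈ Ioo 0 (2 * π), γ θ ≠ γ 0)
    {E : Type*} [NormedAddCommGroup E] [NormedSpace ℝ E] [CompleteSpace E] {F : ℂ → E}
    (hF : ContinuousOn F (sphere 0 1)) :
    (2 * π)⁻¹ • ∫ θ in (0 : ℝ)..2 * π, w θ • F (γ θ) = Real.circleAverage F 0 1 := by
  set α := arg (γ 0) with hα
  have hγ0 : γ 0 = circleMap 0 1 α := by
    rw [circleMap, zero_add, ← norm_mul_exp_arg_mul_I (γ 0), h1]
  let Φ : ℝ → ℝ := fun θ => α + ∫ x in (0 : ℝ)..θ, w x
  have hΦ : ∀ θ, HasDerivAt Φ (w θ) θ := fun θ =>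
    (intervalIntegral.integral_hasDerivAt_right (hw.intervalIntegrable _ _)
      (hw.stronglyMeasurableAtFilter _ _) hw.continuousAt).const_add α
  have hΦ0 : Φ 0 = α := by simp [Φ]
  have hΦc : Continuous Φ := continuous_iff_continuousAt.2 fun θ => (hΦ θ).continuousAt
  have hmono : Monotone Φ := monotone_of_deriv_nonneg (fun θ => (hΦ θ).differentiableAt)
    fun θ => by rw [(hΦ θ).deriv]; exact hw0 θ
  have hd : ∀ θ, HasDerivAt (fun θ => γ θ * exp (-(Φ θ * I))) 0 θ := by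
    intro θ
    have h2 := (((hΦ θ).ofReal_comp.mul_const I).neg).cexp
    refine ((hγ θ).fun_mul h2).congr_deriv ?_
    simp only [Pi.neg_apply]
    ring
  have hγΦ : ∀ θ, γ θ = circleMap 0 1 (Φ θ) := by
    intro θ
    have h2 := is_const_of_deriv_eq_zero (fun θ => (hd θ).differentiableAt)
      (fun θ => (hd θ).deriv) θ 0
    simp only [hΦ0, hγ0, circleMap, ofReal_one, one_mul, zero_add, ← exp_add, add_neg_cancel,
      exp_zero] at h2 ⊢
    rw [exp_neg, mul_inv_eq_one₀ (exp_ne_zero _)] at h2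
    exact h2
  have hpi : (0 : ℝ) < 2 * π := Real.two_pi_pos
  have hΦ2 : Φ (2 * π) = α + 2 * π := by
    have h2 := hper
    rw [hγΦ, hγ0, circleMap_eq_circleMap_iff _ one_ne_zero] at h2
    obtain ⟨k, hk⟩ := h2
    have h3 : Φ (2 * π) = α + k * (2 * π) := by
      have := congrArg Complex.im hk
      simpa using this
    have h4 : α ≤ Φ (2 * π) := hΦ0 ▸ hmono hpi.le
    have hk0 : 0 ≤ k := by
      have : (0 : ℝ) ≤ k := nonneg_of_mul_nonneg_left (by linarith) hpi
      exact_mod_cast this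
    rcases hk0.eq_or_lt with h | h
    · exfalso
      have h5 : Φ π = α := by
        refine le_antisymm ?_ (hΦ0 ▸ hmono Real.pi_pos.le)
        have := hmono (show π ≤ 2 * π by linarith [Real.pi_pos])
        rw [h3, ← h] at this
        simpa using this
      exact hinj π ⟨Real.pi_pos, by linarith [Real.pi_pos]⟩ (by rw [hγΦ, h5, hγ0])
    · rcases (show k = 1 ∨ 2 ≤ k by omega) with h | h
      · rw [h3, h]; simp
      · exfalso
        have h5 : (2 : ℝ) ≤ k := by exact_mod_cast h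
        obtain ⟨θ, hθ, hθ'⟩ := intermediate_value_Ioo hpi.le hΦc.continuousOn
          (show α + 2 * π ∈ Ioo (Φ 0) (Φ (2 * π)) by
            rw [hΦ0, h3]; constructor <;> nlinarith)
        exact hinj θ hθ (by rw [hγΦ, hθ', hγ0, periodic_circleMap])
  have hFc : Continuous fun φ => F (circleMap 0 1 φ) :=
    hF.comp_continuous (continuous_circleMap 0 1) fun φ => circleMap_mem_sphere 0 zero_le_one φ
  have h3 := intervalIntegral.integral_deriv_smul_comp (a := 0) (b := 2 * π)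
    (fun x _ => hΦ x) hw.continuousOn hFc
  simp only [Function.comp_apply, ← hγΦ] at h3
  rw [h3, hΦ0, hΦ2, Real.circleAverage_def]
  have t₀ : (fun θ ↦ F (circleMap 0 1 θ)).Periodic (2 * π) :=
    fun x ↦ by simp [periodic_circleMap 0 1 x]
  rw [t₀.intervalIntegral_add_eq α 0, zero_add]

theorem exists_weight {Ω U : Set ℂ} (hΩ₁ : IsOpen Ω) (hU : IsOpen U) (hΩU : closure Ω ⊆ U)
    {f : ℂ → ℂ} (hf₁ : DifferentiableOn ℂ f U) (hf₂ : Set.InjOn f U)
    (hf₃ : f '' Ω = Metric.ball 0 1) {G : ℂ → ℂ} {r : ℝ} (hr₂ : r < 1)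
    (hG₁ : DifferentiableOn ℂ G {t : ℂ | r < ‖t‖}) (hG₂ : Set.InjOn G {t : ℂ | r < ‖t‖})
    (hG₃ : G '' {t : ℂ | 1 < ‖t‖} = (closure Ω)ᶜ) :
    ∃ w : ℂ → ℝ, ContinuousOn w (sphere 0 1) ∧ (∀ t ∈ sphere (0 : ℂ) 1, 0 ≤ w t) ∧
      (∀ t ∈ sphere (0 : ℂ) 1, G t ∈ closure Ω) ∧ (∀ t ∈ sphere (0 : ℂ) 1, ‖f (G t)‖ = 1) ∧
      ContinuousOn G (sphere 0 1) ∧
      ∀ {E : Type} [NormedAddCommGroup E] [NormedSpace ℝ E] [CompleteSpace E] (F : ℂ → E),
        ContinuousOn F (sphere 0 1) →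
        (2 * π)⁻¹ • ∫ θ in (0 : ℝ)..2 * π, w (exp (θ * I)) • F (f (G (exp (θ * I)))) =
          Real.circleAverage F 0 1 := by
  have hO : IsOpen {t : ℂ | r < ‖t‖} := isOpen_lt continuous_const continuous_norm
  have hsO : ∀ t ∈ sphere (0 : ℂ) 1, t ∈ {t : ℂ | r < ‖t‖} := fun t ht => by
    rw [mem_sphere_zero_iff_norm] at ht
    simpa [ht] using hr₂
  have hGc : ∀ t ∈ sphere (0 : ℂ) 1, ContinuousAt G t := fun t ht =>
    hG₁.continuousOn.continuousAt (hO.mem_nhds (hsO t ht))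
  have hG1 : ∀ t ∈ sphere (0 : ℂ) 1, G t ∈ closure Ω := by
    intro t ht
    by_contra h
    obtain ⟨t', ht', h'⟩ := hG₃.symm ▸ (show G t ∈ (closure Ω)ᶜ from h)
    have := hG₂ (show r < ‖t'‖ from hr₂.trans ht') (hsO t ht) h'
    rw [mem_sphere_zero_iff_norm] at ht
    rw [this] at ht'
    simp [ht] at ht'
  -- radial approach from outside
  have hrad : ∀ t ∈ sphere (0 : ℂ) 1, Tendsto (fun s : ℝ => G (s * t)) (𝓝 1) (𝓝 (G t)) := by
    intro t ht
    refine (hGc t ht).tendsto.comp ?_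
    have : Continuous fun s : ℝ => (s : ℂ) * t := by fun_prop
    simpa using this.tendsto 1
  have hout : ∀ t ∈ sphere (0 : ℂ) 1, ∀ s : ℝ, 1 < s → G (s * t) ∉ closure Ω := by
    intro t ht s hs
    rw [mem_sphere_zero_iff_norm] at ht
    have : G (s * t) ∈ (closure Ω)ᶜ := hG₃ ▸ mem_image_of_mem G (by
      simp only [mem_ofPred_eq, norm_mul, ht, norm_real, mul_one, Real.norm_eq_abs]
      exact hs.trans_le (le_abs_self s))
    exact this
  have hG2 : ∀ t ∈ sphere (0 : ℂ) 1, G t ∉ Ω := by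
    intro t ht
    have h1 : Tendsto (fun s : ℝ => G (s * t)) (𝓝[>] 1) (𝓝 (G t)) :=
      (hrad t ht).mono_left nhdsWithin_le_nhds
    refine hΩ₁.isClosed_compl.mem_of_tendsto h1 ?_
    filter_upwards [self_mem_nhdsWithin] with s hs
    exact fun h => hout t ht s hs (subset_closure h)
  have hge : ∀ z ∈ U, z ∉ Ω → 1 ≤ ‖f z‖ := by
    intro z hz hz'
    by_contra h
    obtain ⟨ω, hω, hω'⟩ := hf₃.symm ▸ (show f z ∈ ball (0 : ℂ) 1 by simpa using h)
    exact hz' (hf₂ (hΩU (subset_closure hω)) hz hω' ▸ hω)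
  have hle : ∀ z ∈ closure Ω, ‖f z‖ ≤ 1 := by
    intro z hz
    have h1 : f z ∈ closure (f '' Ω) :=
      (hf₁.continuousOn.mono hΩU).image_closure ⟨z, hz, rfl⟩
    rw [hf₃, closure_ball _ one_ne_zero] at h1
    simpa using h1
  have hn : ∀ t ∈ sphere (0 : ℂ) 1, ‖f (G t)‖ = 1 := fun t ht =>
    le_antisymm (hle _ (hG1 t ht)) (hge _ (hΩU (hG1 t ht)) (hG2 t ht))
  let h : ℂ → ℂ := fun t => f (G t)
  have hha : ∀ t ∈ sphere (0 : ℂ) 1, AnalyticAt ℂ h t := fun t ht =>
    (hf₁.analyticAt (hU.mem_nhds (hΩU (hG1 t ht)))).fun_comp (hG₁.analyticAt (hO.mem_nhds (hsO t ht)))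
  let w : ℂ → ℝ := fun t => (t * deriv h t * (starRingEnd ℂ) (h t)).re
  have hwc : ContinuousOn w (sphere 0 1) := by
    intro t ht
    refine ContinuousAt.continuousWithinAt ?_
    have h1 := (hha t ht).continuousAt
    have h2 := (hha t ht).deriv.continuousAt
    exact continuous_re.continuousAt.comp
      ((continuousAt_id.mul h2).mul (continuous_conj.continuousAt.comp h1))
  have hw0 : ∀ t ∈ sphere (0 : ℂ) 1, 0 ≤ w t := by
    intro t ht
    have h1 : HasDerivAt (fun s : ℝ => h (s * t)) (deriv h t * t) 1 := by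
      have h2 : HasDerivAt h (deriv h t) (((1 : ℝ) : ℂ) * t) := by
        simpa using (hha t ht).differentiableAt.hasDerivAt
      have h3 : HasDerivAt (fun s : ℂ => s * t) t ((1 : ℝ) : ℂ) := by
        simpa using (hasDerivAt_id ((1 : ℝ) : ℂ)).mul_const t
      exact (HasDerivAt.comp (h := fun s : ℂ => s * t) _ h2 h3).comp_ofReal
    have h2 := h1.norm_sq
    have h3 : ∀ᶠ s : ℝ in 𝓝[>] 1, 0 ≤ slope (fun s : ℝ => ‖h (s * t)‖ ^ 2) 1 s := by
      filter_upwards [self_mem_nhdsWithin,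
        nhdsWithin_le_nhds ((hrad t ht).eventually (hU.mem_nhds (hΩU (hG1 t ht))))] with s hs hs'
      have h4 := hge _ hs' fun h => hout t ht s hs (subset_closure h)
      rw [slope_def_field]
      refine div_nonneg ?_ (sub_nonneg.2 (le_of_lt hs))
      simp only [ofReal_one, one_mul, h, hn t ht]
      nlinarith
    have h4 := ge_of_tendsto (h2.tendsto_slope.mono_left (nhdsGT_le_nhdsNE 1)) h3
    simp only [ofReal_one, one_mul, Complex.inner] at h4
    simp only [w]
    rw [mul_comm t]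
    linarith
  have he : ∀ θ : ℝ, exp (θ * I) ∈ sphere (0 : ℂ) 1 := fun θ => by simp
  have hγ0 : ∀ θ : ℝ, HasDerivAt (fun θ : ℝ => h (exp (θ * I)))
      (deriv h (exp (θ * I)) * (exp (θ * I) * I)) θ := by
    intro θ
    have h3 : HasDerivAt (fun s : ℂ => exp (s * I)) (exp (θ * I) * I) (θ : ℂ) := by
      simpa using ((hasDerivAt_id (θ : ℂ)).mul_const I).cexp
    exact (HasDerivAt.comp (h := fun s : ℂ => exp (s * I)) _
      (hha _ (he θ)).differentiableAt.hasDerivAt h3).comp_ofReal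
  have hγ : ∀ θ : ℝ, HasDerivAt (fun θ : ℝ => h (exp (θ * I)))
      (I * (w (exp (θ * I))) * h (exp (θ * I))) θ := by
    intro θ
    have h1 := (hγ0 θ).norm_sq
    have h2 : (fun θ : ℝ => ‖h (exp (θ * I))‖ ^ 2) = fun _ => 1 := by
      funext θ
      simp only [h, hn _ (he θ), one_pow]
    rw [h2] at h1
    have h3 := h1.unique (hasDerivAt_const θ 1)
    convert hγ0 θ using 1
    have h4 : (starRingEnd ℂ) (h (exp (θ * I))) * h (exp (θ * I)) = 1 := by
      rw [conj_mul', hn _ (he θ)]; simp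
    simp only [w]
    generalize h (exp (θ * I)) = a at *
    generalize deriv h (exp (θ * I)) = b at *
    generalize exp (θ * I) = c at *
    have h5 : (c * b * (starRingEnd ℂ) a).im = 0 := by
      simp only [Complex.inner, mul_eq_zero, OfNat.ofNat_ne_zero, false_or] at h3
      have : b * (c * I) * (starRingEnd ℂ) a = (c * b * (starRingEnd ℂ) a) * I := by ring
      rw [this, mul_I_re, neg_eq_zero] at h3
      exact h3
    have h6 : (((c * b * (starRingEnd ℂ) a).re : ℝ) : ℂ) = c * b * (starRingEnd ℂ) a := by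
      apply Complex.ext <;> simp [-mul_im, -mul_re, h5]
    rw [h6]
    linear_combination (I * c * b) * h4
  refine ⟨w, hwc, hw0, hG1, hn, fun t ht => (hGc t ht).continuousWithinAt, fun F hF => ?_⟩
  refine change_var (γ := fun θ : ℝ => h (exp (θ * I))) (w := fun θ => w (exp (θ * I)))
    (hwc.comp_continuous (by fun_prop) he) (fun θ => hw0 _ (he θ)) hγ (hn _ (he 0)) ?_ ?_ hF
  · simp
  · intro θ hθ h1
    have h2 := hG₂ (hsO _ (he θ)) (hsO _ (he 0))
      (hf₂ (hΩU (hG1 _ (he θ))) (hΩU (hG1 _ (he 0))) h1)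
    rw [exp_eq_exp_iff_exists_int] at h2
    obtain ⟨k, hk⟩ := h2
    have h3 : θ = k * (2 * π) := by simpa using congrArg Complex.im hk
    obtain ⟨h4, h5⟩ := hθ
    rw [h3] at h4 h5
    have h6 : (0 : ℝ) < k := by nlinarith [Real.two_pi_pos]
    have h7 : (k : ℝ) < 1 := by nlinarith [Real.two_pi_pos]
    have h8 : 0 < k := by exact_mod_cast h6
    have h9 : k < 1 := by exact_mod_cast h7
    omega

end Crest.Agent.R132B
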