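import Crest.Agent.R132.Scalar

/-! Finite-dimensional linear algebra used in the main estimate. -/

open Matrix
open scoped ComplexConjugate InnerProductSpace

namespace Crest.Agent.R132

theorem hs_eq_trace {ι κ : Type*} [Fintype ι] [Fintype κ] (M : Matrix ι κ ℂ) :
    ((∑ i, ∑ j, ‖M i j‖ ^ 2 : ℝ) : ℂ) = (M * Mᴴ).trace := by
  simp only [Matrix.trace, Matrix.diag, Matrix.mul_apply, Matrix.conjTranspose_apply]
  push_cast
  refine Finset.sum_congr rfl fun i _ => Finset.sum_congr rfl fun j _ => ?_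
  rw [mul_comm, Complex.star_def, conj_mul_self]; push_cast; rfl

theorem gram_ineq {ι α : Type*} [Fintype ι] [Fintype α] (X Y : Matrix ι α ℂ) :
    ∑ i, ∑ j, ‖(X * Yᴴ) i j‖ ^ 2 ≤
      (∑ i, ∑ j, ‖(X * Xᴴ) i j‖ ^ 2 + ∑ i, ∑ j, ‖(Y * Yᴴ) i j‖ ^ 2) / 2 := by
  have key : ∀ X Y : Matrix ι α ℂ, ((∑ i, ∑ j, ‖(X * Yᴴ) i j‖ ^ 2 : ℝ) : ℂ) =
      (Xᴴ * X * (Yᴴ * Y)).trace := by
    intro X Y
    rw [hs_eq_trace, conjTranspose_mul, conjTranspose_conjTranspose, ← Matrix.mul_assoc,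
      Matrix.trace_mul_comm]
    simp only [Matrix.mul_assoc]
  have h0 : 0 ≤ ∑ a, ∑ b, ‖(Xᴴ * X - Yᴴ * Y) a b‖ ^ 2 := by positivity
  have h1 := hs_eq_trace (Xᴴ * X - Yᴴ * Y)
  rw [conjTranspose_sub, conjTranspose_mul, conjTranspose_mul, conjTranspose_conjTranspose,
    conjTranspose_conjTranspose, Matrix.sub_mul, Matrix.mul_sub, Matrix.mul_sub, trace_sub,
    trace_sub, trace_sub, Matrix.trace_mul_comm (Yᴴ * Y) (Xᴴ * X), ← key, ← key, ← key] at h1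
  have h2 : ∑ a, ∑ b, ‖(Xᴴ * X - Yᴴ * Y) a b‖ ^ 2 = ∑ i, ∑ j, ‖(X * Xᴴ) i j‖ ^ 2 -
      ∑ i, ∑ j, ‖(X * Yᴴ) i j‖ ^ 2 - (∑ i, ∑ j, ‖(X * Yᴴ) i j‖ ^ 2 -
        ∑ i, ∑ j, ‖(Y * Yᴴ) i j‖ ^ 2) := by exact_mod_cast h1
  linarith

variable {E : Type*} [NormedAddCommGroup E] [InnerProductSpace ℂ E]

theorem pos_ineq [FiniteDimensional ℂ E] {ι : Type*} [Fintype ι] {M : E →L[ℂ] E}
    (hM : M.IsPositive) (ξ η : ι → E) :
    ∑ i, ∑ j, ‖⟪ξ i, M (η j)⟫_ℂ‖ ^ 2 ≤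
      (∑ i, ∑ j, ‖⟪ξ i, M (ξ j)⟫_ℂ‖ ^ 2 + ∑ i, ∑ j, ‖⟪η i, M (η j)⟫_ℂ‖ ^ 2) / 2 := by
  obtain ⟨m, u, rfl⟩ := ContinuousLinearMap.isPositive_iff_eq_sum_rankOne.mp hM
  have key : ∀ (ξ η : ι → E) (i j : ι),
      ⟪ξ i, (∑ a : Fin m, InnerProductSpace.rankOne ℂ (u a) (u a)) (η j)⟫_ℂ =
      ((Matrix.of fun i a => ⟪ξ i, u a⟫_ℂ) * (Matrix.of fun i a => ⟪η i, u a⟫_ℂ)ᴴ) i j := by
    intro ξ η i j
    simp only [ContinuousLinearMap.sum_apply, InnerProductSpace.rankOne_apply, inner_sum,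
      inner_smul_right, Matrix.mul_apply, Matrix.conjTranspose_apply, Matrix.of_apply,
      Complex.star_def, inner_conj_symm]
    exact Finset.sum_congr rfl fun _ _ => mul_comm _ _
  simp only [key]
  exact gram_ineq _ _

theorem row_bound {ι : Type*} [Fintype ι] [DecidableEq ι] {Θ : Matrix ι ι ℂ} {M : ℝ}
    (hΘ : ‖Matrix.toEuclideanCLM (n := ι) (𝕜 := ℂ) Θ‖ ≤ M) (s : ι → ℂ) :
    ∑ j, ‖∑ l, Θ j l * s l‖ ^ 2 ≤ M ^ 2 * ∑ l, ‖s l‖ ^ 2 := by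
  have h1 := (Matrix.toEuclideanCLM (n := ι) (𝕜 := ℂ) Θ).le_of_opNorm_le hΘ (WithLp.toLp 2 s)
  have h2 := pow_le_pow_left₀ (norm_nonneg _) h1 2
  rw [mul_pow, EuclideanSpace.norm_sq_eq, EuclideanSpace.norm_sq_eq] at h2
  simpa [Matrix.mulVec, dotProduct] using h2

theorem col_bound {ι : Type*} [Fintype ι] [DecidableEq ι] {Θ : Matrix ι ι ℂ} {M : ℝ}
    (hΘ : ‖Matrix.toEuclideanCLM (n := ι) (𝕜 := ℂ) Θ‖ ≤ M) (s : ι → ℂ) :
    ∑ l, ‖∑ j, Θ j l * s j‖ ^ 2 ≤ M ^ 2 * ∑ j, ‖s j‖ ^ 2 := by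
  have h1 : ‖Matrix.toEuclideanCLM (n := ι) (𝕜 := ℂ) (star Θ)‖ ≤ M := by
    rwa [map_star, ContinuousLinearMap.star_eq_adjoint, LinearIsometryEquiv.norm_map]
  have h2 := row_bound h1 (fun j => conj (s j))
  simp only [Complex.norm_conj] at h2
  refine le_trans (le_of_eq ?_) h2
  refine Finset.sum_congr rfl fun l _ => ?_
  rw [← Complex.norm_conj, map_sum]
  simp [Matrix.star_apply]

theorem exists_singular {F : Type*} [NormedAddCommGroup F] [InnerProductSpace ℂ F]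
    [FiniteDimensional ℂ F] (T : F →L[ℂ] F) (hT : T ≠ 0) :
    ∃ x y : F, ‖x‖ = 1 ∧ ‖y‖ = 1 ∧ T y = (‖T‖ : ℂ) • x ∧
      ∀ z, ⟪x, T z⟫_ℂ = (‖T‖ : ℂ) * ⟪y, z⟫_ℂ := by
  have : ProperSpace F := FiniteDimensional.proper ℂ F
  have : CompleteSpace F := FiniteDimensional.complete ℂ F
  have hT0 : 0 < ‖T‖ := norm_pos_iff.mpr hT
  have hnt : Nontrivial F := by
    by_contra hn
    rw [not_nontrivial_iff_subsingleton] at hn
    exact hT (by ext x; exact Subsingleton.elim _ _)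
  obtain ⟨y, hy, hmax⟩ := (isCompact_sphere (0 : F) 1).exists_isMaxOn
    (NormedSpace.sphere_nonempty.mpr zero_le_one) (f := fun z => ‖T z‖) (by fun_prop)
  have hy1 : ‖y‖ = 1 := by simpa using hy
  have hTy : ‖T y‖ = ‖T‖ := by
    refine le_antisymm (by simpa [hy1] using T.le_opNorm y) ?_
    exact ContinuousLinearMap.opNorm_le_of_unit_norm (norm_nonneg _) fun z hz =>
      hmax (by simpa using hz)
  have hc : ((‖T‖ : ℝ) : ℂ) ≠ 0 := by exact_mod_cast hT0.ne'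
  set x : F := ((‖T‖ : ℂ))⁻¹ • T y with hx
  have hx1 : ‖x‖ = 1 := by
    rw [hx, norm_smul, hTy, norm_inv, Complex.norm_real, norm_norm, inv_mul_cancel₀ hT0.ne']
  have hTyx : T y = (‖T‖ : ℂ) • x := by rw [hx, smul_inv_smul₀ hc]
  refine ⟨x, y, hx1, hy1, hTyx, fun z => ?_⟩
  have h1 : ContinuousLinearMap.adjoint T x = (‖T‖ : ℂ) • y := by
    have a1 : ‖ContinuousLinearMap.adjoint T x‖ ≤ ‖T‖ := by
      simpa [hx1] using (ContinuousLinearMap.adjoint T).le_opNorm x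
    have a2 : ⟪ContinuousLinearMap.adjoint T x, y⟫_ℂ = (‖T‖ : ℂ) := by
      rw [ContinuousLinearMap.adjoint_inner_left, hTyx, inner_smul_right,
        inner_self_eq_norm_sq_to_K, hx1]; simp
    have a3 := @norm_sub_sq ℂ _ _ _ _ (ContinuousLinearMap.adjoint T x) ((‖T‖ : ℂ) • y)
    rw [inner_smul_right, a2, norm_smul, hy1, Complex.norm_real, norm_norm] at a3
    simp only [RCLike.re_to_complex, Complex.mul_re, Complex.ofReal_re, Complex.ofReal_im,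
      mul_zero, sub_zero, mul_one] at a3
    have a4 := pow_le_pow_left₀ (norm_nonneg _) a1 2
    have a5 : ‖ContinuousLinearMap.adjoint T x - (‖T‖ : ℂ) • y‖ ^ 2 ≤ 0 := by nlinarith
    exact sub_eq_zero.mp (norm_eq_zero.mp (pow_eq_zero_iff two_ne_zero |>.mp
      (le_antisymm a5 (sq_nonneg _))))
  rw [← ContinuousLinearMap.adjoint_inner_left, h1, inner_smul_left, Complex.conj_ofReal]

end Crest.Agent.R132
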