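import Crest.Agent.R132.Op
import Crest.Agent.R132.Gram

/-! The main estimate, given a conformal parametrisation with convex level curve. -/

open Filter Topology Set Metric MeasureTheory Polynomial
open scoped Real ComplexConjugate InnerProductSpace

namespace Crest.Agent.R132

variable {E : Type*} [NormedAddCommGroup E] [InnerProductSpace ℂ E] [CompleteSpace E]

namespace Conf
variable {g : ℂ → ℂ} {R : ℝ} (h : Conf g R) {A : E →L[ℂ] E}
  (hU : ∀ u ∈ ball (0 : ℂ) R, IsUnit (1 - g u • A))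
include h hU

omit h in
theorem isPositive_CK {u : ℂ} (hu : u ∈ ball (0 : ℂ) R)
    (K1 : ∀ x : E, ‖x‖ = 1 → 0 ≤ (qq g u * conj (1 - g u * ⟪x, A x⟫_ℂ)).re) :
    (CK g A u + ContinuousLinearMap.adjoint (CK g A u)).IsPositive := by
  have key : ∀ y : E, 0 ≤ (⟪y, CK g A u y⟫_ℂ).re := by
    intro y
    set x := Ring.inverse (1 - g u • A) y with hx
    have hy : y = x - g u • A x := by
      have h1 := congrArg (fun T : E →L[ℂ] E => T y) (Ring.mul_inverse_cancel _ (hU u hu))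
      simp only [ContinuousLinearMap.mul_apply, ContinuousLinearMap.sub_apply,
        ContinuousLinearMap.one_apply, ContinuousLinearMap.smul_apply] at h1
      exact h1.symm
    have e : ⟪y, CK g A u y⟫_ℂ = qq g u * conj (⟪x, x⟫_ℂ - g u * ⟪x, A x⟫_ℂ) := by
      simp only [CK, ContinuousLinearMap.smul_apply, inner_smul_right, ← hx]
      rw [← inner_conj_symm, hy, inner_sub_right, inner_smul_right]
    rw [e]
    by_cases hx0 : x = 0
    · simp [hx0]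
    have hn : ‖x‖ ≠ 0 := norm_ne_zero_iff.mpr hx0
    have hn' : ((‖x‖ : ℝ) : ℂ) ≠ 0 := by exact_mod_cast hn
    have k := K1 (((‖x‖⁻¹ : ℝ) : ℂ) • x)
      (by rw [norm_smul, Complex.norm_real, norm_inv, norm_norm, inv_mul_cancel₀ hn])
    have e2 : qq g u * conj (⟪x, x⟫_ℂ - g u * ⟪x, A x⟫_ℂ) = ((‖x‖ ^ 2 : ℝ) : ℂ) *
        (qq g u * conj (1 - g u * ⟪((‖x‖⁻¹ : ℝ) : ℂ) • x, A (((‖x‖⁻¹ : ℝ) : ℂ) • x)⟫_ℂ)) := by
      rw [inner_self_eq_norm_sq_to_K, map_smul, inner_smul_left, inner_smul_right]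
      simp only [map_sub, map_mul, map_pow, Complex.conj_ofReal, map_one, Complex.coe_algebraMap]
      push_cast
      field_simp
    rw [e2, Complex.re_ofReal_mul]
    exact mul_nonneg (sq_nonneg _) k
  rw [ContinuousLinearMap.isPositive_iff_complex]
  intro x
  have e : ⟪(CK g A u + ContinuousLinearMap.adjoint (CK g A u)) x, x⟫_ℂ =
      ((2 * (⟪x, CK g A u x⟫_ℂ).re : ℝ) : ℂ) := by
    rw [ContinuousLinearMap.add_apply, inner_add_left, ContinuousLinearMap.adjoint_inner_left,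
      ← inner_conj_symm (CK g A u x), add_comm, Complex.add_conj]
  rw [e]
  simp only [RCLike.re_to_complex, Complex.ofReal_re, true_and]
  linarith [key x]

omit h hU in
theorem inner_CK_add (u : ℂ) (x y : E) :
    ⟪x, (CK g A u + ContinuousLinearMap.adjoint (CK g A u)) y⟫_ℂ =
      conj (cc g A y x u) + cc g A x y u := by
  rw [ContinuousLinearMap.add_apply, inner_add_right, ContinuousLinearMap.adjoint_inner_right,
    cc, cc, inner_conj_symm, add_comm]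

theorem mean_sq_add (x y : E) :
    mean (fun θ => ‖conj (cc g A y x (ec θ)) + cc g A x y (ec θ)‖ ^ 2) =
      mean (fun θ => ‖cc g A y x (ec θ)‖ ^ 2) + mean (fun θ => ‖cc g A x y (ec θ)‖ ^ 2) +
        2 * ‖⟪x, y⟫_ℂ‖ ^ 2 := by
  have c1 := h.cont_cc hU x y
  have c2 := h.cont_cc hU y x
  rw [mean_norm_add_sq (by fun_prop) c1]
  simp only [Complex.norm_conj, Complex.conj_conj]
  rw [mean_holo (f := fun u => cc g A y x u * cc g A x y u) h.one_lt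
    ((h.diff_cc hU y x).mul (h.diff_cc hU x y)), h.cc_zero, h.cc_zero, ← inner_conj_symm y x,
    conj_mul_self, Complex.ofReal_re]

theorem core [FiniteDimensional ℂ E]
    (K1 : ∀ u : ℂ, ‖u‖ = 1 → ∀ x : E, ‖x‖ = 1 →
      0 ≤ (qq g u * conj (1 - g u * ⟪x, A x⟫_ℂ)).re)
    (K2 : ∀ u v : ℂ, ‖u‖ = 1 → ‖v‖ = 1 → 0 ≤ (qq g u * conj (1 - g u * (g v)⁻¹)).re)
    {V : Set ℂ} (hVo : IsOpen V) (hVc : Convex ℝ V) (hΓ : ∀ θ, (g (ec θ))⁻¹ ∈ V)
    {ι : Type*} [Fintype ι] [DecidableEq ι] {Θ : ℂ → Matrix ι ι ℂ} {q : ι → ι → ℂ[X]} {χ : ℂ[X]}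
    (hχ : aeval A χ = 0) {r : ι → ι → ℂ → ℂ} (hr : ∀ i j, DifferentiableOn ℂ (r i j) V)
    (hΘ : ∀ z ∈ V, ∀ i j, Θ z i j = (q i j).eval z + χ.eval z * r i j z) {M : ℝ}
    (hM : ∀ z ∈ V, ‖Matrix.toEuclideanCLM (n := ι) (𝕜 := ℂ) (Θ z)‖ ≤ M)
    {ξ η : ι → E} {κ : ℝ} (hξ : ∃ i, ξ i ≠ 0)
    (h1 : ∀ j, ∑ l, aeval A (q j l) (η l) = (κ : ℂ) • ξ j)
    (h2 : ∀ l w, ∑ j, ⟪ξ j, aeval A (q j l) w⟫_ℂ = (κ : ℂ) * ⟪η l, w⟫_ℂ) :
    κ ^ 2 ≤ 4 * M ^ 2 := by
  have hc := h.cont_cc hU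
  obtain ⟨T, hT⟩ : ∃ T : ι → ι → ℝ → ℂ, ∀ j l θ, Θ (g (ec θ))⁻¹ j l = T j l θ :=
    ⟨_, fun _ _ _ => rfl⟩
  have hTc : ∀ j l, Continuous (T j l) := by
    intro j l
    have : T j l = fun θ => (q j l).eval (g (ec θ))⁻¹ +
        χ.eval (g (ec θ))⁻¹ * r j l (g (ec θ))⁻¹ := by
      ext θ; rw [← hT, hΘ _ (hΓ θ)]
    rw [this]
    exact ((q j l).continuous.comp h.cont_ginv).add ((χ.continuous.comp h.cont_ginv).mul
      ((hr j l).continuousOn.comp_continuous h.cont_ginv hΓ))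
  have hF : ∀ (F : ℂ[X]) (j l : ι) (x y : E),
      mean (fun θ => T j l θ * cc g A x y (ec θ) * F.eval (g (ec θ))⁻¹) =
        ⟪x, aeval A (F * q j l) y⟫_ℂ := by
    intro F j l x y
    rw [← h.mean_cauchy hU hVo hVc hΓ (F * q j l) χ hχ (r := fun z => F.eval z * r j l z)
      (F.differentiable.differentiableOn.mul (hr j l)) x y]
    refine mean_congr fun θ => ?_
    rw [← hT, hΘ _ (hΓ θ), eval_mul]; ring
  have hfab : ∀ k θ, conj (ec θ) ^ k + LL g k (ec θ) = (faber g k).eval (g (ec θ))⁻¹ := by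
    intro k θ; rw [LL, conj_ec]; ring
  have hFc : ∀ F : ℂ[X], Continuous fun θ => F.eval (g (ec θ))⁻¹ := fun F =>
    F.continuous.comp h.cont_ginv
  -- the scalar test
  have test : ∀ (x y : E) (φ : ℝ → ℂ), Continuous φ →
      (∀ F : ℂ[X], mean (fun θ => φ θ * F.eval (g (ec θ))⁻¹) = κ * ⟪x, aeval A F y⟫_ℂ) →
      κ ^ 2 * (mean (fun θ => ‖cc g A x y (ec θ)‖ ^ 2) + ‖⟪x, y⟫_ℂ‖ ^ 2) ≤
        2 * mean (fun θ => ‖φ θ‖ ^ 2) := by
    intro x y φ hφ hφF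
    have := scalar_test hφ (L := fun k θ => LL g k (ec θ)) h.cont_LL h.mean_pow_LL
      (h.mean_sq_LL_le K2) (u := fun u => κ * cc g A x y u) h.one_lt
      ((h.diff_cc hU x y).const_mul _) (by
        have := hφF 1
        simp only [eval_one, mul_one, map_one, ContinuousLinearMap.one_apply] at this
        rw [h.cc_zero, this]) (by
        intro k _
        simp only [hfab, hφF, mul_left_comm _ (κ : ℂ), mean_const_mul, h.mean_faber hU])
    simp only [norm_mul, mul_pow, Complex.norm_real, Real.norm_eq_abs, sq_abs,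
      mean_const_mul_real, h.cc_zero] at this
    linarith
  set σ : ℝ := ∑ i, ∑ l, mean (fun θ => ‖cc g A (ξ i) (η l) (ec θ)‖ ^ 2) with hσ
  have ta : κ ^ 2 * ∑ i, ∑ j, (mean (fun θ => ‖cc g A (ξ i) (ξ j) (ec θ)‖ ^ 2) +
      ‖⟪ξ i, ξ j⟫_ℂ‖ ^ 2) ≤ 2 * M ^ 2 * σ := by
    rw [hσ, Finset.mul_sum, Finset.mul_sum]
    refine Finset.sum_le_sum fun i _ => ?_
    rw [Finset.mul_sum]
    refine (Finset.sum_le_sum fun j _ => test (ξ i) (ξ j)
      (fun θ => ∑ l, T j l θ * cc g A (ξ i) (η l) (ec θ)) (by fun_prop) ?_).trans ?_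
    · intro F
      simp only [Finset.sum_mul]
      rw [mean_sum' _ (fun l => by exact ((hTc j l).mul (hc _ _)).mul (hFc F))]
      simp only [hF, map_mul, ContinuousLinearMap.mul_apply]
      rw [← inner_sum, ← map_sum, h1, map_smul, inner_smul_right]
    · rw [← Finset.mul_sum, mul_assoc, ← mean_sum' _ (fun _ => by fun_prop),
        ← mean_sum' _ (fun _ => by fun_prop), ← mean_const_mul_real (M ^ 2)]
      refine mul_le_mul_of_nonneg_left ?_ zero_le_two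
      refine mean_mono (by fun_prop) (by fun_prop) fun θ => ?_
      simp only [← hT]
      exact row_bound (hM _ (hΓ θ)) _
  have tb : κ ^ 2 * ∑ i, ∑ l, (mean (fun θ => ‖cc g A (η l) (η i) (ec θ)‖ ^ 2) +
      ‖⟪η l, η i⟫_ℂ‖ ^ 2) ≤ 2 * M ^ 2 * σ := by
    rw [hσ, Finset.sum_comm (f := fun i l => mean (fun θ => ‖cc g A (ξ i) (η l) (ec θ)‖ ^ 2)),
      Finset.mul_sum, Finset.mul_sum]
    refine Finset.sum_le_sum fun i _ => ?_
    rw [Finset.mul_sum]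
    refine (Finset.sum_le_sum fun l _ => test (η l) (η i)
      (fun θ => ∑ j, T j l θ * cc g A (ξ j) (η i) (ec θ)) (by fun_prop) ?_).trans ?_
    · intro F
      simp only [Finset.sum_mul]
      rw [mean_sum' _ (fun j => by exact ((hTc j l).mul (hc _ _)).mul (hFc F))]
      simp only [hF, mul_comm F, map_mul, ContinuousLinearMap.mul_apply]
      exact h2 _ _
    · rw [← Finset.mul_sum, mul_assoc, ← mean_sum' _ (fun _ => by fun_prop),
        ← mean_sum' _ (fun _ => by fun_prop), ← mean_const_mul_real (M ^ 2)]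
      refine mul_le_mul_of_nonneg_left ?_ zero_le_two
      refine mean_mono (by fun_prop) (by fun_prop) fun θ => ?_
      simp only [← hT]
      exact col_bound (hM _ (hΓ θ)) _
  rw [Finset.sum_comm] at tb
  set a := ∑ i, ∑ j, (mean (fun θ => ‖cc g A (ξ i) (ξ j) (ec θ)‖ ^ 2) + ‖⟪ξ i, ξ j⟫_ℂ‖ ^ 2)
    with ha
  set b := ∑ i, ∑ j, (mean (fun θ => ‖cc g A (η i) (η j) (ec θ)‖ ^ 2) + ‖⟪η i, η j⟫_ℂ‖ ^ 2)
    with hb
  have hsum : ∀ ζ ζ' : ι → E, mean (fun θ => ∑ i, ∑ j,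
      ‖conj (cc g A (ζ' j) (ζ i) (ec θ)) + cc g A (ζ i) (ζ' j) (ec θ)‖ ^ 2) =
      ∑ i, ∑ j, (mean (fun θ => ‖cc g A (ζ' j) (ζ i) (ec θ)‖ ^ 2) +
        mean (fun θ => ‖cc g A (ζ i) (ζ' j) (ec θ)‖ ^ 2) + 2 * ‖⟪ζ i, ζ' j⟫_ℂ‖ ^ 2) := by
    intro ζ ζ'
    rw [mean_sum' _ (fun _ => by fun_prop)]
    refine Finset.sum_congr rfl fun i _ => ?_
    rw [mean_sum' _ (fun _ => by fun_prop)]
    exact Finset.sum_congr rfl fun j _ => h.mean_sq_add hU _ _
  have hdiag : ∀ ζ : ι → E, ∑ i, ∑ j, (mean (fun θ => ‖cc g A (ζ j) (ζ i) (ec θ)‖ ^ 2) +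
        mean (fun θ => ‖cc g A (ζ i) (ζ j) (ec θ)‖ ^ 2) + 2 * ‖⟪ζ i, ζ j⟫_ℂ‖ ^ 2) =
      2 * ∑ i, ∑ j, (mean (fun θ => ‖cc g A (ζ i) (ζ j) (ec θ)‖ ^ 2) + ‖⟪ζ i, ζ j⟫_ℂ‖ ^ 2) := by
    intro ζ
    simp only [Finset.sum_add_distrib, ← Finset.mul_sum]
    rw [Finset.sum_comm (f := fun i j => mean (fun θ => ‖cc g A (ζ j) (ζ i) (ec θ)‖ ^ 2))]
    ring
  have hmid : σ ≤ a + b := by
    have s1 : σ ≤ mean (fun θ => ∑ i, ∑ j,
        ‖conj (cc g A (η j) (ξ i) (ec θ)) + cc g A (ξ i) (η j) (ec θ)‖ ^ 2) := by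
      rw [hsum, hσ]
      refine Finset.sum_le_sum fun i _ => Finset.sum_le_sum fun j _ => ?_
      have := mean_nonneg (f := fun θ => ‖cc g A (η j) (ξ i) (ec θ)‖ ^ 2) fun _ => sq_nonneg _
      nlinarith [sq_nonneg ‖⟪ξ i, η j⟫_ℂ‖]
    have s2 := mean_mono (f := fun θ => ∑ i, ∑ j,
        ‖conj (cc g A (η j) (ξ i) (ec θ)) + cc g A (ξ i) (η j) (ec θ)‖ ^ 2)
      (g := fun θ => 1 / 2 * (∑ i, ∑ j,
        ‖conj (cc g A (ξ j) (ξ i) (ec θ)) + cc g A (ξ i) (ξ j) (ec θ)‖ ^ 2 + ∑ i, ∑ j,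
        ‖conj (cc g A (η j) (η i) (ec θ)) + cc g A (η i) (η j) (ec θ)‖ ^ 2))
      (by fun_prop) (by fun_prop) (fun θ => by
        have := pos_ineq (isPositive_CK hU (h.ec_mem θ) (K1 _ (norm_ec θ))) ξ η
        simp only [inner_CK_add] at this
        linarith)
    rw [mean_const_mul_real, mean_add (by fun_prop) (by fun_prop), hsum ξ ξ, hsum η η, hdiag,
      hdiag, ← ha, ← hb] at s2
    linarith
  have hb0 : 0 ≤ b := Finset.sum_nonneg fun _ _ => Finset.sum_nonneg fun _ _ =>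
    add_nonneg (mean_nonneg fun _ => sq_nonneg _) (sq_nonneg _)
  have ha0 : 0 < a := by
    obtain ⟨i, hi⟩ := hξ
    refine Finset.sum_pos' (fun _ _ => Finset.sum_nonneg fun _ _ =>
      add_nonneg (mean_nonneg fun _ => sq_nonneg _) (sq_nonneg _)) ⟨i, Finset.mem_univ _, ?_⟩
    refine Finset.sum_pos' (fun _ _ =>
      add_nonneg (mean_nonneg fun _ => sq_nonneg _) (sq_nonneg _)) ⟨i, Finset.mem_univ _, ?_⟩
    refine add_pos_of_nonneg_of_pos (mean_nonneg fun _ => sq_nonneg _) ?_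
    exact pow_pos (norm_pos_iff.mpr (inner_self_ne_zero.mpr hi)) 2
  have : κ ^ 2 * (a + b) ≤ 4 * M ^ 2 * (a + b) := by nlinarith [sq_nonneg M]
  exact le_of_mul_le_mul_right this (by linarith)

end Conf

end Crest.Agent.R132
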