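import Crest.Agent.R132.Scalar
import Crest.Agent.R132.Inj

/-! Faber polynomials of a univalent function and the associated kernel. -/

open Filter Topology Set Metric MeasureTheory Polynomial
open scoped Real ComplexConjugate

namespace Crest.Agent.R132

/-- `g` is univalent on a disc of radius `R > 1` and vanishes at the origin. -/
structure Conf (g : ℂ → ℂ) (R : ℝ) : Prop where
  one_lt : 1 < R
  diff : DifferentiableOn ℂ g (ball 0 R)
  inj : InjOn g (ball 0 R)
  zero : g 0 = 0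

/-- The function `u g'(u) / g(u)`. -/
noncomputable def qq (g : ℂ → ℂ) (u : ℂ) : ℂ := deriv g u / dslope g 0 u

/-- Coefficients of the Faber polynomials. -/
noncomputable def fc (g : ℂ → ℂ) (k j : ℕ) : ℂ :=
  mean (fun θ => conj (ec θ) ^ k * (qq g (ec θ) * g (ec θ) ^ j))

/-- Faber polynomials. -/
noncomputable def faber (g : ℂ → ℂ) (k : ℕ) : ℂ[X] :=
  ∑ j ∈ Finset.range (k + 1), monomial j (fc g k j)

/-- The kernel `q(u) g(v) / (g(v) - g(u)) - v / (v - u)`. -/
noncomputable def ell (g : ℂ → ℂ) (v u : ℂ) : ℂ :=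
  -dslope (fun u => qq g u * g v / dslope g v u) v u

/-- The remainder `F_k(1 / g(v)) - v^{-k}`. -/
noncomputable def LL (g : ℂ → ℂ) (k : ℕ) (v : ℂ) : ℂ := (faber g k).eval (g v)⁻¹ - v⁻¹ ^ k

theorem mean_punct {H : ℂ → ℂ} {R : ℝ} (hR : 1 < R) {c : ℂ}
    (hd : DifferentiableOn ℂ H (ball 0 R \ {0})) (ht : Tendsto H (𝓝[≠] 0) (𝓝 c)) :
    mean (fun θ => H (ec θ)) = c := by
  classical
  have h1 : DifferentiableOn ℂ (Function.update H 0 c) (ball 0 R) := by
    rw [← Complex.differentiableOn_compl_singleton_and_continuousAt_iff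
      (ball_mem_nhds (0 : ℂ) (by linarith))]
    refine ⟨hd.congr fun z hz => Function.update_of_ne hz.2 _ _, ?_⟩
    exact continuousAt_update_same.mpr ht
  have := mean_holo hR h1
  simpa [Function.update_of_ne (ec_ne_zero _)] using this

theorem geom_expand {x : ℂ} (hx : 1 - x ≠ 0) (n : ℕ) :
    (1 - x)⁻¹ = ∑ j ∈ Finset.range n, x ^ j + x ^ n * (1 - x)⁻¹ := by
  induction n with
  | zero => simp
  | succ n ih =>
    rw [Finset.sum_range_succ, add_assoc]
    refine ih.trans ?_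
    congr 1
    field_simp
    ring

namespace Conf
variable {g : ℂ → ℂ} {R : ℝ} (h : Conf g R)
include h

theorem zero_mem : (0 : ℂ) ∈ ball (0 : ℂ) R := mem_ball_self (by linarith [h.one_lt])

theorem ec_mem (θ : ℝ) : ec θ ∈ ball (0 : ℂ) R := ec_mem_ball h.one_lt θ

theorem deriv_ne {u : ℂ} (hu : u ∈ ball (0 : ℂ) R) : deriv g u ≠ 0 :=
  deriv_ne_zero_of_injOn isOpen_ball h.diff h.inj hu

theorem dslope_ne {u v : ℂ} (hv : v ∈ ball (0 : ℂ) R) (hu : u ∈ ball (0 : ℂ) R) :
    dslope g v u ≠ 0 := by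
  by_cases huv : u = v
  · subst huv; rw [dslope_same]; exact h.deriv_ne hu
  · rw [dslope_of_ne _ huv, slope_def_field]
    exact div_ne_zero (sub_ne_zero.mpr fun e => huv (h.inj hu hv e)) (sub_ne_zero.mpr huv)

theorem diff_dslope {v : ℂ} (hv : v ∈ ball (0 : ℂ) R) :
    DifferentiableOn ℂ (dslope g v) (ball 0 R) :=
  (Complex.differentiableOn_dslope (isOpen_ball.mem_nhds hv)).mpr h.diff

theorem eq_mul (u : ℂ) : g u = u * dslope g 0 u := by
  have := sub_smul_dslope g 0 u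
  rw [h.zero, sub_zero, sub_zero, smul_eq_mul] at this
  exact this.symm

theorem ne_zero {u : ℂ} (hu : u ∈ ball (0 : ℂ) R) (hu0 : u ≠ 0) : g u ≠ 0 := by
  rw [h.eq_mul]; exact mul_ne_zero hu0 (h.dslope_ne h.zero_mem hu)

theorem diff_qq : DifferentiableOn ℂ (qq g) (ball 0 R) :=
  (h.diff.deriv isOpen_ball).div (h.diff_dslope h.zero_mem) fun _ hu => h.dslope_ne h.zero_mem hu

theorem qq_zero : qq g 0 = 1 := by
  rw [qq, dslope_same, div_self (h.deriv_ne h.zero_mem)]

theorem qq_mul (u : ℂ) (hu : u ∈ ball (0 : ℂ) R) : qq g u * g u = u * deriv g u := by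
  have := h.dslope_ne h.zero_mem hu
  rw [qq, h.eq_mul u]; field_simp

theorem cont_g : Continuous fun θ => g (ec θ) := continuous_comp_ec h.one_lt h.diff

theorem cont_q : Continuous fun θ => qq g (ec θ) := continuous_comp_ec h.one_lt h.diff_qq

theorem cont_ginv : Continuous fun θ => (g (ec θ))⁻¹ :=
  h.cont_g.inv₀ fun θ => h.ne_zero (h.ec_mem θ) (ec_ne_zero θ)

theorem diff_ell {v : ℂ} (hv : v ∈ ball (0 : ℂ) R) :
    DifferentiableOn ℂ (ell g v) (ball 0 R) := by
  refine DifferentiableOn.neg ?_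
  rw [Complex.differentiableOn_dslope (isOpen_ball.mem_nhds hv)]
  exact (h.diff_qq.mul_const _).div (h.diff_dslope hv) fun _ hu => h.dslope_ne hv hu

theorem ell_eq {u v : ℂ} (hv : v ∈ ball (0 : ℂ) R) (hu : u ∈ ball (0 : ℂ) R) (huv : u ≠ v) :
    ell g v u = qq g u * g v / (g v - g u) - v / (v - u) := by
  have h1 : g u - g v ≠ 0 := sub_ne_zero.mpr fun e => huv (h.inj hu hv e)
  have h1' : g v - g u ≠ 0 := sub_ne_zero.mpr fun e => huv (h.inj hu hv e.symm)
  have h2 : u - v ≠ 0 := sub_ne_zero.mpr huv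
  have h2' : v - u ≠ 0 := sub_ne_zero.mpr huv.symm
  have h3 := h.deriv_ne hv
  rw [ell, dslope_of_ne _ huv, slope_def_field, dslope_of_ne _ huv, slope_def_field, dslope_same,
    h.qq_mul v hv]
  field_simp
  ring

theorem ell_eq' {u v : ℂ} (hv : v ∈ ball (0 : ℂ) R) (hv0 : v ≠ 0) (hu : u ∈ ball (0 : ℂ) R)
    (huv : u ≠ v) :
    ell g v u = qq g u * (1 - g u * (g v)⁻¹)⁻¹ - (1 - u * v⁻¹)⁻¹ := by
  have h1' : g v - g u ≠ 0 := sub_ne_zero.mpr fun e => huv (h.inj hu hv e.symm)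
  have h2' : v - u ≠ 0 := sub_ne_zero.mpr huv.symm
  have h3 := h.ne_zero hv hv0
  rw [h.ell_eq hv hu huv]
  field_simp

theorem ell_zero {v : ℂ} (hv : v ∈ ball (0 : ℂ) R) (hv0 : v ≠ 0) : ell g v 0 = 0 := by
  rw [h.ell_eq' hv hv0 h.zero_mem hv0.symm, h.qq_zero, h.zero]; simp

theorem mean_pow_ell {v : ℂ} (hv : v ∈ ball (0 : ℂ) R) (hv0 : v ≠ 0) (j : ℕ) :
    mean (fun θ => ec θ ^ j * ell g v (ec θ)) = 0 := by
  have := h.diff_ell hv
  rw [mean_holo (f := fun u => u ^ j * ell g v u) h.one_lt (by fun_prop), h.ell_zero hv hv0,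
    mul_zero]

theorem mean_conj_pow_ell {v : ℂ} (hv : v ∈ ball (0 : ℂ) R) (hv0 : v ≠ 0) (k : ℕ) :
    mean (fun θ => conj (ec θ) ^ k * ell g v (ec θ)) = LL g k v := by
  have hl := h.diff_ell hv
  have hq := h.diff_qq
  have hg := h.diff
  let H : ℂ → ℂ := fun u => ell g v u -
    ∑ j ∈ Finset.range (k + 1), qq g u * g u ^ j * (g v)⁻¹ ^ j +
    ∑ j ∈ Finset.range (k + 1), u ^ j * v⁻¹ ^ j
  have hH : DifferentiableOn ℂ H (ball 0 R) := by fun_prop
  have hgv := h.ne_zero hv hv0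
  have h0 : mean (fun θ => (ec θ)⁻¹ ^ k * H (ec θ)) = 0 := by
    refine mean_punct (H := fun u => u⁻¹ ^ k * H u) h.one_lt ?_ ?_
    · exact ((differentiableOn_id.inv fun u hu => hu.2).pow k).mul (hH.mono sdiff_subset)
    · let B : ℂ → ℂ := fun u => u * (qq g u * dslope g 0 u ^ (k + 1) * (g v)⁻¹ ^ (k + 1) *
        (1 - g u * (g v)⁻¹)⁻¹ - v⁻¹ ^ (k + 1) * (1 - u * v⁻¹)⁻¹)
      have hb := ball_mem_nhds (0 : ℂ) (lt_trans zero_lt_one h.one_lt)
      have c1 : ContinuousAt (qq g) 0 := hq.continuousOn.continuousAt hb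
      have c2 : ContinuousAt g 0 := hg.continuousOn.continuousAt hb
      have c3 : ContinuousAt (dslope g 0) 0 :=
        (h.diff_dslope h.zero_mem).continuousOn.continuousAt hb
      have hB : ContinuousAt B 0 := by
        refine continuousAt_id.mul (ContinuousAt.sub (ContinuousAt.mul (by fun_prop) ?_)
          (ContinuousAt.mul (by fun_prop) ?_))
        · exact ContinuousAt.inv₀ (by fun_prop) (by simp [h.zero])
        · exact ContinuousAt.inv₀ (by fun_prop) (by simp)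
      have hB0 : B 0 = 0 := by simp [B]
      have : Tendsto B (𝓝[≠] 0) (𝓝 0) := by
        have := hB.tendsto; rw [hB0] at this; exact this.mono_left nhdsWithin_le_nhds
      refine this.congr' ?_
      filter_upwards [self_mem_nhdsWithin, nhdsWithin_le_nhds hb,
        nhdsWithin_le_nhds (isOpen_ne.mem_nhds hv0.symm)] with u hu0 hu huv
      have hu0 : u ≠ 0 := hu0
      have huv : u ≠ v := huv
      have e1 : 1 - g u * (g v)⁻¹ ≠ 0 := by
        intro e
        apply huv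
        apply h.inj hu hv
        field_simp at e
        linear_combination -e
      have e2 : 1 - u * v⁻¹ ≠ 0 := by
        intro e
        apply huv
        field_simp at e
        linear_combination -e
      simp only [B, H]
      rw [h.ell_eq' hv hv0 hu huv]
      have f1 := geom_expand e1 (k + 1)
      have f2 := geom_expand e2 (k + 1)
      simp only [mul_pow] at f1 f2
      have f3 : ∑ j ∈ Finset.range (k + 1), qq g u * g u ^ j * (g v)⁻¹ ^ j =
          qq g u * ∑ j ∈ Finset.range (k + 1), g u ^ j * (g v)⁻¹ ^ j := by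
        rw [Finset.mul_sum]; exact Finset.sum_congr rfl fun _ _ => by ring
      rw [f3]
      have f4 : g u ^ (k + 1) = u ^ (k + 1) * dslope g 0 u ^ (k + 1) := by
        rw [← mul_pow, ← h.eq_mul]
      have f5 : u⁻¹ ^ k * u ^ (k + 1) = u := by
        rw [pow_succ, ← mul_assoc, ← mul_pow, inv_mul_cancel₀ hu0, one_pow, one_mul]
      rw [f4] at f1
      generalize (1 - g u * (g v)⁻¹)⁻¹ = X at f1 ⊢
      generalize (1 - u * v⁻¹)⁻¹ = Y at f2 ⊢
      linear_combination (-(u⁻¹ ^ k * qq g u)) * f1 + u⁻¹ ^ k * f2 -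
        (qq g u * dslope g 0 u ^ (k + 1) * (g v)⁻¹ ^ (k + 1) * X - v⁻¹ ^ (k + 1) * Y) * f5
  have c1 := h.cont_g
  have c2 := h.cont_q
  have c3 := continuous_comp_ec h.one_lt hl
  simp only [← conj_ec, H, mul_add, mul_sub, Finset.mul_sum] at h0
  simp only [LL, faber, eval_finsetSum, eval_monomial, fc]
  obtain ⟨G, hG⟩ : ∃ G : ℝ → ℂ, ∀ θ, g (ec θ) = G θ := ⟨_, fun _ => rfl⟩
  simp only [hG] at c1 h0 ⊢
  rw [mean_add (by fun_prop) (by fun_prop), mean_sub (by fun_prop) (by fun_prop),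
    mean_sum' _ (fun _ => by fun_prop), mean_sum' _ (fun _ => by fun_prop)] at h0
  simp only [← mul_assoc _ _ ((g v)⁻¹ ^ _), ← mul_assoc _ _ (v⁻¹ ^ _), mean_mul_const,
    mean_conj_ec_pow_mul_pow, ite_mul, one_mul, zero_mul, Finset.sum_ite_eq,
    Finset.self_mem_range_succ, if_true] at h0
  linear_combination h0

end Conf

end Crest.Agent.R132
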