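import Mathlib

/-! The Riemann mapping theorem for bounded simply connected domains (with Hurwitz' theorem and
Montel's theorem along an ultrafilter as auxiliary results). -/

open Set Filter Metric Complex
open scoped Topology

namespace Crest.Agent.R132

/-- Hurwitz: a locally uniform limit of zero-free holomorphic functions that vanishes at a point
vanishes near that point. -/
theorem hurwitz_local {ι : Type*} {φ : Filter ι} [φ.NeBot] {U : Set ℂ} (hU : IsOpen U)
    {F : ι → ℂ → ℂ} {f : ℂ → ℂ} (hlim : TendstoLocallyUniformlyOn F f φ U)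
    (hF : ∀ n, DifferentiableOn ℂ (F n) U) (hne : ∀ n, ∀ z ∈ U, F n z ≠ 0)
    {c : ℂ} (hc : c ∈ U) (hfc : f c = 0) : ∀ᶠ z in 𝓝 c, f z = 0 := by
  have hfd : DifferentiableOn ℂ f U := hlim.differentiableOn (Eventually.of_forall hF) hU
  have hfa : AnalyticAt ℂ f c := (hfd.analyticOnNhd hU) c hc
  rcases hfa.eventually_eq_zero_or_eventually_ne_zero with h | h
  · exact h
  exfalso
  have h1 : ∀ᶠ z in 𝓝 c, z ∈ U ∧ (z ≠ c → f z ≠ 0) :=
    (hU.eventually_mem hc).and (eventually_nhdsWithin_iff.mp h)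
  obtain ⟨r, hr, hsub⟩ := nhds_basis_closedBall.mem_iff.mp h1
  have hKU : closedBall c r ⊆ U := fun z hz => (hsub hz).1
  have hsph : ∀ z ∈ sphere c r, f z ≠ 0 := fun z hz =>
    (hsub (sphere_subset_closedBall hz)).2 (ne_of_mem_sphere hz hr.ne')
  have hcont : ContinuousOn (fun z => ‖f z‖) (sphere c r) :=
    continuous_norm.comp_continuousOn
      (hfd.continuousOn.mono (sphere_subset_closedBall.trans hKU))
  obtain ⟨x, hx, hmin⟩ := (isCompact_sphere c r).exists_isMinOn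
    (NormedSpace.sphere_nonempty.mpr hr.le) hcont
  set ε := ‖f x‖ with hε
  have hε0 : 0 < ε := norm_pos_iff.mpr (hsph x hx)
  have hunif : TendstoUniformlyOn F f φ (closedBall c r) :=
    (tendstoLocallyUniformlyOn_iff_forall_isCompact hU).mp hlim _ hKU (isCompact_closedBall c r)
  obtain ⟨n, hn⟩ := (Metric.tendstoUniformlyOn_iff.mp hunif (ε / 2) (half_pos hε0)).exists
  have hinv : DiffContOnCl ℂ (fun z => (F n z)⁻¹) (ball c r) := by
    have hd : DifferentiableOn ℂ (fun z => (F n z)⁻¹) U := (hF n).inv (hne n)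
    refine DifferentiableOn.diffContOnCl ?_
    rw [closure_ball c hr.ne']
    exact hd.mono hKU
  have hbd : ‖(F n c)⁻¹‖ ≤ (ε / 2)⁻¹ := by
    refine norm_le_of_forall_mem_frontier_norm_le isBounded_ball hinv ?_
      (subset_closure (mem_ball_self hr))
    intro z hz
    rw [frontier_ball c hr.ne'] at hz
    have h2 := hn z (sphere_subset_closedBall hz)
    have h3 : ε ≤ ‖f z‖ := hmin hz
    rw [dist_eq_norm] at h2
    have h4 : ε / 2 ≤ ‖F n z‖ := by
      have := norm_sub_norm_le (f z) (F n z)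
      linarith
    rw [norm_inv]
    exact inv_anti₀ (half_pos hε0) h4
  have h5 := hn c (mem_closedBall_self hr.le)
  rw [hfc, dist_comm, dist_zero_right] at h5
  rw [norm_inv] at hbd
  have h6 : 0 < ‖F n c‖ := norm_pos_iff.mpr (hne n c hc)
  have := (inv_le_inv₀ h6 (half_pos hε0)).mp hbd
  linarith

/-- Montel along an ultrafilter. -/
theorem montel_ultrafilter {ι : Type*} (φ : Ultrafilter ι) {U : Set ℂ} (hU : IsOpen U)
    {F : ι → ℂ → ℂ} (hF : ∀ n, DifferentiableOn ℂ (F n) U)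
    (hb : ∀ n, MapsTo (F n) U (closedBall 0 1)) :
    ∃ f : ℂ → ℂ, TendstoLocallyUniformlyOn F f φ U := by
  have hex : ∀ z : ℂ, ∃ y : ℂ, z ∈ U → Tendsto (fun n => F n z) φ (𝓝 y) := by
    intro z
    by_cases hz : z ∈ U
    · obtain ⟨y, -, hy⟩ := (isCompact_closedBall (0 : ℂ) 1).ultrafilter_le_nhds
        (φ.map fun n => F n z)
        (by
          rw [le_principal_iff, Ultrafilter.mem_coe, Ultrafilter.mem_map]
          exact univ_mem' fun n => hb n hz)
      exact ⟨y, fun _ => hy⟩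
    · exact ⟨0, fun h => absurd h hz⟩
  choose f hf using hex
  refine ⟨f, Metric.tendstoLocallyUniformlyOn_iff.mpr fun ε hε x hx => ?_⟩
  obtain ⟨R, hR, hRU⟩ := Metric.isOpen_iff.mp hU x hx
  have hlip : ∀ n, ∀ y ∈ ball x R, dist (F n y) (F n x) ≤ 2 / R * dist y x := by
    intro n y hy
    refine dist_le_div_mul_dist_of_mapsTo_ball ((hF n).mono hRU) ?_ hy
    intro w hw
    have h1 := hb n (hRU hw)
    have h2 := hb n hx
    rw [mem_closedBall] at h1 h2 ⊢
    have := dist_triangle_right (F n w) (F n x) 0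
    linarith
  have hlipf : ∀ y ∈ ball x R, dist (f y) (f x) ≤ 2 / R * dist y x := by
    intro y hy
    exact le_of_tendsto' ((hf y (hRU hy)).dist (hf x hx)) fun n => hlip n y hy
  set δ := min R (ε * R / 8) with hδ
  have hδ0 : 0 < δ := lt_min hR (by positivity)
  refine ⟨ball x δ, mem_nhdsWithin_of_mem_nhds (ball_mem_nhds x hδ0), ?_⟩
  have hev : ∀ᶠ n in (φ : Filter ι), dist (F n x) (f x) < ε / 4 :=
    (Metric.tendsto_nhds.mp (hf x hx)) _ (by positivity)
  filter_upwards [hev] with n hn y hy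
  have hy1 : y ∈ ball x R := ball_subset_ball (min_le_left _ _) hy
  have hy2 : dist y x < ε * R / 8 := lt_of_lt_of_le hy (min_le_right _ _)
  have h3 : 2 / R * dist y x ≤ ε / 4 := by
    have : 2 / R * dist y x ≤ 2 / R * (ε * R / 8) := by gcongr
    refine this.trans (le_of_eq ?_)
    field_simp
    ring
  have h4 := hlip n y hy1
  have h5 := hlipf y hy1
  have h6 := dist_triangle4 (f y) (f x) (F n x) (F n y)
  rw [dist_comm (f x), dist_comm (F n x) (F n y)] at h6
  linarith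

/-- The disc automorphism `z ↦ (z - a) / (1 - ā z)`. -/
noncomputable def mob (a z : ℂ) : ℂ := (z - a) / (1 - (starRingEnd ℂ) a * z)

theorem mob_den_ne {a z : ℂ} (ha : ‖a‖ < 1) (hz : ‖z‖ < 1) : 1 - (starRingEnd ℂ) a * z ≠ 0 := by
  intro h
  have h1 : (starRingEnd ℂ) a * z = 1 := by linear_combination -h
  have h2 := congrArg norm h1
  rw [norm_mul, Complex.norm_conj, norm_one] at h2
  nlinarith [norm_nonneg a, norm_nonneg z]

theorem norm_mob_lt {a z : ℂ} (ha : ‖a‖ < 1) (hz : ‖z‖ < 1) : ‖mob a z‖ < 1 := by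
  unfold mob
  rw [norm_div, div_lt_one (norm_pos_iff.mpr (mob_den_ne ha hz))]
  have h1 : ‖a‖ ^ 2 < 1 := by nlinarith [norm_nonneg a]
  have h2 : ‖z‖ ^ 2 < 1 := by nlinarith [norm_nonneg z]
  refine lt_of_pow_lt_pow_left₀ 2 (norm_nonneg _) ?_
  simp only [Complex.sq_norm] at *
  simp only [Complex.normSq_apply, Complex.sub_re, Complex.sub_im, Complex.mul_re, Complex.mul_im,
    Complex.conj_re, Complex.conj_im, Complex.one_re, Complex.one_im] at *
  nlinarith [mul_pos (sub_pos.mpr h1) (sub_pos.mpr h2)]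

theorem mob_inj {a z w : ℂ} (ha : ‖a‖ < 1) (hz : ‖z‖ < 1) (hw : ‖w‖ < 1)
    (h : mob a z = mob a w) : z = w := by
  unfold mob at h
  rw [div_eq_div_iff (mob_den_ne ha hz) (mob_den_ne ha hw)] at h
  have h1 : (z - w) * (1 - (starRingEnd ℂ) a * a) = 0 := by linear_combination h
  rcases mul_eq_zero.mp h1 with h2 | h2
  · exact sub_eq_zero.mp h2
  · exact absurd h2 (mob_den_ne ha ha)

theorem hasDerivAt_mob {a z : ℂ} (ha : ‖a‖ < 1) (hz : ‖z‖ < 1) :
    HasDerivAt (mob a) ((1 - (starRingEnd ℂ) a * a) / (1 - (starRingEnd ℂ) a * z) ^ 2) z := by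
  have h1 : HasDerivAt (fun z : ℂ => z - a) 1 z := (hasDerivAt_id z).sub_const a
  have h2 : HasDerivAt (fun z : ℂ => 1 - (starRingEnd ℂ) a * z) (-(starRingEnd ℂ) a) z := by
    simpa using ((hasDerivAt_id z).const_mul ((starRingEnd ℂ) a)).const_sub 1
  have h3 := h1.div h2 (mob_den_ne ha hz)
  have e : (1 - (starRingEnd ℂ) a * a) =
      1 * (1 - (starRingEnd ℂ) a * z) - (z - a) * (-(starRingEnd ℂ) a) := by ring
  rw [e]
  exact h3

/-- The family over which the derivative at `z₀` is maximised. -/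
structure Adm (U : Set ℂ) (z₀ : ℂ) (f : ℂ → ℂ) : Prop where
  diff : DifferentiableOn ℂ f U
  maps : MapsTo f U (ball 0 1)
  inj : InjOn f U
  der : ∀ z ∈ U, deriv f z ≠ 0
  zero : f z₀ = 0

theorem exists_adm {U : Set ℂ} (hb : Bornology.IsBounded U) {z₀ : ℂ} :
    ∃ f, Adm U z₀ f := by
  obtain ⟨R, hR0, hR⟩ := hb.subset_ball_lt 0 z₀
  have hRc : (R : ℂ) ≠ 0 := by exact_mod_cast hR0.ne'
  refine ⟨fun z => (z - z₀) / R, ?_, ?_, ?_, ?_, by simp⟩
  · fun_prop
  · intro z hz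
    have := hR hz
    rw [mem_ball, dist_eq_norm] at this
    rw [mem_ball_zero_iff, norm_div, Complex.norm_real, Real.norm_of_nonneg hR0.le,
      div_lt_one hR0]
    exact this
  · intro z _ w _ h
    have h' : (z - z₀) / R = (w - z₀) / R := h
    rw [div_left_inj' hRc] at h'
    linear_combination h'
  · intro z _
    have : HasDerivAt (fun z : ℂ => (z - z₀) / R) (1 / R) z :=
      ((hasDerivAt_id z).sub_const z₀).div_const _
    rw [this.deriv]
    exact one_div_ne_zero hRc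

/-- A non-surjective admissible map can be improved. -/
theorem improve {U : Set ℂ} (hU : IsOpen U) (hc : IsSimplyConnected U) {z₀ : ℂ} (h0 : z₀ ∈ U)
    {f : ℂ → ℂ} (hf : Adm U z₀ f) {w : ℂ} (hw : ‖w‖ < 1) (hwf : w ∉ f '' U) :
    ∃ F, Adm U z₀ F ∧ ‖deriv f z₀‖ < ‖deriv F z₀‖ := by
  have hfn : ∀ z ∈ U, ‖f z‖ < 1 := fun z hz => mem_ball_zero_iff.mp (hf.maps hz)
  have hfd : ∀ z ∈ U, HasDerivAt f (deriv f z) z := fun z hz =>
    (hf.diff.differentiableAt (hU.mem_nhds hz)).hasDerivAt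
  set g : ℂ → ℂ := fun z => mob w (f z) with hg
  have hgd : ∀ z ∈ U, HasDerivAt g
      ((1 - (starRingEnd ℂ) w * w) / (1 - (starRingEnd ℂ) w * f z) ^ 2 * deriv f z) z :=
    fun z hz => (hasDerivAt_mob hw (hfn z hz)).comp z (hfd z hz)
  have hg0 : ∀ z ∈ U, g z ≠ 0 := by
    intro z hz h
    have h' : (f z - w) / (1 - (starRingEnd ℂ) w * f z) = 0 := h
    rw [div_eq_zero_iff] at h'
    rcases h' with h' | h'
    · exact hwf ⟨z, hz, sub_eq_zero.mp h'⟩
    · exact mob_den_ne hw (hfn z hz) h'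
  have hgc : ContinuousOn g U := fun z hz => (hgd z hz).continuousAt.continuousWithinAt
  obtain ⟨h, hhc, hh⟩ := exists_continuousOn_pow_eq hc hU hgc
    (by rintro ⟨z, hz, h⟩; exact hg0 z hz h) two_ne_zero
  have hh0 : ∀ z ∈ U, h z ≠ 0 := by
    intro z hz h'
    apply hg0 z hz
    rw [← hh z, h']; simp
  have hhn : ∀ z ∈ U, ‖h z‖ < 1 := by
    intro z hz
    have h1 : ‖g z‖ < 1 := norm_mob_lt hw (hfn z hz)
    rw [← hh z, norm_pow] at h1
    nlinarith [norm_nonneg (h z)]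
  have hhd : ∀ z ∈ U, HasDerivAt h
      (((1 - (starRingEnd ℂ) w * w) / (1 - (starRingEnd ℂ) w * f z) ^ 2 * deriv f z)
        / (2 * h z)) z := by
    intro z hz
    refine HasDerivAt.of_comp_left (f := fun y : ℂ => y ^ 2) (h := g)
      (hhc.continuousAt (hU.mem_nhds hz)) ?_ (hgd z hz) (mul_ne_zero two_ne_zero (hh0 z hz)) ?_
    · simpa using hasDerivAt_pow 2 (h z)
    · exact Eventually.of_forall hh
  set a := h z₀ with ha
  have han : ‖a‖ < 1 := hhn z₀ h0
  have hFd : ∀ z ∈ U, HasDerivAt (fun z => mob a (h z))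
      ((1 - (starRingEnd ℂ) a * a) / (1 - (starRingEnd ℂ) a * h z) ^ 2 *
        (((1 - (starRingEnd ℂ) w * w) / (1 - (starRingEnd ℂ) w * f z) ^ 2 * deriv f z)
        / (2 * h z))) z :=
    fun z hz => (hasDerivAt_mob han (hhn z hz)).comp z (hhd z hz)
  refine ⟨fun z => mob a (h z), ⟨?_, ?_, ?_, ?_, ?_⟩, ?_⟩
  · exact fun z hz => (hFd z hz).differentiableAt.differentiableWithinAt
  · exact fun z hz => mem_ball_zero_iff.mpr (norm_mob_lt han (hhn z hz))
  · intro z hz y hy hzy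
    have h1 : h z = h y := mob_inj han (hhn z hz) (hhn y hy) hzy
    have h2 : g z = g y := by rw [← hh z, ← hh y, h1]
    exact hf.inj hz hy (mob_inj hw (hfn z hz) (hfn y hy) h2)
  · intro z hz
    rw [(hFd z hz).deriv]
    refine mul_ne_zero (div_ne_zero (mob_den_ne han han) (pow_ne_zero _ (mob_den_ne han (hhn z hz))))
      (div_ne_zero (mul_ne_zero (div_ne_zero (mob_den_ne hw hw)
        (pow_ne_zero _ (mob_den_ne hw (hfn z hz)))) (hf.der z hz))
        (mul_ne_zero two_ne_zero (hh0 z hz)))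
  · simp [mob, ha]
  · rw [(hFd z₀ h0).deriv, hf.zero, ← ha]
    have hs : ‖a‖ ^ 2 = ‖w‖ := by
      rw [← norm_pow, ha, hh z₀]
      simp [hg, mob, hf.zero]
    have hs0 : 0 < ‖a‖ := norm_pos_iff.mpr (hh0 z₀ h0)
    have e1 : (1 - (starRingEnd ℂ) a * a) = ((1 - ‖a‖ ^ 2 : ℝ) : ℂ) := by
      rw [Complex.conj_mul']; push_cast; ring
    have e2 : (1 - (starRingEnd ℂ) w * w) = ((1 - ‖a‖ ^ 4 : ℝ) : ℂ) := by
      rw [Complex.conj_mul', ← hs]; push_cast; ring
    have p1 : 0 < 1 - ‖a‖ ^ 2 := by nlinarith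
    have p2 : 0 < 1 - ‖a‖ ^ 4 := by nlinarith
    have hd0 : 0 < ‖deriv f z₀‖ := norm_pos_iff.mpr (hf.der z₀ h0)
    rw [e1, e2]
    simp only [norm_mul, norm_div, norm_pow, Complex.norm_real, Real.norm_of_nonneg p1.le,
      Real.norm_of_nonneg p2.le, mul_zero, sub_zero, one_pow, div_one,
      Complex.norm_ofNat]
    have e3 : (1 - ‖a‖ ^ 2) / (1 - ‖a‖ ^ 2) ^ 2 * ((1 - ‖a‖ ^ 4) * ‖deriv f z₀‖ / (2 * ‖a‖))
        = (1 + ‖a‖ ^ 2) / (2 * ‖a‖) * ‖deriv f z₀‖ := by
      field_simp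
      ring
    rw [e3]
    have h4 : 1 < (1 + ‖a‖ ^ 2) / (2 * ‖a‖) := by
      rw [lt_div_iff₀ (by positivity)]
      nlinarith [sq_pos_of_pos (sub_pos.mpr han)]
    nlinarith

theorem exists_max_adm {U : Set ℂ} (hU : IsOpen U) (hpc : IsPreconnected U)
    (hb : Bornology.IsBounded U) {z₀ : ℂ} (h0 : z₀ ∈ U) :
    ∃ f, Adm U z₀ f ∧ ∀ F, Adm U z₀ F → ‖deriv F z₀‖ ≤ ‖deriv f z₀‖ := by
  set S : Set ℝ := {t | ∃ F, Adm U z₀ F ∧ ‖deriv F z₀‖ = t} with hS
  obtain ⟨f₀, hf₀⟩ := exists_adm hb (z₀ := z₀)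
  have hSne : S.Nonempty := ⟨_, f₀, hf₀, rfl⟩
  obtain ⟨R, hR, hRU⟩ := Metric.isOpen_iff.mp hU z₀ h0
  have hSb : BddAbove S := by
    refine ⟨1 / R, ?_⟩
    rintro t ⟨F, hF, rfl⟩
    refine norm_deriv_le_div_of_mapsTo_ball (hF.diff.mono hRU) ?_ hR
    rw [hF.zero]
    exact fun z hz => ball_subset_closedBall (hF.maps (hRU hz))
  obtain ⟨u, -, hu, huS⟩ := exists_seq_tendsto_sSup hSne hSb
  choose F hF hFu using huS
  set φ : Ultrafilter ℕ := Ultrafilter.of atTop with hφ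
  have hφle : (φ : Filter ℕ) ≤ atTop := Ultrafilter.of_le _
  obtain ⟨f, hlim⟩ := montel_ultrafilter φ hU (fun n => (hF n).diff)
    (fun n z hz => ball_subset_closedBall ((hF n).maps hz))
  have hfd : DifferentiableOn ℂ f U :=
    hlim.differentiableOn (Eventually.of_forall fun n => (hF n).diff) hU
  have hdlim := hlim.deriv (Eventually.of_forall fun n => (hF n).diff) hU
  have hnorm : ‖deriv f z₀‖ = sSup S := by
    have h1 : Tendsto (fun n => ‖deriv (F n) z₀‖) φ (𝓝 ‖deriv f z₀‖) :=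
      (hdlim.tendsto_at h0).norm
    have h2 : Tendsto (fun n => ‖deriv (F n) z₀‖) φ (𝓝 (sSup S)) := by
      simp only [hFu]
      exact hu.mono_left hφle
    exact tendsto_nhds_unique h1 h2
  have hle : ∀ G, Adm U z₀ G → ‖deriv G z₀‖ ≤ ‖deriv f z₀‖ := fun G hG => by
    rw [hnorm]; exact le_csSup hSb ⟨G, hG, rfl⟩
  have hd0 : deriv f z₀ ≠ 0 := by
    have := (norm_pos_iff.mpr (hf₀.der z₀ h0)).trans_le (hle f₀ hf₀)
    exact norm_pos_iff.mp this
  have hz0 : f z₀ = 0 := by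
    have h1 := hlim.tendsto_at h0
    simp only [(hF _).zero] at h1
    exact tendsto_nhds_unique h1 tendsto_const_nhds
  have hfa : AnalyticOnNhd ℂ f U := hfd.analyticOnNhd hU
  refine ⟨f, ⟨hfd, ?_, ?_, ?_, hz0⟩, hle⟩
  · have hcl : ∀ z ∈ U, ‖f z‖ ≤ 1 := fun z hz =>
      le_of_tendsto' (hlim.tendsto_at hz).norm
        fun n => (mem_ball_zero_iff.mp ((hF n).maps hz)).le
    intro z hz
    rw [mem_ball_zero_iff]
    refine lt_of_le_of_ne (hcl z hz) fun h => ?_
    have hmax : IsMaxOn (norm ∘ f) U z := fun y hy => by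
      simp only [Function.comp_apply, mem_ofPred_eq, h]
      exact hcl y hy
    have := norm_eqOn_of_isPreconnected_of_isMaxOn hpc hU hfd hz hmax h0
    simp [hz0, h] at this
  · intro a ha b hb' hab
    by_contra hne
    have hV : IsOpen (U \ {a}) := hU.sdiff isClosed_singleton
    have hlim2 : TendstoLocallyUniformlyOn (fun n z => F n z - F n a) (fun z => f z - f a) φ
        (U \ {a}) := by
      refine (hlim.mono sdiff_subset).sub ?_
      exact ((hlim.tendsto_at ha).tendstoUniformlyOn_const _).tendstoLocallyUniformlyOn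
    have hev := hurwitz_local hV hlim2
      (fun n => (((hF n).diff).mono sdiff_subset).sub_const _)
      (fun n z hz h => hz.2 ((hF n).inj hz.1 ha (sub_eq_zero.mp h)))
      (c := b) ⟨hb', fun h => hne (mem_singleton_iff.mp h).symm⟩ (by rw [hab, sub_self])
    have hconst : EqOn f (fun _ => f a) U :=
      hfa.eqOn_of_preconnected_of_eventuallyEq analyticOnNhd_const hpc hb'
        (hev.mono fun z hz => sub_eq_zero.mp hz)
    apply hd0
    have : f =ᶠ[𝓝 z₀] fun _ => f a := mem_of_superset (hU.mem_nhds h0) hconst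
    rw [this.deriv_eq, deriv_const]
  · intro c hc hdc
    have hev := hurwitz_local hU hdlim
      (fun n => ((hF n).diff).deriv hU) (fun n z hz => (hF n).der z hz) hc hdc
    exact hd0 (hfa.deriv.eqOn_zero_of_preconnected_of_eventuallyEq_zero hpc hc hev h0)

/-- **Riemann mapping theorem** for bounded simply connected open subsets of `ℂ`. -/
theorem riemann_mapping {U : Set ℂ} (hU : IsOpen U) (hc : IsSimplyConnected U)
    (hb : Bornology.IsBounded U) {z₀ : ℂ} (h0 : z₀ ∈ U) :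
    ∃ f g : ℂ → ℂ, DifferentiableOn ℂ f U ∧ DifferentiableOn ℂ g (Metric.ball 0 1) ∧
      Set.MapsTo f U (Metric.ball 0 1) ∧ Set.MapsTo g (Metric.ball 0 1) U ∧
      (∀ z ∈ U, g (f z) = z) ∧ (∀ u ∈ Metric.ball (0:ℂ) 1, f (g u) = u) ∧ f z₀ = 0 := by
  obtain ⟨f, hf, hmax⟩ := exists_max_adm hU hc.isPathConnected.isConnected.isPreconnected hb h0
  have hsurj : ∀ w ∈ ball (0 : ℂ) 1, ∃ z ∈ U, f z = w := by
    intro w hw
    by_contra hne
    obtain ⟨F, hF, hlt⟩ := improve hU hc h0 hf (mem_ball_zero_iff.mp hw) hne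
    exact absurd (hmax F hF) (not_le.mpr hlt)
  have hleft : ∀ z ∈ U, Function.invFunOn f U (f z) = z := hf.inj.leftInvOn_invFunOn
  refine ⟨f, Function.invFunOn f U, hf.diff, ?_, hf.maps,
    fun w hw => Function.invFunOn_mem (hsurj w hw), hleft,
    fun w hw => Function.invFunOn_eq (hsurj w hw), hf.zero⟩
  intro w hw
  obtain ⟨z, hz, rfl⟩ := hsurj w hw
  have hs : HasStrictDerivAt f (deriv f z) z :=
    ((hf.diff.analyticOnNhd hU) z hz).hasStrictDerivAt
  have := hs.to_local_left_inverse (hf.der z hz) (mem_of_superset (hU.mem_nhds hz) hleft)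
  exact this.hasDerivAt.differentiableAt.differentiableWithinAt

end Crest.Agent.R132
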