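import Crest.Agent.R132.Faber
import Crest.Agent.R132.RMT

/-! Exterior conformal map of a compact convex set and convexity of its level curves. -/

open Filter Topology Set Metric
open scoped ComplexConjugate

namespace Crest.Agent.R132

/-- The inverted exterior of a set. -/
def invExt (W : Set ℂ) : Set ℂ := {z | z = 0 ∨ z⁻¹ ∉ W}

theorem isOpen_invExt {W : Set ℂ} (hW : IsCompact W) : IsOpen (invExt W) := by
  rw [isOpen_iff_mem_nhds]
  intro z hz
  by_cases hz0 : z = 0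
  · subst hz0
    obtain ⟨B, hB0, hB⟩ := hW.isBounded.subset_ball_lt 0 0
    filter_upwards [ball_mem_nhds (0 : ℂ) (inv_pos.mpr hB0)] with w hw
    by_cases hw0 : w = 0
    · exact Or.inl hw0
    refine Or.inr fun h => ?_
    have h1 := hB h
    rw [mem_ball_zero_iff] at hw h1
    rw [norm_inv] at h1
    have h2 : 0 < ‖w‖ := norm_pos_iff.mpr hw0
    have := (inv_lt_comm₀ h2 hB0).mp h1
    linarith
  · have h1 : z⁻¹ ∈ Wᶜ := hz.resolve_left hz0
    filter_upwards [(continuousAt_inv₀ hz0).preimage_mem_nhds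
      (hW.isClosed.isOpen_compl.mem_nhds h1)] with w hw
    exact Or.inr hw

theorem isClosed_invExt {W : Set ℂ} (hW : IsOpen W) : IsClosed (invExt W) := by
  rw [← isOpen_compl_iff, isOpen_iff_mem_nhds]
  intro z hz
  simp only [invExt, mem_compl_iff, mem_setOf_eq, not_or, not_not] at hz
  filter_upwards [(continuousAt_inv₀ hz.1).preimage_mem_nhds (hW.mem_nhds hz.2),
    isOpen_ne.mem_nhds hz.1] with w hw hw0
  simp only [invExt, mem_compl_iff, mem_setOf_eq, not_or, not_not]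
  exact ⟨hw0, hw⟩

theorem isBounded_invExt {W : Set ℂ} {δ : ℝ} (hδ : 0 < δ) (hW : ball 0 δ ⊆ W) :
    Bornology.IsBounded (invExt W) := by
  refine (isBounded_closedBall (x := (0 : ℂ)) (r := δ⁻¹)).subset ?_
  rintro z (rfl | hz)
  · simp [hδ.le]
  · have h1 : δ ≤ ‖z⁻¹‖ := by
      by_contra h; exact hz (hW (mem_ball_zero_iff.mpr (not_le.mp h)))
    rw [norm_inv] at h1
    rw [mem_closedBall_zero_iff]
    exact le_inv_of_le_inv₀ hδ h1

theorem isSimplyConnected_invExt {W : Set ℂ} (hW : Convex ℝ W) (h0 : (0 : ℂ) ∈ W) :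
    IsSimplyConnected (invExt W) := by
  have hs : StarConvex ℝ 0 (invExt W) := by
    intro z hz a b ha hb hab
    rw [smul_zero, zero_add]
    by_cases hb0 : b = 0
    · exact Or.inl (by simp [hb0])
    rcases hz with rfl | hz
    · exact Or.inl (by simp)
    refine Or.inr fun h => hz ?_
    have := hW h0 h ha hb hab
    rwa [smul_zero, zero_add, smul_inv₀, smul_smul, mul_inv_cancel₀ hb0, one_smul] at this
  have := hs.contractibleSpace ⟨0, Or.inl rfl⟩
  exact SimplyConnectedSpace.ofContractible _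

theorem invExt_mono {W W' : Set ℂ} (h : W ⊆ W') : invExt W' ⊆ invExt W :=
  fun _ hz => hz.imp id fun h1 h2 => h1 (h h2)

theorem maxprin {O K : Set ℂ} {H : ℂ → ℂ} (hO : IsOpen O) (hH : DifferentiableOn ℂ H O)
    (hK : IsCompact K) (hKO : K ⊆ O) {c : ℝ} (h : ∀ u ∈ O, c ≤ ‖H u‖ → u ∈ K) :
    ∀ u ∈ O, ‖H u‖ < c := by
  intro u₀ hu₀
  by_contra hc
  have hu₀K := h u₀ hu₀ (not_lt.mp hc)
  have hcont : ContinuousOn (fun u => ‖H u‖) K := (hH.continuousOn.mono hKO).norm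
  obtain ⟨u₁, hu₁, hmax⟩ := hK.exists_isMaxOn ⟨u₀, hu₀K⟩ hcont
  set m := ‖H u₁‖ with hm
  have hcm : c ≤ m := (not_lt.mp hc).trans (hmax hu₀K)
  have hle : ∀ u ∈ O, ‖H u‖ ≤ m := by
    intro u hu
    by_contra h1
    exact h1 (hmax (h u hu (hcm.trans (not_le.mp h1).le)))
  let S := K ∩ (fun u => ‖H u‖) ⁻¹' Ici m
  have hSc : IsClosed S := hcont.preimage_isClosed_of_isClosed hK.isClosed isClosed_Ici
  have hSo : IsOpen S := by
    rw [isOpen_iff_mem_nhds]
    rintro u ⟨huK, hu⟩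
    have hOu := hO.mem_nhds (hKO huK)
    have hu' : m ≤ ‖H u‖ := hu
    have h1 : IsLocalMax (norm ∘ H) u := by
      filter_upwards [hOu] with y hy using (hle y hy).trans hu'
    have h2 := Complex.norm_eventually_eq_of_isLocalMax
      (hH.eventually_differentiableAt hOu) h1
    filter_upwards [hOu, h2] with y hy hy2
    exact ⟨h y hy (by rw [hy2]; exact hcm.trans hu'), by simpa [hy2] using hu'⟩
  have hS : S = univ := (isClopen_iff.mp ⟨hSc, hSo⟩).resolve_left
    (Nonempty.ne_empty ⟨u₁, hu₁, le_refl m⟩)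
  have : IsCompact (univ : Set ℂ) := hS ▸ hK.of_isClosed_subset hSc inter_subset_left
  exact noncompact_univ ℂ this

theorem dslope_ne_zero_of_injOn {U : Set ℂ} {f : ℂ → ℂ} (hU : IsOpen U)
    (hf : DifferentiableOn ℂ f U) (hi : InjOn f U) {u v : ℂ} (hv : v ∈ U) (hu : u ∈ U) :
    dslope f v u ≠ 0 := by
  by_cases huv : u = v
  · subst huv; rw [dslope_same]; exact deriv_ne_zero_of_injOn hU hf hi hu
  · rw [dslope_of_ne _ huv, slope_def_field]
    exact div_ne_zero (sub_ne_zero.mpr fun e => huv (hi hu hv e)) (sub_ne_zero.mpr huv)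

/-- A Riemann map of the inverted exterior of `W`. -/
structure Riem (W : Set ℂ) (f g : ℂ → ℂ) : Prop where
  cpt : IsCompact W
  cvx : Convex ℝ W
  bdd : Bornology.IsBounded (invExt W)
  df : DifferentiableOn ℂ f (invExt W)
  dg : DifferentiableOn ℂ g (ball 0 1)
  mf : MapsTo f (invExt W) (ball 0 1)
  mg : MapsTo g (ball 0 1) (invExt W)
  gf : ∀ z ∈ invExt W, g (f z) = z
  fg : ∀ u ∈ ball (0 : ℂ) 1, f (g u) = u
  f0 : f 0 = 0

theorem exists_riem {W : Set ℂ} (hW : IsCompact W) (hc : Convex ℝ W) {δ : ℝ} (hδ : 0 < δ)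
    (hb : ball 0 δ ⊆ W) : ∃ f g, Riem W f g := by
  obtain ⟨f, g, h1, h2, h3, h4, h5, h6, h7⟩ := riemann_mapping (isOpen_invExt hW)
    (isSimplyConnected_invExt hc (hb (mem_ball_self hδ))) (isBounded_invExt hδ hb)
    (z₀ := 0) (Or.inl rfl)
  exact ⟨f, g, hW, hc, isBounded_invExt hδ hb, h1, h2, h3, h4, h5, h6, h7⟩

namespace Riem
variable {W : Set ℂ} {f g : ℂ → ℂ} (h : Riem W f g)
include h

theorem g0 : g 0 = 0 := by
  have := h.gf 0 (Or.inl rfl); rwa [h.f0] at this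

theorem injf : InjOn f (invExt W) := fun a ha b hb e => by rw [← h.gf a ha, e, h.gf b hb]

theorem injg : InjOn g (ball 0 1) := fun a ha b hb e => by rw [← h.fg a ha, e, h.fg b hb]

theorem g_ne {u : ℂ} (hu : u ∈ ball (0 : ℂ) 1) (hu0 : u ≠ 0) : g u ≠ 0 := fun e =>
  hu0 (h.injg hu (mem_ball_self one_pos) (e.trans h.g0.symm))

theorem g_eq (u : ℂ) : g u = u * dslope g 0 u := by
  have := sub_smul_dslope g 0 u
  rw [h.g0, sub_zero, sub_zero, smul_eq_mul] at this
  exact this.symm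

theorem f_eq (u : ℂ) : f u = u * dslope f 0 u := by
  have := sub_smul_dslope f 0 u
  rw [h.f0, sub_zero, sub_zero, smul_eq_mul] at this
  exact this.symm

theorem near {η : ℝ} (hη : 0 < η) :
    ∃ ρ < 1, ∀ u : ℂ, ρ < ‖u‖ → ‖u‖ < 1 → (g u)⁻¹ ∈ thickening η W := by
  have hsub := invExt_mono (self_subset_thickening hη W)
  have hK : IsCompact (invExt (thickening η W)) :=
    Metric.isCompact_of_isClosed_isBounded (isClosed_invExt isOpen_thickening) (h.bdd.subset hsub)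
  have hK2 := hK.image_of_continuousOn (h.df.continuousOn.mono hsub)
  obtain ⟨ρ, hρ, hb⟩ := exists_lt_subset_ball hK2.isClosed
    (show f '' _ ⊆ ball 0 1 from (h.mf.mono_left hsub).image_subset)
  refine ⟨ρ, hρ, fun u hu1 hu2 => ?_⟩
  by_contra hn
  have := hb ⟨g u, Or.inr hn, h.fg u (mem_ball_zero_iff.mpr hu2)⟩
  rw [mem_ball_zero_iff] at this
  linarith

theorem level {k : ℂ → ℂ} (hk : DifferentiableOn ℂ k (ball 0 1)) (hk0 : ‖k 0‖ ≤ 1)
    (hkW : ∀ η > 0, ∃ ρ < 1, ∀ u : ℂ, ρ < ‖u‖ → ‖u‖ < 1 → k u * (g u)⁻¹ ∈ thickening η W)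
    {l : ℝ} (hl : 1 / 2 < l) (hl1 : l ≤ 1) {u₀ : ℂ} (hu₀ : u₀ ∈ ball (0 : ℂ) 1)
    (hd₀ : (l : ℂ) + (1 - l) * k u₀ ≠ 0) (hz₀ : g u₀ / (l + (1 - l) * k u₀) ∈ invExt W) :
    ‖u₀‖ ≤ ‖f (g u₀ / (l + (1 - l) * k u₀))‖ := by
  have hDo := isOpen_invExt h.cpt
  have h0D : (0 : ℂ) ∈ invExt W := Or.inl rfl
  have h0b : (0 : ℂ) ∈ ball (0 : ℂ) 1 := mem_ball_self one_pos
  set d : ℂ → ℂ := fun u => l + (1 - l) * k u with hd
  have dd : DifferentiableOn ℂ d (ball 0 1) := by fun_prop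
  have hd0 : d 0 ≠ 0 := by
    intro e
    have e1 : (l : ℂ) = -((1 - l) * k 0) := eq_neg_of_add_eq_zero_left e
    have e2 := congrArg norm e1
    rw [norm_neg, norm_mul, Complex.norm_real, Real.norm_of_nonneg (by linarith),
      show (1 - l : ℂ) = ((1 - l : ℝ) : ℂ) by push_cast; rfl, Complex.norm_real,
      Real.norm_of_nonneg (by linarith)] at e2
    nlinarith [norm_nonneg (k 0)]
  let O₁ : Set ℂ := ball 0 1 ∩ d ⁻¹' {0}ᶜ
  have hO₁ : IsOpen O₁ := dd.continuousOn.isOpen_inter_preimage isOpen_ball isOpen_compl_singleton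
  have dz : DifferentiableOn ℂ (fun u => g u / d u) O₁ :=
    (h.dg.mono inter_subset_left).div (dd.mono inter_subset_left) fun u hu => hu.2
  let O : Set ℂ := O₁ ∩ (fun u => g u / d u) ⁻¹' invExt W
  have hO : IsOpen O := dz.continuousOn.isOpen_inter_preimage hO₁ hDo
  have hg1 : ∀ u ∈ ball (0 : ℂ) 1, dslope g 0 u ≠ 0 := fun u hu =>
    dslope_ne_zero_of_injOn isOpen_ball h.dg h.injg h0b hu
  have hf1 : ∀ z ∈ invExt W, dslope f 0 z ≠ 0 := fun z hz =>
    dslope_ne_zero_of_injOn hDo h.df h.injf h0D hz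
  let H : ℂ → ℂ := fun u => d u / (dslope g 0 u * dslope f 0 (g u / d u))
  have dH : DifferentiableOn ℂ H O := by
    refine (dd.mono fun u hu => hu.1.1).div (DifferentiableOn.mul ?_ ?_) fun u hu =>
      mul_ne_zero (hg1 u hu.1.1) (hf1 _ hu.2)
    · exact ((Complex.differentiableOn_dslope (isOpen_ball.mem_nhds h0b)).mpr h.dg).mono
        fun u hu => hu.1.1
    · exact ((Complex.differentiableOn_dslope (hDo.mem_nhds h0D)).mpr h.df).comp
        (dz.mono inter_subset_left) fun u hu => hu.2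
  have hHu : ∀ u ∈ O, u = H u * f (g u / d u) := by
    intro u hu
    have a1 := hg1 u hu.1.1
    have a2 := hf1 _ hu.2
    have a3 : d u ≠ 0 := hu.1.2
    simp only [H]
    rw [h.f_eq (g u / d u)]
    generalize dslope f 0 (g u / d u) = F at a2 ⊢
    rw [h.g_eq u]
    field_simp
  have hu₀O : u₀ ∈ O := ⟨⟨hu₀, hd₀⟩, hz₀⟩
  suffices hH : ‖H u₀‖ ≤ 1 by
    have := congrArg norm (hHu u₀ hu₀O)
    rw [norm_mul] at this
    rw [this]
    exact mul_le_of_le_one_left (norm_nonneg _) hH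
  by_contra hc
  set c := ‖H u₀‖ with hcd
  have hc1 : 1 < c := not_le.mp hc
  have hci : c⁻¹ < 1 := inv_lt_one_of_one_lt₀ hc1
  let K₁ := g '' closedBall 0 c⁻¹
  have hK₁ : IsCompact K₁ := (isCompact_closedBall _ _).image_of_continuousOn
    (h.dg.continuousOn.mono (closedBall_subset_ball hci))
  have hK₁D : K₁ ⊆ invExt W := (h.mg.mono_left (closedBall_subset_ball hci)).image_subset
  have hWK : W ⊆ invExt K₁ := by
    intro w hw
    by_cases hw0 : w = 0
    · exact Or.inl hw0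
    refine Or.inr fun h1 => ?_
    rcases hK₁D h1 with h2 | h2
    · exact hw0 (inv_eq_zero.mp h2)
    · exact h2 (by rwa [inv_inv])
  obtain ⟨η, hη, hηK⟩ := h.cpt.exists_thickening_subset_open (isOpen_invExt hK₁) hWK
  obtain ⟨ρ₁, hρ₁, hn₁⟩ := h.near hη
  obtain ⟨ρ₂, hρ₂, hn₂⟩ := hkW η hη
  set ρ := max (max ρ₁ ρ₂) 0 with hρd
  have hρ : ρ < 1 := max_lt (max_lt hρ₁ hρ₂) one_pos
  have hcb : closedBall (0 : ℂ) ρ ⊆ ball 0 1 := closedBall_subset_ball hρ
  let P : Set (ℂ × ℂ) := (closedBall 0 ρ ×ˢ K₁) ∩ (fun p => g p.1 - p.2 * d p.1) ⁻¹' {0}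
  have hP : IsCompact P := by
    have hc2 := (isCompact_closedBall (0 : ℂ) ρ).prod hK₁
    refine hc2.of_isClosed_subset (ContinuousOn.preimage_isClosed_of_isClosed ?_ hc2.isClosed
      isClosed_singleton) inter_subset_left
    exact (h.dg.continuousOn.comp continuousOn_fst fun p hp => hcb hp.1).sub
      (continuousOn_snd.mul (dd.continuousOn.comp continuousOn_fst fun p hp => hcb hp.1))
  have hKO : Prod.fst '' P ⊆ O := by
    rintro _ ⟨⟨u, z⟩, ⟨⟨hu, hz⟩, he⟩, rfl⟩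
    have he : g u = z * d u := sub_eq_zero.mp he
    have hdu : d u ≠ 0 := by
      intro e
      rw [e, mul_zero] at he
      by_cases hu0 : u = 0
      · exact hd0 (hu0 ▸ e)
      · exact h.g_ne (hcb hu) hu0 he
    refine ⟨⟨hcb hu, hdu⟩, ?_⟩
    change g u / d u ∈ invExt W
    rw [he, mul_div_cancel_right₀ _ hdu]
    exact hK₁D hz
  refine lt_irrefl c (maxprin hO dH (hP.image continuous_fst) hKO (c := c) ?_ u₀ hu₀O)
  intro u hu hcu
  have hu1 : ‖u‖ < 1 := mem_ball_zero_iff.mp hu.1.1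
  have hdu : d u ≠ 0 := hu.1.2
  have a1 : g u / d u ∈ K₁ := by
    refine ⟨f (g u / d u), ?_, h.gf _ hu.2⟩
    have := congrArg norm (hHu u hu)
    rw [norm_mul] at this
    rw [mem_closedBall_zero_iff]
    have a2 : c * ‖f (g u / d u)‖ ≤ 1 := by nlinarith [norm_nonneg (f (g u / d u))]
    rw [← one_div, le_div_iff₀ (by linarith)]
    linarith
  refine ⟨(u, g u / d u), ⟨⟨?_, a1⟩, ?_⟩, rfl⟩
  · rw [mem_closedBall_zero_iff]
    by_contra hlt
    have hlt : ρ < ‖u‖ := not_le.mp hlt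
    have hu0 : u ≠ 0 := norm_pos_iff.mp (lt_of_le_of_lt (le_max_right _ _) hlt)
    have b1 := hn₁ u (lt_of_le_of_lt ((le_max_left _ _).trans (le_max_left _ _)) hlt) hu1
    have b2 := hn₂ u (lt_of_le_of_lt ((le_max_right _ _).trans (le_max_left _ _)) hlt) hu1
    have b3 := (h.cvx.thickening η) b1 b2 (a := l) (b := 1 - l) (by linarith) (by linarith)
      (by ring)
    have hgu := h.g_ne hu.1.1 hu0
    have b4 : l • (g u)⁻¹ + (1 - l) • (k u * (g u)⁻¹) = d u / g u := by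
      simp only [Complex.real_smul, hd]
      push_cast
      field_simp
    rw [b4] at b3
    rcases hηK b3 with b5 | b5
    · exact div_ne_zero hdu hgu b5
    · exact b5 (by rwa [inv_div])
  · change g u - g u / d u * d u ∈ ({0} : Set ℂ)
    rw [div_mul_cancel₀ _ hdu, sub_self]; rfl

end Riem

end Crest.Agent.R132
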