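import Crest.Agent.R132.Main

/-! The estimate for bounded operators on a Hilbert space, by compression to a Krylov space. -/

open Filter Topology Set Metric Polynomial
open scoped ComplexConjugate InnerProductSpace

namespace Crest.Agent.R132

theorem hilbert_bound
    {H : Type*} [NormedAddCommGroup H] [InnerProductSpace ℂ H] [CompleteSpace H]
    (A : H →L[ℂ] H) (m d : ℕ) (B : Fin (d + 1) → Matrix (Fin m) (Fin m) ℂ) (M : ℝ)
    (hM : ∀ x : H, ‖x‖ = 1 →
      ‖Matrix.toEuclideanCLM (n := Fin m) (𝕜 := ℂ)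
          (∑ k : Fin (d + 1), (inner ℂ x (A x)) ^ (k : ℕ) • B k)‖ ≤ M)
    (v : PiLp 2 (fun _ : Fin m => H)) :
    ‖(WithLp.toLp 2 (fun i : Fin m => ∑ j : Fin m, ∑ k : Fin (d + 1), B k i j • (A ^ (k : ℕ)) (v j))
        : PiLp 2 (fun _ : Fin m => H))‖ ≤ 2 * M * ‖v‖ := by
  by_cases hv : v = 0
  · subst hv
    simp only [PiLp.zero_apply, map_zero, smul_zero, Finset.sum_const_zero, norm_zero, mul_zero]
    exact le_of_eq (norm_eq_zero.mpr rfl)
  have hM0 : 0 ≤ M := by
    obtain ⟨j, hj⟩ : ∃ j, v j ≠ 0 := by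
      by_contra hn
      push Not at hn
      exact hv (by ext j; exact hn j)
    have : Nontrivial H := ⟨⟨_, _, hj⟩⟩
    obtain ⟨x, hx⟩ := exists_norm_eq H zero_le_one
    exact (norm_nonneg _).trans (hM x hx)
  let K : Submodule ℂ H :=
    Submodule.span ℂ (range fun p : Fin (d + 1) × Fin m => (A ^ (p.1 : ℕ)) (v p.2))
  have : FiniteDimensional ℂ K := FiniteDimensional.span_of_finite ℂ (finite_range _)
  have hK : ∀ k ≤ d, ∀ j, (A ^ k) (v j) ∈ K := fun k hk j =>
    Submodule.subset_span ⟨(⟨k, by omega⟩, j), rfl⟩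
  let A' : K →L[ℂ] K := K.orthogonalProjection ∘L A ∘L K.subtypeL
  let v' : Fin m → K := fun j => ⟨v j, by simpa using hK 0 (Nat.zero_le _) j⟩
  have hpow : ∀ k ≤ d, ∀ j, ((A' ^ k) (v' j) : H) = (A ^ k) (v j) := by
    intro k
    induction k with
    | zero => intro _ j; rfl
    | succ k ih =>
      intro hk j
      have e : (A' ^ (k + 1)) (v' j) = K.orthogonalProjection (A ((A' ^ k) (v' j) : H)) := by
        rw [pow_succ']; rfl
      have e2 : A ((A ^ k) (v j)) = (A ^ (k + 1)) (v j) := by rw [pow_succ']; rfl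
      rw [e, ih (by omega), e2]
      exact congrArg Subtype.val
        (Submodule.orthogonalProjection_mem_subspace_eq_self (K := K) ⟨_, hK _ hk j⟩)
  let Θ : ℂ → Matrix (Fin m) (Fin m) ℂ := fun z => ∑ k : Fin (d + 1), z ^ (k : ℕ) • B k
  have hΘc : Continuous fun z => ‖Matrix.toEuclideanCLM (n := Fin m) (𝕜 := ℂ) (Θ z)‖ := by
    simp only [Θ, map_sum, map_smul]
    fun_prop
  refine le_of_forall_pos_le_add fun ε hε => ?_
  have hv0 : 0 < ‖v‖ := norm_pos_iff.mpr hv
  set ε' := ε / (2 * ‖v‖) with hε'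
  have hε0 : 0 < ε' := by positivity
  obtain ⟨δ, hδ, hδV⟩ := (isCompact_NR (A' : K →ₗ[ℂ] K)).exists_thickening_subset_open
    (isOpen_lt hΘc (continuous_const (y := M + ε'))) (by
      rintro _ ⟨x, hx, rfl⟩
      have e : ⟪x, (A' : K →ₗ[ℂ] K) x⟫_ℂ = ⟪(x : H), A x⟫_ℂ :=
        Submodule.inner_orthogonalProjection_eq_of_mem_left x (A x)
      rw [e]
      exact lt_of_le_of_lt (hM x hx) (by linarith))
  have := main_op A' isOpen_thickening ((convex_NR _).thickening δ) (self_subset_thickening hδ _)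
    (Θ := Θ) (q := fun i j => ∑ k : Fin (d + 1), monomial k (B k i j)) (χ := 0) (map_zero _)
    (r := fun _ _ _ => 0) (fun _ _ => differentiableOn_const _)
    (fun z _ i j => by
      simp [Θ, Matrix.sum_apply, eval_finsetSum, mul_comm]) (fun z hz => (hδV hz).le) v'
  have e : ∀ i, ‖∑ j, aeval A' (∑ k : Fin (d + 1), monomial k (B k i j)) (v' j)‖ =
      ‖∑ j : Fin m, ∑ k : Fin (d + 1), B k i j • (A ^ (k : ℕ)) (v j)‖ := by
    intro i
    rw [Submodule.coe_norm]
    congr 1
    simp only [map_sum, aeval_monomial, ContinuousLinearMap.sum_apply, Submodule.coe_sum,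
      Algebra.algebraMap_eq_smul_one, smul_mul_assoc, one_mul, ContinuousLinearMap.smul_apply,
      Submodule.coe_smul]
    exact Finset.sum_congr rfl fun j _ => Finset.sum_congr rfl fun k _ => by
      rw [hpow k (by omega)]
  simp only [e] at this
  have e2 : 2 * M * ‖v‖ + ε = 2 * (M + ε') * ‖v‖ := by
    rw [hε']; field_simp
  rw [e2]
  refine abs_le_of_sq_le_sq' ?_ (by positivity) |>.2
  rw [mul_pow, mul_pow, PiLp.norm_sq_eq_of_L2, PiLp.norm_sq_eq_of_L2]
  rw [show (2 : ℝ) ^ 2 = 4 by norm_num]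
  exact this

end Crest.Agent.R132
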