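import Crest.Agent.R132.Faber

/-! The remainder operator is a contraction from negative to positive frequencies. -/

open Filter Topology Set Metric MeasureTheory Polynomial
open scoped Real ComplexConjugate

namespace Crest.Agent.R132

namespace Conf
variable {g : ℂ → ℂ} {R : ℝ} (h : Conf g R)
include h

theorem diff_LL (k : ℕ) : DifferentiableOn ℂ (LL g k) (ball 0 R \ {0}) := by
  have h1 : DifferentiableOn ℂ (fun v => (g v)⁻¹) (ball 0 R \ {0}) :=
    (h.diff.mono sdiff_subset).inv fun u hu => h.ne_zero hu.1 hu.2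
  have h2 : DifferentiableOn ℂ (fun v : ℂ => v⁻¹) (ball 0 R \ {0}) :=
    differentiableOn_id.inv fun u hu => hu.2
  exact ((faber g k).differentiable.comp_differentiableOn h1).sub (h2.pow k)

theorem cont_LL (k : ℕ) : Continuous fun θ => LL g k (ec θ) :=
  (h.diff_LL k).continuousOn.comp_continuous continuous_ec fun θ => ⟨h.ec_mem θ, ec_ne_zero θ⟩

theorem tendsto_LL (k : ℕ) : Tendsto (LL g k) (𝓝[≠] 0) (𝓝 0) := by
  have hsub : sphere (0 : ℂ) 1 ⊆ ball 0 R := sphere_subset_closedBall.trans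
    (closedBall_subset_ball h.one_lt)
  obtain ⟨Q, hQ⟩ := (isCompact_sphere (0 : ℂ) 1).exists_bound_of_continuousOn
    (h.diff_qq.continuousOn.mono hsub)
  obtain ⟨u₀, hu₀, hm⟩ := (isCompact_sphere (0 : ℂ) 1).exists_isMinOn
    ⟨1, by simp⟩ (h.diff.continuousOn.mono hsub).norm
  set m := ‖g u₀‖ with hmd
  have hm0 : 0 < m := norm_pos_iff.mpr (h.ne_zero (hsub hu₀) (by
    rintro rfl; simp at hu₀))
  have hb := ball_mem_nhds (0 : ℂ) (lt_trans zero_lt_one h.one_lt)
  have c2 : ContinuousAt g 0 := h.diff.continuousOn.continuousAt hb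
  have hsph : ∀ θ, ec θ ∈ sphere (0 : ℂ) 1 := fun θ => by simp
  have hQ0 : 0 ≤ Q := (norm_nonneg _).trans (hQ _ hu₀)
  refine squeeze_zero_norm' (a := fun v => Q * ‖g v‖ / (m / 2) + ‖v‖ / (1 / 2)) ?_ ?_
  · have e1 : ∀ᶠ v in 𝓝 (0 : ℂ), ‖g v‖ < m / 2 :=
      c2.norm.eventually_lt continuousAt_const (by simp [h.zero, hm0])
    have e2 : ∀ᶠ v in 𝓝 (0 : ℂ), ‖v‖ < 1 / 2 :=
      continuous_norm.continuousAt.eventually_lt continuousAt_const (by simp)
    filter_upwards [self_mem_nhdsWithin, nhdsWithin_le_nhds hb, nhdsWithin_le_nhds e1,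
      nhdsWithin_le_nhds e2] with v hv0 hv hv1 hv2
    rw [← h.mean_conj_pow_ell hv hv0]
    refine norm_mean_le fun θ => ?_
    have huv : ec θ ≠ v := by
      rintro rfl; rw [norm_ec] at hv2; linarith
    rw [h.ell_eq hv (h.ec_mem θ) huv, norm_mul, norm_pow, Complex.norm_conj, norm_ec, one_pow,
      one_mul]
    refine (norm_sub_le _ _).trans (add_le_add ?_ ?_)
    · rw [norm_div, norm_mul]
      have a1 : m ≤ ‖g (ec θ)‖ := hm (hsph θ)
      have a2 := norm_sub_norm_le (g (ec θ)) (g v)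
      rw [norm_sub_rev] at a2
      have a3 := hQ _ (hsph θ)
      gcongr
      linarith
    · rw [norm_div]
      have a2 := norm_sub_norm_le (ec θ) v
      rw [norm_sub_rev, norm_ec] at a2
      gcongr
      linarith
  · have : ContinuousAt (fun v : ℂ => Q * ‖g v‖ / (m / 2) + ‖v‖ / (1 / 2)) 0 := by fun_prop
    have h2 := this.tendsto
    simp only [h.zero, norm_zero, mul_zero, zero_div, add_zero] at h2
    exact h2.mono_left nhdsWithin_le_nhds

theorem mean_pow_LL (k j : ℕ) : mean (fun θ => ec θ ^ j * LL g k (ec θ)) = 0 := by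
  refine mean_punct (H := fun v => v ^ j * LL g k v) h.one_lt
    ((differentiableOn_id.pow j).mul (h.diff_LL k)) ?_
  have h1 : Tendsto (fun v : ℂ => v ^ j) (𝓝[≠] 0) (𝓝 (0 ^ j)) :=
    (continuous_pow j).continuousAt.tendsto.mono_left nhdsWithin_le_nhds
  simpa using h1.mul (h.tendsto_LL k)

theorem kernel_nonneg
    (K2 : ∀ u v : ℂ, ‖u‖ = 1 → ‖v‖ = 1 → 0 ≤ (qq g u * conj (1 - g u * (g v)⁻¹)).re)
    (t θ : ℝ) : 0 ≤ 1 + 2 * (ell g (ec t) (ec θ)).re := by
  have hc : Continuous fun θ => 1 + 2 * (ell g (ec t) (ec θ)).re := by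
    have := continuous_comp_ec h.one_lt (h.diff_ell (h.ec_mem t))
    exact continuous_const.add (continuous_const.mul (Complex.continuous_re.comp this))
  have hd : Dense (ec ⁻¹' {ec t})ᶜ :=
    ((countable_singleton (ec t)).preimage_circleMap 0 one_ne_zero).dense_compl ℝ
  refine closure_minimal (t := {θ | 0 ≤ 1 + 2 * (ell g (ec t) (ec θ)).re}) ?_
    (isClosed_le continuous_const hc) (hd θ)
  intro θ hθ
  have huv : ec θ ≠ ec t := hθ
  change 0 ≤ 1 + 2 * (ell g (ec t) (ec θ)).re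
  rw [h.ell_eq' (h.ec_mem t) (ec_ne_zero t) (h.ec_mem θ) huv]
  have k2 := K2 _ _ (norm_ec θ) (norm_ec t)
  set a := 1 - g (ec θ) * (g (ec t))⁻¹
  have e1 : 0 ≤ (qq g (ec θ) * a⁻¹).re := by
    rw [Complex.inv_def, ← mul_assoc, Complex.re_mul_ofReal]
    exact mul_nonneg k2 (inv_nonneg.mpr (Complex.normSq_nonneg _))
  have e2 : ((1 - ec θ * (ec t)⁻¹)⁻¹).re = 1 / 2 := by
    set w := ec θ * (ec t)⁻¹ with hw
    have hw1 : ‖w‖ = 1 := by simp [hw]
    have hw2 : w ≠ 1 := by
      intro e; apply huv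
      have := ec_ne_zero t
      rw [hw] at e; field_simp at e; exact e
    have hw3 : w.re ^ 2 + w.im ^ 2 = 1 := by
      have := Complex.sq_norm w
      rw [hw1, Complex.normSq_apply] at this; nlinarith
    have hw4 : Complex.normSq (1 - w) ≠ 0 := by
      rw [Ne, Complex.normSq_eq_zero]; exact sub_ne_zero.mpr hw2.symm
    rw [Complex.inv_re, div_eq_iff hw4, Complex.normSq_apply]
    simp only [Complex.sub_re, Complex.one_re, Complex.sub_im, Complex.one_im]
    nlinarith
  rw [Complex.sub_re, e2]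
  linarith

theorem mean_conj_pow_kernel (t : ℝ) (k : ℕ) :
    mean (fun θ => conj (ec θ) ^ k * ((1 + 2 * (ell g (ec t) (ec θ)).re : ℝ) : ℂ)) =
      (if k = 0 then 1 else 0) + LL g k (ec t) := by
  have hc := continuous_comp_ec h.one_lt (h.diff_ell (h.ec_mem t))
  have : (fun θ => conj (ec θ) ^ k * ((1 + 2 * (ell g (ec t) (ec θ)).re : ℝ) : ℂ)) =
      fun θ => conj (ec θ) ^ k * ec θ ^ 0 + conj (ec θ) ^ k * ell g (ec t) (ec θ) +
        conj (ec θ ^ k * ell g (ec t) (ec θ)) := by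
    ext θ
    push_cast
    rw [Complex.re_eq_add_conj]
    simp only [map_mul, map_pow]
    ring
  rw [this, mean_add (by fun_prop) (by fun_prop), mean_add (by fun_prop) (by fun_prop),
    mean_conj (by fun_prop), h.mean_pow_ell (h.ec_mem t) (ec_ne_zero t),
    h.mean_conj_pow_ell (h.ec_mem t) (ec_ne_zero t), mean_conj_ec_pow_mul_pow, map_zero, add_zero]

theorem mean_sq_LL_le
    (K2 : ∀ u v : ℂ, ‖u‖ = 1 → ‖v‖ = 1 → 0 ≤ (qq g u * conj (1 - g u * (g v)⁻¹)).re)
    (s : Finset ℕ) (β : ℕ → ℂ) (hs : 0 ∉ s) :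
    mean (fun θ => ‖∑ k ∈ s, β k * LL g k (ec θ)‖ ^ 2) ≤ ∑ k ∈ s, ‖β k‖ ^ 2 := by
  let K : ℝ → ℝ → ℝ := fun t θ => 1 + 2 * (ell g (ec t) (ec θ)).re
  have hK : ∀ t, Continuous (K t) := fun t => by
    have := continuous_comp_ec h.one_lt (h.diff_ell (h.ec_mem t))
    exact continuous_const.add (continuous_const.mul (Complex.continuous_re.comp this))
  have hK0 : ∀ t θ, 0 ≤ K t θ := h.kernel_nonneg K2
  have hKm : ∀ t k, mean (fun θ => conj (ec θ) ^ k * (K t θ : ℂ)) =
      (if k = 0 then 1 else 0) + LL g k (ec t) := h.mean_conj_pow_kernel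
  have hL := h.cont_LL
  have hL0 : ∀ t, LL g 0 (ec t) = 0 := by
    intro t
    rw [← h.mean_conj_pow_ell (h.ec_mem t) (ec_ne_zero t)]
    simpa using h.mean_pow_ell (h.ec_mem t) (ec_ne_zero t) 0
  let ψ : ℝ → ℂ := fun θ => ∑ k ∈ s, β k * conj (ec θ) ^ k
  have hψ : Continuous ψ := by fun_prop
  let m : ℕ → ℕ → ℝ → ℂ := fun k l t =>
    if l ≤ k then (if k - l = 0 then 1 else 0) + LL g (k - l) (ec t)
    else conj (LL g (l - k) (ec t))
  have hm : ∀ k l, Continuous (m k l) := fun k l => by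
    simp only [m]; split_ifs <;> fun_prop
  have hmm : ∀ k l t, mean (fun θ => conj (ec θ) ^ k * ec θ ^ l * (K t θ : ℂ)) = m k l t := by
    intro k l t
    have := hK t
    simp only [m]
    split_ifs with h1 h2
    · simp only [conj_ec_pow_mul_pow_of_ge h1, hKm, if_pos h2]
    · simp only [conj_ec_pow_mul_pow_of_ge h1, hKm, if_neg h2]
    · have e := hKm t (l - k)
      rw [if_neg (by omega), zero_add] at e
      rw [← e, ← mean_conj (by fun_prop)]
      simp only [conj_ec_pow_mul_pow_of_le (le_of_not_ge h1), map_mul, map_pow, Complex.conj_conj,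
        Complex.conj_ofReal]
  have hm2 : ∀ k l, mean (m k l) = if k = l then 1 else 0 := by
    intro k l
    have e0 : ∀ j, mean (fun t => LL g j (ec t)) = 0 := fun j => by
      simpa using h.mean_pow_LL j 0
    simp only [m]
    by_cases h1 : l ≤ k
    · simp only [if_pos h1]
      rw [mean_add (by fun_prop) (by fun_prop), e0, mean_const, add_zero]
      exact if_congr (by omega) rfl rfl
    · simp only [if_neg h1]
      rw [mean_conj (by fun_prop), e0, map_zero, if_neg (by omega)]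
  have step : ∀ t, ‖∑ k ∈ s, β k * LL g k (ec t)‖ ^ 2 ≤
      (∑ k ∈ s, ∑ l ∈ s, β k * conj (β l) * m k l t).re := by
    intro t
    have hKt := hK t
    set E := ∑ k ∈ s, β k * LL g k (ec t) with hE
    have a1 : mean (fun θ => ψ θ * (K t θ : ℂ)) = E := by
      simp only [ψ, Finset.sum_mul, mul_assoc]
      rw [mean_sum' _ (fun _ => by fun_prop)]
      refine Finset.sum_congr rfl fun k hk => ?_
      rw [mean_const_mul, hKm, if_neg (fun e : k = 0 => hs (e ▸ hk)), zero_add]
    have a2 : mean (K t) = 1 := by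
      apply Complex.ofReal_injective
      rw [← mean_ofReal]
      simpa [hL0] using hKm t 0
    have a3 : mean (fun θ => ‖ψ θ‖ ^ 2 * K t θ) =
        (∑ k ∈ s, ∑ l ∈ s, β k * conj (β l) * m k l t).re := by
      have : ((mean (fun θ => ‖ψ θ‖ ^ 2 * K t θ) : ℝ) : ℂ) =
          ∑ k ∈ s, ∑ l ∈ s, β k * conj (β l) * m k l t := by
        rw [← mean_ofReal]
        have : (fun θ => ((‖ψ θ‖ ^ 2 * K t θ : ℝ) : ℂ)) = fun θ => ∑ k ∈ s, ∑ l ∈ s,
            β k * conj (β l) * (conj (ec θ) ^ k * ec θ ^ l * (K t θ : ℂ)) := by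
          ext θ
          rw [Complex.ofReal_mul, ← conj_mul_self, mul_comm (conj (ψ θ))]
          simp only [ψ, map_sum, map_mul, map_pow, Complex.conj_conj]
          rw [Finset.sum_mul_sum]
          simp only [Finset.sum_mul]
          exact Finset.sum_congr rfl fun _ _ => Finset.sum_congr rfl fun _ _ => by ring
        rw [this, mean_sum' _ (fun _ => by fun_prop)]
        refine Finset.sum_congr rfl fun k _ => ?_
        rw [mean_sum' _ (fun _ => by fun_prop)]
        refine Finset.sum_congr rfl fun l _ => ?_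
        rw [mean_const_mul, hmm]
      rw [← this, Complex.ofReal_re]
    have a4 : 0 ≤ mean (fun θ => ‖-E + ψ θ‖ ^ 2 * K t θ) :=
      mean_nonneg fun θ => mul_nonneg (sq_nonneg _) (hK0 t θ)
    have a5 : (fun θ => ‖-E + ψ θ‖ ^ 2 * K t θ) = fun θ => ‖E‖ ^ 2 * K t θ +
        ‖ψ θ‖ ^ 2 * K t θ + 2 * (conj (-E) * (ψ θ * (K t θ : ℂ))).re := by
      ext θ
      rw [norm_add_sq', norm_neg, ← mul_assoc, Complex.re_mul_ofReal]
      ring
    rw [a5, mean_add (by fun_prop) (by fun_prop), mean_add (by fun_prop) (by fun_prop),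
      mean_const_mul_real, mean_const_mul_real, mean_re (by fun_prop), mean_const_mul, a1, a2,
      a3, map_neg, neg_mul, conj_mul_self, Complex.neg_re, Complex.ofReal_re] at a4
    linarith
  refine (mean_mono (by fun_prop) (by fun_prop) step).trans (le_of_eq ?_)
  rw [mean_re (by fun_prop), mean_sum' _ (fun _ => by fun_prop), Complex.re_sum]
  refine Finset.sum_congr rfl fun k hk => ?_
  rw [mean_sum' _ (fun _ => by fun_prop)]
  simp only [mean_const_mul, hm2, mul_ite, mul_one, mul_zero, Finset.sum_ite_eq, if_pos hk]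
  rw [mul_comm, conj_mul_self, Complex.ofReal_re]

end Conf

end Crest.Agent.R132
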