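import Mathlib
import Crest.Prelude.Def_NumRangeMetric

/-! The matrix form of the main estimate of row 132, as a proposition. -/

open scoped ComplexOrder
open Polynomial Matrix

namespace Crest.Agent.R132

/-- Complete bound `‖Θ[A]‖ ≤ 2 sup_V ‖Θ‖` for `Θ = q + χ_A · r` with `r` holomorphic on an open
convex set `V` containing the numerical range of `A`.  The vector `(v_j)_j` in `ℂⁿ ⊗ ℂ^ι` is given
by the columns of `W`. -/
def MainStmt : Prop :=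
  ∀ (n : ℕ) (ι : Type) [Fintype ι] [DecidableEq ι] (A : Matrix (Fin n) (Fin n) ℂ) (V : Set ℂ),
    IsOpen V → Convex ℝ V → Crest.AnalysisR.NumRange.numRange A ⊆ V →
    ∀ (Θ : ℂ → Matrix ι ι ℂ) (q : ι → ι → ℂ[X]) (r : ι → ι → ℂ → ℂ),
      (∀ i j, DifferentiableOn ℂ (r i j) V) →
      (∀ z ∈ V, ∀ i j, Θ z i j = (q i j).eval z + A.charpoly.eval z * r i j z) →
      ∀ M : ℝ, (∀ z ∈ V, ‖Matrix.toEuclideanCLM (n := ι) (𝕜 := ℂ) (Θ z)‖ ≤ M) →
        ∀ W : Matrix (Fin n) ι ℂ,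
          ∑ i, ∑ a, ‖(∑ j, (aeval A (q i j)) *ᵥ (fun b => W b j)) a‖ ^ 2
            ≤ 4 * M ^ 2 * ∑ j, ∑ a, ‖W a j‖ ^ 2

end Crest.Agent.R132
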