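import Crest.Agent.R132.Geom

/-! Tangent-line inequalities for level curves and the rescaled conformal data. -/

open Filter Topology Set Metric
open scoped ComplexConjugate

namespace Crest.Agent.R132

namespace Riem
variable {W : Set ℂ} {f g : ℂ → ℂ} (h : Riem W f g)
include h

theorem tangent {k : ℂ → ℂ} (hk : DifferentiableOn ℂ k (ball 0 1)) (hk0 : ‖k 0‖ ≤ 1)
    (hkW : ∀ η > 0, ∃ ρ < 1, ∀ u : ℂ, ρ < ‖u‖ → ‖u‖ < 1 → k u * (g u)⁻¹ ∈ thickening η W)
    {u : ℂ} (hu : u ∈ ball (0 : ℂ) 1) (hu0 : u ≠ 0) :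
    0 ≤ (u * deriv g u / g u * conj (1 - k u)).re := by
  have hDo := isOpen_invExt h.cpt
  have hgu := h.g_ne hu hu0
  have hb := isOpen_ball.mem_nhds hu
  have hD := hDo.mem_nhds (h.mg hu)
  have dg : HasDerivAt g (deriv g u) u := (h.dg.differentiableAt hb).hasDerivAt
  have df : HasDerivAt f (deriv f (g u)) (g u) := (h.df.differentiableAt hD).hasDerivAt
  have hfg : deriv f (g u) * deriv g u = 1 := by
    have a1 := df.comp u dg
    have a2 : HasDerivAt (f ∘ g) 1 u := by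
      refine (hasDerivAt_id u).congr_of_eventuallyEq ?_
      filter_upwards [hb] with y hy using h.fg y hy
    exact a1.unique a2
  -- the curve
  let dC : ℂ → ℂ := fun l => l + (1 - l) * k u
  have hd : HasDerivAt dC (1 - k u) 1 := by
    have := (hasDerivAt_id (1 : ℂ)).add (((hasDerivAt_id (1 : ℂ)).const_sub 1).mul_const (k u))
    exact this.congr_deriv (by ring)
  have hd1 : dC 1 = 1 := by simp [dC]
  have hz : HasDerivAt (fun l => g u / dC l) (-(g u * (1 - k u))) 1 := by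
    have := (hasDerivAt_const (1 : ℂ) (g u)).div hd (by rw [hd1]; exact one_ne_zero)
    exact this.congr_deriv (by rw [hd1]; ring)
  have hz1 : g u / dC 1 = g u := by rw [hd1, div_one]
  have hF : HasDerivAt (fun l => f (g u / dC l)) (deriv f (g u) * -(g u * (1 - k u))) 1 :=
    df.comp_of_eq 1 hz hz1.symm
  have hFr : HasDerivAt (fun l : ℝ => f (g u / dC l)) (deriv f (g u) * -(g u * (1 - k u))) 1 :=
    HasDerivAt.comp_ofReal (e := fun l => f (g u / dC l)) (by rw [Complex.ofReal_one]; exact hF)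
  have hN := hFr.norm_sq
  have hF1 : f (g u / dC ((1 : ℝ) : ℂ)) = u := by
    rw [Complex.ofReal_one, hz1, h.fg u hu]
  rw [hF1] at hN
  have hcont : ContinuousAt (fun l : ℝ => (l : ℂ)) 1 := Complex.continuous_ofReal.continuousAt
  have e1 : ∀ᶠ l : ℝ in 𝓝 1, dC l ≠ 0 := by
    have : ContinuousAt (fun l : ℝ => dC l) 1 :=
      ContinuousAt.comp_of_eq hd.continuousAt hcont (by simp)
    exact this.eventually_ne (by simp [hd1])
  have e2 : ∀ᶠ l : ℝ in 𝓝 1, g u / dC l ∈ invExt W := by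
    have : ContinuousAt (fun l : ℝ => g u / dC l) 1 :=
      ContinuousAt.comp_of_eq (g := fun l => g u / dC l) hz.continuousAt hcont (by simp)
    exact this.preimage_mem_nhds (by simpa [hz1] using hD)
  have e3 : ∀ᶠ l : ℝ in 𝓝 1, 1 / 2 < l := lt_mem_nhds (by norm_num)
  have key := le_of_tendsto (hasDerivAt_iff_tendsto_slope_left_right.mp hN).1 (b := 0) (by
    filter_upwards [self_mem_nhdsWithin, nhdsWithin_le_nhds e1, nhdsWithin_le_nhds e2,
      nhdsWithin_le_nhds e3] with l hl a1 a2 a3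
    have hl : l < 1 := hl
    have := h.level hk hk0 hkW a3 hl.le hu a1 a2
    rw [slope_def_field, hF1]
    refine div_nonpos_of_nonneg_of_nonpos ?_ (by linarith)
    exact sub_nonneg.mpr (pow_le_pow_left₀ (norm_nonneg _) this 2))
  have hg' : deriv g u ≠ 0 := right_ne_zero_of_mul_eq_one hfg
  have e4 : deriv f (g u) = (deriv g u)⁻¹ := eq_inv_of_mul_eq_one_left hfg
  rw [e4, Complex.inner] at key
  have e5 : u * deriv g u / g u * conj (1 - k u) =
      ((‖deriv g u‖ ^ 2 / ‖g u‖ ^ 2 : ℝ) : ℂ) *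
        conj (-((deriv g u)⁻¹ * -(g u * (1 - k u)) * conj u)) := by
    rw [Complex.ofReal_div, ← conj_mul_self, ← conj_mul_self]
    have a1 : conj (g u) ≠ 0 := by simpa using hgu
    have a2 : conj (deriv g u) ≠ 0 := by simpa using hg'
    simp only [map_neg, map_mul, map_inv₀, Complex.conj_conj]
    field_simp
  rw [e5, Complex.re_ofReal_mul, Complex.conj_re, Complex.neg_re]
  exact mul_nonneg (by positivity) (by linarith)

theorem tangent_one {w : ℂ} (hw : w ∈ W) {u : ℂ} (hu : u ∈ ball (0 : ℂ) 1) (hu0 : u ≠ 0) :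
    0 ≤ (u * deriv g u / g u * conj (1 - g u * w)).re := by
  refine h.tangent (k := fun u => g u * w) (h.dg.mul_const w) (by simp [h.g0]) ?_ hu hu0
  intro η hη
  refine ⟨0, one_pos, fun u hu1 hu2 => ?_⟩
  have := h.g_ne (mem_ball_zero_iff.mpr hu2) (norm_pos_iff.mp hu1)
  rw [mul_right_comm, mul_inv_cancel₀ this, one_mul]
  exact self_subset_thickening hη W hw

theorem tangent_two {u v : ℂ} (hu : u ∈ ball (0 : ℂ) 1) (hu0 : u ≠ 0) (huv : ‖u‖ = ‖v‖) :
    0 ≤ (u * deriv g u / g u * conj (1 - g u * (g v)⁻¹)).re := by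
  have h0b : (0 : ℂ) ∈ ball (0 : ℂ) 1 := mem_ball_self one_pos
  set ω := v / u with hω
  have hω1 : ‖ω‖ = 1 := by
    rw [hω, norm_div, ← huv, div_self (norm_ne_zero_iff.mpr hu0)]
  have hω0 : ω ≠ 0 := by rw [← norm_ne_zero_iff, hω1]; exact one_ne_zero
  have hm : ∀ s ∈ ball (0 : ℂ) 1, ω * s ∈ ball (0 : ℂ) 1 := fun s hs => by
    rwa [mem_ball_zero_iff, norm_mul, hω1, one_mul, ← mem_ball_zero_iff]
  have hg1 : ∀ u ∈ ball (0 : ℂ) 1, dslope g 0 u ≠ 0 := fun u hu =>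
    dslope_ne_zero_of_injOn isOpen_ball h.dg h.injg h0b hu
  have d1 : DifferentiableOn ℂ (dslope g 0) (ball 0 1) :=
    (Complex.differentiableOn_dslope (isOpen_ball.mem_nhds h0b)).mpr h.dg
  let k : ℂ → ℂ := fun s => dslope g 0 s / (ω * dslope g 0 (ω * s))
  have hk : ∀ s ∈ ball (0 : ℂ) 1, s ≠ 0 → k s = g s * (g (ω * s))⁻¹ := by
    intro s hs hs0
    have := hg1 _ (hm s hs)
    simp only [k]
    rw [h.g_eq s, h.g_eq (ω * s)]
    field_simp
  have := h.tangent (k := k) (d1.div ((d1.comp (by fun_prop) hm).const_mul ω)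
    fun s hs => mul_ne_zero hω0 (hg1 _ (hm s hs))) (by
      have := hg1 0 h0b
      simp only [k, mul_zero, norm_div, norm_mul, hω1, one_mul]
      rw [div_self (norm_ne_zero_iff.mpr this)]) (by
      intro η hη
      obtain ⟨ρ, hρ, hn⟩ := h.near hη
      refine ⟨max ρ 0, max_lt hρ one_pos, fun s hs1 hs2 => ?_⟩
      have hs0 : s ≠ 0 := norm_pos_iff.mp (lt_of_le_of_lt (le_max_right _ _) hs1)
      have hs := mem_ball_zero_iff.mpr hs2
      rw [hk s hs hs0, mul_right_comm, mul_inv_cancel₀ (h.g_ne hs hs0), one_mul]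
      refine hn _ ?_ ?_
      · rw [norm_mul, hω1, one_mul]; exact lt_of_le_of_lt (le_max_left _ _) hs1
      · rwa [norm_mul, hω1, one_mul]) hu hu0
  rwa [hk u hu hu0, hω, div_mul_cancel₀ _ hu0] at this

end Riem

/-- Conformal data adapted to a compact convex set `W` with the origin in its interior. -/
theorem exists_conf {W : Set ℂ} (hW : IsCompact W) (hc : Convex ℝ W) {δ : ℝ} (hδ : 0 < δ)
    (hb : ball 0 δ ⊆ W) {η : ℝ} (hη : 0 < η) :
    ∃ (g : ℂ → ℂ) (R : ℝ), Conf g R ∧ (∀ u ∈ ball (0 : ℂ) R, ∀ w ∈ W, g u * w ≠ 1) ∧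
      (∀ u : ℂ, ‖u‖ = 1 → ∀ w ∈ W, 0 ≤ (qq g u * conj (1 - g u * w)).re) ∧
      (∀ u v : ℂ, ‖u‖ = 1 → ‖v‖ = 1 → 0 ≤ (qq g u * conj (1 - g u * (g v)⁻¹)).re) ∧
      ∀ u : ℂ, ‖u‖ = 1 → (g u)⁻¹ ∈ thickening η W := by
  obtain ⟨f, g, h⟩ := exists_riem hW hc hδ hb
  obtain ⟨ρ₀, hρ₀, hn⟩ := h.near hη
  obtain ⟨ρ, hρ1, hρ2⟩ := exists_between (max_lt hρ₀ one_pos)
  have hρ0 : 0 < ρ := lt_of_le_of_lt (le_max_right _ _) hρ1
  have hρc : (ρ : ℂ) ≠ 0 := by exact_mod_cast hρ0.ne'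
  have hnorm : ∀ u : ℂ, ‖(ρ : ℂ) * u‖ = ρ * ‖u‖ := fun u => by
    rw [norm_mul, Complex.norm_real, Real.norm_of_nonneg hρ0.le]
  have hm : MapsTo (fun u : ℂ => (ρ : ℂ) * u) (ball 0 ρ⁻¹) (ball 0 1) := fun u hu => by
    rw [mem_ball_zero_iff] at hu ⊢
    rw [hnorm, ← lt_div_iff₀' hρ0, one_div]; exact hu
  have hC : Conf (fun u => g (ρ * u)) ρ⁻¹ :=
    ⟨one_lt_inv_iff₀.mpr ⟨hρ0, hρ2⟩, h.dg.comp (by fun_prop) hm,
      fun a ha b hb e => mul_left_cancel₀ hρc (h.injg (hm ha) (hm hb) e), by simp [h.g0]⟩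
  have hq : ∀ u : ℂ, ‖u‖ = 1 → qq (fun u => g (ρ * u)) u =
      ρ * u * deriv g (ρ * u) / g (ρ * u) := by
    intro u hu
    have hub : u ∈ ball (0 : ℂ) ρ⁻¹ := by rw [mem_ball_zero_iff, hu]; exact hC.one_lt
    have hu0 : u ≠ 0 := by rw [← norm_ne_zero_iff, hu]; exact one_ne_zero
    have a1 := hC.qq_mul u hub
    have a2 := hC.ne_zero hub hu0
    rw [deriv_comp_mul_left, smul_eq_mul] at a1
    rw [eq_div_iff a2, a1]; ring
  have hb1 : ∀ u : ℂ, ‖u‖ = 1 → (ρ : ℂ) * u ∈ ball (0 : ℂ) 1 ∧ (ρ : ℂ) * u ≠ 0 := fun u hu => by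
    refine ⟨by rw [mem_ball_zero_iff, hnorm, hu, mul_one]; exact hρ2, mul_ne_zero hρc ?_⟩
    rw [← norm_ne_zero_iff, hu]; exact one_ne_zero
  refine ⟨fun u => g (ρ * u), ρ⁻¹, hC, fun u hu w hw e => ?_, fun u hu w hw => ?_,
    fun u v hu hv => ?_, fun u hu => ?_⟩
  · rcases h.mg (hm hu) with h1 | h1
    · simp only [h1, zero_mul] at e; exact zero_ne_one e
    · exact h1 (by rwa [← eq_inv_of_mul_eq_one_right e])
  · rw [hq u hu]
    exact h.tangent_one hw (hb1 u hu).1 (hb1 u hu).2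
  · rw [hq u hu]
    exact h.tangent_two (hb1 u hu).1 (hb1 u hu).2 (by rw [hnorm, hnorm, hu, hv])
  · refine hn _ ?_ (mem_ball_zero_iff.mp (hb1 u hu).1)
    rw [hnorm, hu, mul_one]; exact lt_of_le_of_lt (le_max_left _ _) hρ1

end Crest.Agent.R132
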