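import Crest.Agent.R132.Core
import Crest.Agent.R132.Tangent
import Crest.Agent.R132.TH
import Crest.Agent.R132.MainStmt

/-! The main estimate for operators on finite-dimensional spaces and for matrices. -/

open Filter Topology Set Metric Polynomial
open scoped ComplexConjugate InnerProductSpace

namespace Crest.Agent.R132

variable {E : Type*} [NormedAddCommGroup E] [InnerProductSpace ℂ E] [FiniteDimensional ℂ E]

theorem main_zero (A : E →L[ℂ] E) (h0 : (0 : ℂ) ∈ NR (A : E →ₗ[ℂ] E)) {V : Set ℂ}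
    (hVo : IsOpen V) (hVc : Convex ℝ V) (hA : NR (A : E →ₗ[ℂ] E) ⊆ V)
    {ι : Type*} [Fintype ι] [DecidableEq ι] {Θ : ℂ → Matrix ι ι ℂ} {q : ι → ι → ℂ[X]} {χ : ℂ[X]}
    (hχ : aeval A χ = 0) {r : ι → ι → ℂ → ℂ} (hr : ∀ i j, DifferentiableOn ℂ (r i j) V)
    (hΘ : ∀ z ∈ V, ∀ i j, Θ z i j = (q i j).eval z + χ.eval z * r i j z) {M : ℝ}
    (hM : ∀ z ∈ V, ‖Matrix.toEuclideanCLM (n := ι) (𝕜 := ℂ) (Θ z)‖ ≤ M) (v : ι → E) :
    ∑ i, ‖∑ j, aeval A (q i j) (v j)‖ ^ 2 ≤ 4 * M ^ 2 * ∑ j, ‖v j‖ ^ 2 := by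
  have : CompleteSpace E := FiniteDimensional.complete ℂ E
  obtain ⟨δ, hδ, hδV⟩ := (isCompact_NR (A : E →ₗ[ℂ] E)).exists_cthickening_subset_open hVo hA
  set W := cthickening δ (NR (A : E →ₗ[ℂ] E)) with hW
  have hWc : IsCompact W := (isCompact_NR _).cthickening
  have hNW : NR (A : E →ₗ[ℂ] E) ⊆ W := self_subset_cthickening _
  obtain ⟨η, hη, hηV⟩ := hWc.exists_thickening_subset_open hVo hδV
  obtain ⟨g, R, h, hne, K1, K2, hΓ⟩ := exists_conf hWc ((convex_NR _).cthickening δ) hδ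
    ((ball_subset_thickening h0 δ).trans (thickening_subset_cthickening _ _)) hη
  have hU : ∀ u ∈ ball (0 : ℂ) R, IsUnit (1 - g u • A) := by
    intro u hu
    rw [ContinuousLinearMap.isUnit_iff_isUnit_toLinearMap, LinearMap.isUnit_iff_ker_eq_bot,
      LinearMap.ker_eq_bot']
    intro x hx
    by_contra hx0
    have hn : ‖x‖ ≠ 0 := norm_ne_zero_iff.mpr hx0
    have hx1 : ‖((‖x‖⁻¹ : ℝ) : ℂ) • x‖ = 1 := by
      rw [norm_smul, Complex.norm_real, norm_inv, norm_norm, inv_mul_cancel₀ hn]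
    set y := ((‖x‖⁻¹ : ℝ) : ℂ) • x with hy
    have hx' : x = g u • A x := by
      simpa [sub_eq_zero] using hx
    have hy' : y = g u • A y := by
      rw [hy, map_smul, smul_comm, ← hx']
    refine hne u hu _ (hNW ⟨y, hx1, rfl⟩) ?_
    change g u * ⟪y, A y⟫_ℂ = 1
    rw [← inner_smul_right, ← hy', inner_self_eq_norm_sq_to_K, hx1]; simp
  let T₀ : PiLp 2 (fun _ : ι => E) →ₗ[ℂ] PiLp 2 (fun _ : ι => E) :=
    { toFun := fun v => WithLp.toLp 2 fun i => ∑ j, aeval A (q i j) (v j)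
      map_add' := fun v w => by ext i; simp [Finset.sum_add_distrib]
      map_smul' := fun c v => by ext i; simp [Finset.smul_sum] }
  let T := LinearMap.toContinuousLinearMap T₀
  have hT : ∀ v i, T v i = ∑ j, aeval A (q i j) (v j) := fun _ _ => rfl
  have hκ : ‖T‖ ^ 2 ≤ 4 * M ^ 2 := by
    by_cases hT0 : T = 0
    · rw [hT0, norm_zero]; nlinarith [sq_nonneg M]
    obtain ⟨x, y, hx, hy, h1, h2⟩ := exists_singular T hT0
    refine h.core hU (fun u hu z hz => K1 u hu _ (hNW ⟨z, hz, rfl⟩)) K2 hVo hVc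
      (fun θ => hηV (hΓ _ (norm_ec θ))) hχ hr hΘ hM (ξ := fun i => x i) (η := fun i => y i)
      ?_ (fun j => ?_) (fun l w => ?_)
    · by_contra hn
      push Not at hn
      have : x = 0 := by ext i; exact hn i
      rw [this, norm_zero] at hx; exact zero_ne_one hx
    · rw [← hT, h1]; rfl
    · have := h2 (WithLp.toLp 2 (Pi.single l w))
      simp only [PiLp.inner_apply, hT] at this
      simpa [Pi.single_apply, apply_ite, Finset.sum_ite_eq'] using this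
  have h1 := T.le_opNorm (WithLp.toLp 2 v)
  have h2 := pow_le_pow_left₀ (norm_nonneg _) h1 2
  rw [mul_pow, PiLp.norm_sq_eq_of_L2, PiLp.norm_sq_eq_of_L2] at h2
  refine h2.trans ?_
  exact mul_le_mul_of_nonneg_right hκ (by positivity)

theorem main_op (A : E →L[ℂ] E) {V : Set ℂ}
    (hVo : IsOpen V) (hVc : Convex ℝ V) (hA : NR (A : E →ₗ[ℂ] E) ⊆ V)
    {ι : Type*} [Fintype ι] [DecidableEq ι] {Θ : ℂ → Matrix ι ι ℂ} {q : ι → ι → ℂ[X]} {χ : ℂ[X]}
    (hχ : aeval A χ = 0) {r : ι → ι → ℂ → ℂ} (hr : ∀ i j, DifferentiableOn ℂ (r i j) V)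
    (hΘ : ∀ z ∈ V, ∀ i j, Θ z i j = (q i j).eval z + χ.eval z * r i j z) {M : ℝ}
    (hM : ∀ z ∈ V, ‖Matrix.toEuclideanCLM (n := ι) (𝕜 := ℂ) (Θ z)‖ ≤ M) (v : ι → E) :
    ∑ i, ‖∑ j, aeval A (q i j) (v j)‖ ^ 2 ≤ 4 * M ^ 2 * ∑ j, ‖v j‖ ^ 2 := by
  rcases subsingleton_or_nontrivial E with hE | hE
  · have : ∀ x : E, ‖x‖ = 0 := fun x => by rw [Subsingleton.elim x 0, norm_zero]
    simp [this]
  obtain ⟨x₀, hx₀⟩ := exists_norm_eq E zero_le_one
  set w := ⟪x₀, A x₀⟫_ℂ with hw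
  set A' : E →L[ℂ] E := A - w • 1 with hA'
  have hin : ∀ x : E, ‖x‖ = 1 → ⟪x, A' x⟫_ℂ = ⟪x, A x⟫_ℂ - w := by
    intro x hx
    simp [hA', inner_sub_right, inner_smul_right, inner_self_eq_norm_sq_to_K, hx]
  have hae : ∀ p : ℂ[X], aeval A' (p.comp (X + C w)) = aeval A p := by
    intro p
    rw [aeval_comp, map_add, aeval_X, aeval_C, Algebra.algebraMap_eq_smul_one, hA',
      sub_add_cancel]
  have := main_zero A' ⟨x₀, hx₀, by change 0 = ⟪x₀, A' x₀⟫_ℂ; rw [hin x₀ hx₀, sub_self]⟩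
    (V := (fun z => z + w) ⁻¹' V) (hVo.preimage (by fun_prop)) (hVc.translate_preimage_left w)
    (by
      rintro _ ⟨x, hx, rfl⟩
      change ⟪x, A' x⟫_ℂ + w ∈ V
      rw [hin x hx, sub_add_cancel]
      exact hA ⟨x, hx, rfl⟩)
    (Θ := fun z => Θ (z + w)) (q := fun i j => (q i j).comp (X + C w)) (χ := χ.comp (X + C w))
    (by rw [hae, hχ]) (r := fun i j z => r i j (z + w))
    (fun i j => (hr i j).comp (by fun_prop) fun z hz => hz)
    (fun z hz i j => by simp [hΘ _ hz, eval_comp]) (fun z hz => hM _ hz) v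
  simpa only [hae] using this

theorem mainStmt : MainStmt := by
  intro n ι _ _ A V hVo hVc hA Θ q r hr hΘ M hM W
  have hae : ∀ p : ℂ[X], aeval (Matrix.toEuclideanCLM (n := Fin n) (𝕜 := ℂ) A) p =
      Matrix.toEuclideanCLM (n := Fin n) (𝕜 := ℂ) (aeval A p) := fun p =>
    aeval_algHom_apply (Matrix.toEuclideanCLM (n := Fin n) (𝕜 := ℂ)) A p
  have := main_op (Matrix.toEuclideanCLM (n := Fin n) (𝕜 := ℂ) A) hVo hVc hA (χ := A.charpoly)
    (by rw [hae, Matrix.aeval_self_charpoly, map_zero]) hr hΘ hM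
    (fun j => WithLp.toLp 2 fun b => W b j)
  simp only [hae, EuclideanSpace.norm_sq_eq] at this
  simpa using this

end Crest.Agent.R132
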