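import Mathlib

/-! Means over the unit circle, as functionals on continuous functions of the angle. -/

open Filter Topology Set Metric MeasureTheory
open scoped Real ComplexConjugate

namespace Crest.Agent.R132

/-- The point of the unit circle with angle `θ`. -/
noncomputable def ec (θ : ℝ) : ℂ := circleMap 0 1 θ

/-- The mean over `[0, 2π]`. -/
noncomputable def mean {F : Type*} [NormedAddCommGroup F] [NormedSpace ℝ F] (f : ℝ → F) : F :=
  (2 * π)⁻¹ • ∫ θ in (0 : ℝ)..2 * π, f θ

@[fun_prop] theorem continuous_ec : Continuous ec := continuous_circleMap 0 1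

@[simp] theorem norm_ec (θ : ℝ) : ‖ec θ‖ = 1 := by simp [ec]

theorem ec_ne_zero (θ : ℝ) : ec θ ≠ 0 := by
  rw [← norm_ne_zero_iff, norm_ec]; exact one_ne_zero

theorem conj_ec_mul (θ : ℝ) : conj (ec θ) * ec θ = 1 := by
  rw [mul_comm, Complex.mul_conj, Complex.normSq_eq_norm_sq, norm_ec]; simp

theorem conj_ec (θ : ℝ) : conj (ec θ) = (ec θ)⁻¹ :=
  eq_inv_of_mul_eq_one_left (conj_ec_mul θ)

theorem ec_mem_ball {R : ℝ} (hR : 1 < R) (θ : ℝ) : ec θ ∈ ball (0 : ℂ) R := by
  rw [mem_ball_zero_iff, norm_ec]; exact hR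

section general
variable {F : Type*} [NormedAddCommGroup F] [NormedSpace ℝ F]

theorem mean_congr {f g : ℝ → F} (h : ∀ θ, f θ = g θ) : mean f = mean g := by
  rw [show f = g from funext h]

theorem mean_add {f g : ℝ → F} (hf : Continuous f) (hg : Continuous g) :
    mean (fun θ => f θ + g θ) = mean f + mean g := by
  simp only [mean]
  rw [intervalIntegral.integral_add (hf.intervalIntegrable _ _) (hg.intervalIntegrable _ _),
    smul_add]

theorem mean_sub {f g : ℝ → F} (hf : Continuous f) (hg : Continuous g) :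
    mean (fun θ => f θ - g θ) = mean f - mean g := by
  simp only [mean]
  rw [intervalIntegral.integral_sub (hf.intervalIntegrable _ _) (hg.intervalIntegrable _ _),
    smul_sub]

theorem mean_sum {ι : Type*} (s : Finset ι) {f : ι → ℝ → F} (hf : ∀ i ∈ s, Continuous (f i)) :
    mean (fun θ => ∑ i ∈ s, f i θ) = ∑ i ∈ s, mean (f i) := by
  simp only [mean]
  rw [intervalIntegral.integral_finsetSum (fun i hi => (hf i hi).intervalIntegrable _ _),
    Finset.smul_sum]

theorem mean_sum' {ι : Type*} (s : Finset ι) {f : ι → ℝ → F} (hf : ∀ i, Continuous (f i)) :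
    mean (fun θ => ∑ i ∈ s, f i θ) = ∑ i ∈ s, mean (f i) :=
  mean_sum s fun i _ => hf i

@[simp] theorem mean_const [CompleteSpace F] (a : F) : mean (fun _ => a) = a := by
  simp only [mean, intervalIntegral.integral_const, sub_zero, smul_smul]
  rw [inv_mul_cancel₀ (by positivity), one_smul]

theorem norm_mean_le {f : ℝ → F} {B : ℝ} (h : ∀ θ, ‖f θ‖ ≤ B) : ‖mean f‖ ≤ B := by
  have := intervalIntegral.norm_integral_le_of_norm_le_const (a := 0) (b := 2 * π) (f := f)
    (C := B) (fun x _ => h x)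
  rw [mean, norm_smul, norm_inv, Real.norm_of_nonneg (by positivity)]
  rw [sub_zero, abs_of_nonneg (by positivity)] at this
  calc (2 * π)⁻¹ * ‖∫ θ in (0 : ℝ)..2 * π, f θ‖ ≤ (2 * π)⁻¹ * (B * (2 * π)) := by gcongr
    _ = B := by field_simp

end general

theorem mean_const_mul (c : ℂ) (f : ℝ → ℂ) : mean (fun θ => c * f θ) = c * mean f := by
  simp only [mean, intervalIntegral.integral_const_mul, Complex.real_smul]; ring

theorem mean_mul_const (c : ℂ) (f : ℝ → ℂ) : mean (fun θ => f θ * c) = mean f * c := by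
  simp only [mean, intervalIntegral.integral_mul_const, Complex.real_smul]; ring

theorem mean_const_mul_real (c : ℝ) (f : ℝ → ℝ) : mean (fun θ => c * f θ) = c * mean f := by
  simp only [mean, intervalIntegral.integral_const_mul, smul_eq_mul]; ring

theorem mean_mono {f g : ℝ → ℝ} (hf : Continuous f) (hg : Continuous g) (h : ∀ θ, f θ ≤ g θ) :
    mean f ≤ mean g := by
  simp only [mean, smul_eq_mul]
  gcongr
  exact intervalIntegral.integral_mono_on (by positivity) (hf.intervalIntegrable _ _)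
    (hg.intervalIntegrable _ _) fun x _ => h x

theorem mean_nonneg {f : ℝ → ℝ} (h : ∀ θ, 0 ≤ f θ) : 0 ≤ mean f := by
  simp only [mean, smul_eq_mul]
  exact mul_nonneg (by positivity) (intervalIntegral.integral_nonneg (by positivity)
    fun x _ => h x)

theorem mean_ofReal (f : ℝ → ℝ) : mean (fun θ => (f θ : ℂ)) = (mean f : ℝ) := by
  simp only [mean, intervalIntegral.integral_ofReal, Complex.real_smul, smul_eq_mul]
  push_cast; ring

theorem mean_re {f : ℝ → ℂ} (hf : Continuous f) : mean (fun θ => (f θ).re) = (mean f).re := by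
  have := Complex.reCLM.intervalIntegral_comp_comm (hf.intervalIntegrable (μ := volume) 0 (2 * π))
  simp only [Complex.reCLM_apply] at this
  simp only [mean, this, smul_eq_mul, Complex.real_smul, Complex.re_ofReal_mul]

theorem mean_conj {f : ℝ → ℂ} (hf : Continuous f) :
    mean (fun θ => conj (f θ)) = conj (mean f) := by
  have := (Complex.conjCLE : ℂ →L[ℝ] ℂ).intervalIntegral_comp_comm
    (hf.intervalIntegrable (μ := volume) 0 (2 * π))
  simp only [ContinuousLinearEquiv.coe_coe, Complex.conjCLE_apply] at this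
  simp only [mean, this, Complex.real_smul, map_mul, Complex.conj_ofReal]

theorem continuous_comp_ec {F : Type*} [NormedAddCommGroup F] [NormedSpace ℂ F] {f : ℂ → F}
    {R : ℝ} (hR : 1 < R) (hf : DifferentiableOn ℂ f (ball 0 R)) :
    Continuous fun θ => f (ec θ) :=
  hf.continuousOn.comp_continuous continuous_ec (ec_mem_ball hR)

/-- Mean value property. -/
theorem mean_holo {f : ℂ → ℂ} {R : ℝ} (hR : 1 < R) (hf : DifferentiableOn ℂ f (ball 0 R)) :
    mean (fun θ => f (ec θ)) = f 0 := by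
  have : DiffContOnCl ℂ f (ball 0 |(1 : ℝ)|) := by
    apply DifferentiableOn.diffContOnCl
    refine hf.mono ?_
    rw [abs_one, closure_ball _ one_ne_zero]
    exact closedBall_subset_ball hR
  exact this.circleAverage

/-- The mean of `u Φ'(u)` vanishes. -/
theorem mean_deriv {Φ : ℂ → ℂ} {Φ' : ℝ → ℂ} (h : ∀ θ, HasDerivAt Φ (Φ' θ) (ec θ))
    (hc : Continuous Φ') : mean (fun θ => ec θ * Φ' θ) = 0 := by
  have h1 : ∀ θ : ℝ, HasDerivAt (fun θ => Φ (ec θ)) (Complex.I * (ec θ * Φ' θ)) θ := by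
    intro θ
    have := (h θ).comp_of_eq θ (hasDerivAt_circleMap 0 1 θ) rfl
    refine this.congr_deriv ?_
    simp only [ec]; ring
  have h2 := intervalIntegral.integral_eq_sub_of_hasDerivAt (a := 0) (b := 2 * π)
    (fun θ _ => h1 θ) (Continuous.intervalIntegrable (by fun_prop) _ _)
  have h3 : ec (2 * π) = ec 0 := by
    have := periodic_circleMap 0 1 0
    rw [zero_add] at this; exact this
  rw [h3, sub_self, intervalIntegral.integral_const_mul, mul_eq_zero] at h2
  rw [mean, h2.resolve_left Complex.I_ne_zero, smul_zero]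

theorem mean_ec_pow {k : ℕ} (hk : k ≠ 0) : mean (fun θ => ec θ ^ k) = 0 := by
  rw [mean_holo (f := fun u => u ^ k) one_lt_two (by fun_prop), zero_pow hk]

theorem mean_conj_ec_pow {k : ℕ} (hk : k ≠ 0) : mean (fun θ => conj (ec θ) ^ k) = 0 := by
  have := mean_conj (f := fun θ => ec θ ^ k) (by fun_prop)
  rw [mean_ec_pow hk, map_zero] at this
  simpa using this

theorem conj_ec_pow_mul_pow_of_le {k l : ℕ} (h : k ≤ l) (θ : ℝ) :
    conj (ec θ) ^ k * ec θ ^ l = ec θ ^ (l - k) := by
  obtain ⟨m, rfl⟩ := Nat.exists_eq_add_of_le h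
  rw [pow_add, ← mul_assoc, ← mul_pow, conj_ec_mul, one_pow, one_mul, Nat.add_sub_cancel_left]

theorem conj_ec_pow_mul_pow_of_ge {k l : ℕ} (h : l ≤ k) (θ : ℝ) :
    conj (ec θ) ^ k * ec θ ^ l = conj (ec θ) ^ (k - l) := by
  obtain ⟨m, rfl⟩ := Nat.exists_eq_add_of_le h
  rw [pow_add, mul_right_comm, ← mul_pow, conj_ec_mul, one_pow, one_mul, Nat.add_sub_cancel_left]

theorem mean_conj_ec_pow_mul_pow (k l : ℕ) :
    mean (fun θ => conj (ec θ) ^ k * ec θ ^ l) = if k = l then 1 else 0 := by
  rcases lt_trichotomy k l with h | rfl | h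
  · simp only [conj_ec_pow_mul_pow_of_le h.le, if_neg h.ne]
    exact mean_ec_pow (by omega)
  · simp [conj_ec_pow_mul_pow_of_le le_rfl]
  · simp only [conj_ec_pow_mul_pow_of_ge h.le, if_neg h.ne']
    exact mean_conj_ec_pow (by omega)

/-- Parseval for holomorphic functions, as an upper bound. -/
theorem mean_sq_le_of_coeff {f : ℂ → ℂ} {R : ℝ} (hR : 1 < R)
    (hf : DifferentiableOn ℂ f (ball 0 R)) {B : ℝ}
    (hB : ∀ N : ℕ, ∑ k ∈ Finset.range N, ‖mean (fun θ => conj (ec θ) ^ k * f (ec θ))‖ ^ 2 ≤ B) :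
    mean (fun θ => ‖f (ec θ)‖ ^ 2) ≤ B := by
  have hc := continuous_comp_ec hR hf
  have hab : (0 : ℝ) < 2 * π := by positivity
  have hL2 : MemLp (fun θ => f (ec θ)) 2 (volume.restrict (Ioc 0 (2 * π))) := by
    obtain ⟨C, hC⟩ := (isCompact_Icc (a := (0 : ℝ)) (b := 2 * π)).exists_bound_of_continuousOn
      hc.continuousOn
    refine MemLp.of_bound hc.aestronglyMeasurable C ?_
    filter_upwards [ae_restrict_mem measurableSet_Ioc] with x hx using hC x (Ioc_subset_Icc_self hx)
  have hP := hasSum_sq_fourierCoeffOn hab hL2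
  have hcoef : ∀ n : ℤ, fourierCoeffOn hab (fun θ => f (ec θ)) n =
      mean (fun θ => ec θ ^ (-n) * f (ec θ)) := by
    intro n
    rw [fourierCoeffOn_eq_integral, mean]
    simp only [sub_zero, one_div, smul_eq_mul]
    congr 2
    ext θ
    congr 1
    rw [fourier_coe_apply, ec, circleMap_zero, Complex.ofReal_one, one_mul,
      ← Complex.exp_int_mul]
    congr 1
    have : (π : ℂ) ≠ 0 := by exact_mod_cast Real.pi_ne_zero
    push_cast
    rw [sub_zero]
    field_simp
  simp only [hcoef, sub_zero] at hP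
  have hP2 : HasSum (fun k : ℕ => ‖mean (fun θ => ec θ ^ (-(k : ℤ)) * f (ec θ))‖ ^ 2)
      (mean (fun θ => ‖f (ec θ)‖ ^ 2)) := by
    refine (Function.Injective.hasSum_iff (g := fun k : ℕ => (k : ℤ)) Nat.cast_injective ?_).mpr hP
    intro n hn
    obtain ⟨m, rfl⟩ : ∃ m : ℕ, n = -((m + 1 : ℕ) : ℤ) := by
      rcases n with m | m
      · exact absurd ⟨m, rfl⟩ hn
      · exact ⟨m, rfl⟩
    simp only [neg_neg, zpow_natCast]
    rw [mean_holo (f := fun u => u ^ (m + 1) * f u) hR (by fun_prop)]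
    simp
  refine le_of_tendsto' hP2.tendsto_sum_nat fun N => ?_
  simpa only [zpow_neg, zpow_natCast, conj_ec, inv_pow] using hB N

end Crest.Agent.R132
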