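import Mathlib

/-! Linear algebra for the metric problem (row 132, part C). -/

set_option autoImplicit false
set_option linter.unusedSectionVars false

open scoped ComplexOrder InnerProductSpace
open Matrix Finset Filter Topology

namespace Crest.Agent.R132

variable {m n : Type*} [Fintype m] [Fintype n] [DecidableEq m] [DecidableEq n]

theorem isClosed_psd : IsClosed {M : Matrix n n ℂ | M.PosSemidef} := by
  have : {M : Matrix n n ℂ | M.PosSemidef} =
      {M | Mᴴ = M} ∩ ⋂ x : n → ℂ, {M | 0 ≤ star x ⬝ᵥ (M *ᵥ x)} := by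
    ext M
    simp only [Set.mem_ofPred_eq, posSemidef_iff_dotProduct_mulVec, Set.mem_inter_iff,
      Set.mem_iInter]
    rfl
  rw [this]
  exact (isClosed_eq (by fun_prop) continuous_id).inter
    (isClosed_iInter fun x => isClosed_le continuous_const (by fun_prop))

theorem inner_self_lin (A : Matrix m n ℂ) (v : EuclideanSpace ℂ n) :
    ⟪toEuclideanLin A v, toEuclideanLin A v⟫_ℂ = ⟪v, toEuclideanLin (Aᴴ * A) v⟫_ℂ := by
  rw [toLpLin_mul_same, LinearMap.comp_apply, toEuclideanLin_conjTranspose_eq_adjoint,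
    LinearMap.adjoint_inner_right]

theorem norm_lin_eq {k : Type*} [Fintype k] [DecidableEq k] {A : Matrix m n ℂ} {B : Matrix k n ℂ}
    (h : Aᴴ * A = Bᴴ * B) (v : EuclideanSpace ℂ n) :
    ‖toEuclideanLin A v‖ = ‖toEuclideanLin B v‖ := by
  rw [norm_eq_sqrt_re_inner (𝕜 := ℂ), norm_eq_sqrt_re_inner (𝕜 := ℂ), inner_self_lin,
    inner_self_lin, h]

/-- The lurking isometry. -/
theorem exists_unitary_of_gram {L R : Matrix n m ℂ} (h : L * Lᴴ = R * Rᴴ) :
    ∃ U : Matrix m m ℂ, U * Uᴴ = 1 ∧ L = R * U := by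
  let l := toEuclideanLin Lᴴ
  let r := toEuclideanLin Rᴴ
  have hn : ∀ v, ‖l v‖ = ‖r v‖ := norm_lin_eq (by simpa using h)
  obtain ⟨g, hg⟩ := r.rangeRestrict.exists_rightInverse_of_surjective r.range_rangeRestrict
  have hg' : ∀ s, r (g s) = s := fun s => congrArg Subtype.val (LinearMap.congr_fun hg s)
  let W0 : r.range →ₗᵢ[ℂ] EuclideanSpace ℂ m :=
    { toLinearMap := l ∘ₗ g
      norm_map' := fun s => by rw [LinearMap.comp_apply, hn, hg']; rfl }
  have hW : ∀ v, W0.extend (r v) = l v := by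
    intro v
    have h1 := W0.extend_apply ⟨r v, LinearMap.mem_range_self r v⟩
    refine h1.trans ?_
    change l (g _) = l v
    rw [← sub_eq_zero, ← map_sub, ← norm_eq_zero, hn, map_sub, hg', sub_self, norm_zero]
  let W : Matrix m m ℂ := toEuclideanLin.symm W0.extend.toLinearMap
  have hWl : toEuclideanLin W = W0.extend.toLinearMap := toEuclideanLin.apply_symm_apply _
  refine ⟨Wᴴ, ?_, ?_⟩
  · rw [conjTranspose_conjTranspose]
    apply toEuclideanLin.injective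
    rw [toLpLin_mul_same, toEuclideanLin_conjTranspose_eq_adjoint, toLpLin_one, hWl]
    ext1 v
    refine ext_inner_left ℂ fun u => ?_
    rw [LinearMap.comp_apply, LinearMap.adjoint_inner_right]
    exact W0.extend.inner_map_map u v
  · have : W * Rᴴ = Lᴴ := by
      apply toEuclideanLin.injective
      rw [toLpLin_mul_same, hWl]
      ext1 v
      exact hW v
    rw [← conjTranspose_conjTranspose L, ← this, conjTranspose_mul, conjTranspose_conjTranspose]

theorem le_of_sq_le_sq₀ {x y : ℝ} (hy : 0 ≤ y) (h : x ^ 2 ≤ y ^ 2) : x ≤ y :=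
  (abs_le_of_sq_le_sq' h hy).2

theorem transfer_bound {E : Type*} [NormedAddCommGroup E] [NormedSpace ℂ E] (a b c d : E →L[ℂ] E)
    (h : ∀ u s, ‖a u + b s‖ ^ 2 + ‖c u + d s‖ ^ 2 ≤ ‖u‖ ^ 2 + ‖s‖ ^ 2) {w : ℂ} {r : ℝ}
    (hw : ‖w‖ ≤ r) (hr : r < 1) (N : ℕ) :
    ‖a + ∑ j ∈ range N, w ^ (j + 1) • (b * d ^ j * c)‖ ≤ √(1 + (r ^ N) ^ 2 / (1 - r ^ 2)) := by
  have hr0 : 0 ≤ r := (norm_nonneg _).trans hw
  have hr2 : 0 < 1 - r ^ 2 := by nlinarith
  have hc : ∀ u, ‖c u‖ ≤ ‖u‖ := fun u => by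
    have := h u 0
    simp only [map_zero, add_zero, norm_zero] at this
    exact le_of_sq_le_sq₀ (norm_nonneg _) (by nlinarith [sq_nonneg ‖a u‖])
  have hd : ∀ u, ‖d u‖ ≤ ‖u‖ := fun u => by
    have := h 0 u
    simp only [map_zero, zero_add, norm_zero] at this
    exact le_of_sq_le_sq₀ (norm_nonneg _) (by nlinarith [sq_nonneg ‖b u‖])
  have hdj : ∀ j u, ‖(d ^ j) u‖ ≤ ‖u‖ := by
    intro j
    induction j with
    | zero => intro u; simp
    | succ j ih => intro u; rw [pow_succ', mul_apply_eq_comp]; exact (hd _).trans (ih u)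
  refine ContinuousLinearMap.opNorm_le_bound _ (Real.sqrt_nonneg _) fun u => ?_
  set s := ∑ j ∈ range N, w ^ j • (d ^ j) (c u) with hs
  have e1 : (a + ∑ j ∈ range N, w ^ (j + 1) • (b * d ^ j * c)) u = a u + b (w • s) := by
    simp only [hs, _root_.add_apply, _root_.sum_apply, _root_.smul_apply,
      mul_apply_eq_comp, Finset.smul_sum, map_sum, map_smul, smul_smul, pow_succ']
  have e2 : c u + d (w • s) = s + w ^ N • (d ^ N) (c u) := by
    have := Finset.sum_range_succ' (fun j => w ^ j • (d ^ j) (c u)) N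
    rw [Finset.sum_range_succ] at this
    rw [this, add_comm]
    simp only [hs, Finset.smul_sum, map_sum, map_smul, smul_smul, pow_succ',
      mul_apply_eq_comp, pow_zero, one_smul, one_apply_eq_self]
  have h1 := h u (w • s)
  rw [e2, ← e1] at h1
  have h2 : ‖w ^ N • (d ^ N) (c u)‖ ≤ r ^ N * ‖u‖ := by
    rw [norm_smul, norm_pow]
    exact mul_le_mul (pow_le_pow_left₀ (norm_nonneg _) hw N) ((hdj _ _).trans (hc u))
      (norm_nonneg _) (by positivity)
  have h3 : ‖w • s‖ ≤ r * ‖s‖ := by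
    rw [norm_smul]; exact mul_le_mul_of_nonneg_right hw (norm_nonneg _)
  set e := w ^ N • (d ^ N) (c u)
  have h4 : |‖s‖ - ‖e‖| ≤ ‖s + e‖ := by
    have := abs_norm_sub_norm_le s (-e)
    rwa [norm_neg, sub_neg_eq_add] at this
  have h5 : (‖s‖ - ‖e‖) ^ 2 ≤ ‖s + e‖ ^ 2 := by
    rw [← sq_abs]; exact pow_le_pow_left₀ (abs_nonneg _) h4 2
  have h6 : ‖w • s‖ ^ 2 ≤ (r * ‖s‖) ^ 2 := pow_le_pow_left₀ (norm_nonneg _) h3 2
  have h7 : ‖e‖ ^ 2 ≤ (r ^ N * ‖u‖) ^ 2 := pow_le_pow_left₀ (norm_nonneg _) h2 2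
  have h8 : (r * ‖s‖) ^ 2 - (‖s‖ - ‖e‖) ^ 2 ≤ ‖e‖ ^ 2 / (1 - r ^ 2) := by
    rw [le_div_iff₀ hr2]
    nlinarith [sq_nonneg ((1 - r ^ 2) * ‖s‖ - ‖e‖), mul_nonneg hr2.le (sq_nonneg ‖e‖)]
  have h9 : ‖e‖ ^ 2 / (1 - r ^ 2) ≤ (r ^ N) ^ 2 / (1 - r ^ 2) * ‖u‖ ^ 2 := by
    rw [div_mul_eq_mul_div, ← mul_pow]
    exact div_le_div_of_nonneg_right h7 hr2.le
  refine le_of_sq_le_sq₀ (by positivity) ?_
  rw [mul_pow, Real.sq_sqrt (by positivity)]
  nlinarith

/-- Squared Frobenius norm. -/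
noncomputable def frob (W : Matrix m n ℂ) : ℝ := ∑ j, ∑ a, ‖W a j‖ ^ 2

theorem continuous_frob : Continuous (frob : Matrix m n ℂ → ℝ) := by
  unfold frob; fun_prop

theorem trace_mul_conjTranspose (W : Matrix m n ℂ) : (W * Wᴴ).trace = (frob W : ℝ) := by
  simp only [frob, trace, diag_apply, mul_apply, conjTranspose_apply]
  rw [Finset.sum_comm]
  push_cast
  refine Finset.sum_congr rfl fun j _ => Finset.sum_congr rfl fun a _ => ?_
  rw [Complex.star_def, Complex.mul_conj, Complex.normSq_eq_norm_sq]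
  push_cast
  rfl

theorem block_isometry {a b c d : Matrix n n ℂ}
    (h : (fromBlocks a b c d)ᴴ * fromBlocks a b c d = 1) (u s : EuclideanSpace ℂ n) :
    ‖toEuclideanCLM (n := n) (𝕜 := ℂ) a u + toEuclideanCLM (n := n) (𝕜 := ℂ) b s‖ ^ 2 +
      ‖toEuclideanCLM (n := n) (𝕜 := ℂ) c u + toEuclideanCLM (n := n) (𝕜 := ℂ) d s‖ ^ 2 ≤
      ‖u‖ ^ 2 + ‖s‖ ^ 2 := by
  have h1 := norm_lin_eq (A := fromBlocks a b c d) (B := (1 : Matrix (n ⊕ n) (n ⊕ n) ℂ))
    (by simpa using h) (WithLp.toLp 2 (Sum.elim u.ofLp s.ofLp))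
  have h2 := congrArg (· ^ 2) h1
  simp only [EuclideanSpace.norm_sq_eq, Fintype.sum_sum_type, toLpLin_apply, fromBlocks_mulVec,
    one_mulVec, Sum.elim_inl, Sum.elim_inr, Sum.elim_comp_inl, Sum.elim_comp_inr] at h2
  simp only [EuclideanSpace.norm_sq_eq]
  exact le_of_eq h2

end Crest.Agent.R132
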