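import Mathlib
import Crest.Agent.R132.MetricLin

/-! Duality for the metric problem (row 132, part C). -/

set_option autoImplicit false
set_option linter.unusedSectionVars false

open scoped ComplexOrder InnerProductSpace MatrixOrder Matrix.Norms.L2Operator
open Matrix Finset Filter Topology

namespace Crest.Agent.R132

variable {n : Type*} [Fintype n] [DecidableEq n]

/-- Complete polynomial boundedness with constant two on the disc of radius `r`. -/
def CPB (T : Matrix n n ℂ) (r : ℝ) : Prop :=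
  ∀ (N : ℕ) (g : ℕ → Matrix n n ℂ) (M : ℝ),
    (∀ w : ℂ, ‖w‖ ≤ r → ‖toEuclideanCLM (n := n) (𝕜 := ℂ) (∑ j ∈ range N, w ^ j • g j)‖ ≤ M) →
      ∀ W : Matrix n n ℂ, frob (∑ j ∈ range N, T ^ j * W * (g j)ᵀ) ≤ 4 * M ^ 2 * frob W

theorem norm_one_le : ‖(1 : Matrix n n ℂ)‖ ≤ 1 := by
  rw [cstar_norm_def, map_one]
  exact ContinuousLinearMap.norm_id_le

theorem CPB.tendsto_pow {T : Matrix n n ℂ} {r : ℝ} (h : CPB T r) (hr0 : 0 ≤ r) (hr : r < 1) :
    Tendsto (fun k => T ^ k) atTop (𝓝 0) := by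
  have h1 : ∀ k, frob (T ^ k) ≤ 4 * (r ^ k) ^ 2 * frob (1 : Matrix n n ℂ) := by
    intro k
    have := h (k + 1) (fun j => if j = k then 1 else 0) (r ^ k) (fun w hw => by
      rw [Finset.sum_eq_single k (by intro j _ hj; simp [hj]) (by simp), ← cstar_norm_def]
      simp only [if_true, norm_smul, norm_pow]
      exact (mul_le_of_le_one_right (by positivity) norm_one_le).trans
        (pow_le_pow_left₀ (norm_nonneg _) hw k)) 1
    rwa [Finset.sum_eq_single k (by intro j _ hj; simp [hj]) (by simp), if_pos rfl, mul_one,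
      transpose_one, mul_one] at this
  have h2 : Tendsto (fun k => 4 * (r ^ k) ^ 2 * frob (1 : Matrix n n ℂ)) atTop (𝓝 0) := by
    have := (((tendsto_pow_atTop_nhds_zero_of_lt_one hr0 hr).pow 2).const_mul 4).mul_const
      (frob (1 : Matrix n n ℂ))
    simpa using this
  refine tendsto_pi_nhds.mpr fun a => tendsto_pi_nhds.mpr fun j => ?_
  rw [Matrix.zero_apply, tendsto_zero_iff_norm_tendsto_zero]
  have h3 : Tendsto (fun k => ‖(T ^ k) a j‖ ^ 2) atTop (𝓝 0) := by
    refine squeeze_zero (fun k => sq_nonneg _) (fun k => le_trans ?_ (h1 k)) h2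
    refine le_trans ?_ (Finset.single_le_sum (f := fun j => ∑ a, ‖(T ^ k) a j‖ ^ 2)
      (fun j _ => Finset.sum_nonneg fun a _ => sq_nonneg _) (Finset.mem_univ j))
    exact Finset.single_le_sum (f := fun a => ‖(T ^ k) a j‖ ^ 2) (fun a _ => sq_nonneg _)
      (Finset.mem_univ a)
  have := h3.sqrt
  simpa using this

theorem transfer_matrix {a b c d : Matrix n n ℂ}
    (h : (fromBlocks a b c d)ᴴ * fromBlocks a b c d = 1) {w : ℂ} {r : ℝ}
    (hw : ‖w‖ ≤ r) (hr : r < 1) (N : ℕ) :
    ‖toEuclideanCLM (n := n) (𝕜 := ℂ) (a + ∑ j ∈ range N, w ^ (j + 1) • (b * d ^ j * c))‖ ≤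
      √(1 + (r ^ N) ^ 2 / (1 - r ^ 2)) := by
  have := transfer_bound _ _ _ _ (fun u s => block_isometry h u s) hw hr N
  simp only [map_add, map_sum, map_smul, map_mul, map_pow]
  exact this

theorem CPB.frob_le {T : Matrix n n ℂ} {r : ℝ} (h : CPB T r) (hr0 : 0 ≤ r) (hr : r < 1)
    {x y z : Matrix n n ℂ} (hxyz : x * xᴴ + z * zᴴ = y * yᴴ + T * (z * zᴴ) * Tᴴ) :
    frob x ≤ 4 * frob y := by
  obtain ⟨U, hU, hL⟩ := exists_unitary_of_gram (L := fromCols x z) (R := fromCols y (T * z)) (by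
    rw [conjTranspose_fromCols_eq_fromRows_conjTranspose,
      conjTranspose_fromCols_eq_fromRows_conjTranspose, fromCols_mul_fromRows,
      fromCols_mul_fromRows, hxyz, conjTranspose_mul]
    simp only [Matrix.mul_assoc])
  obtain ⟨a, b, c, d, rfl⟩ : ∃ a b c d, U = fromBlocks a b c d :=
    ⟨_, _, _, _, (fromBlocks_toBlocks U).symm⟩
  rw [fromCols_mul_fromBlocks, fromCols_ext_iff] at hL
  obtain ⟨hx, hz⟩ := hL
  have hV : (fromBlocks aᵀ cᵀ bᵀ dᵀ)ᴴ * fromBlocks aᵀ cᵀ bᵀ dᵀ = 1 := by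
    rw [← fromBlocks_transpose]
    have := congrArg transpose hU
    rw [transpose_mul, transpose_one] at this
    exact this
  have hd : ‖d‖ ≤ 1 := by
    have hV' : (fromBlocks a b c d)ᴴ * fromBlocks a b c d = 1 := mul_eq_one_comm.mp hU
    rw [cstar_norm_def]
    refine ContinuousLinearMap.opNorm_le_bound _ zero_le_one fun u => ?_
    have := block_isometry hV' 0 u
    simp only [map_zero, zero_add, norm_zero] at this
    rw [one_mul]
    exact le_of_sq_le_sq₀ (norm_nonneg _)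
      (by nlinarith [sq_nonneg ‖toEuclideanCLM (n := n) (𝕜 := ℂ) b u‖])
  have hexp : ∀ N, x - T ^ (N + 1) * z * d ^ N * c =
      y * a + ∑ j ∈ range N, T ^ (j + 1) * y * (b * d ^ j * c) := by
    intro N
    induction N with
    | zero => simp [hx]
    | succ N ih =>
      rw [Finset.sum_range_succ, ← add_assoc, ← ih]
      conv_rhs => enter [1, 2, 1, 1, 2]; rw [hz]
      simp only [pow_succ T, pow_succ' d, mul_add, add_mul, Matrix.mul_assoc]
      abel
  have hN : ∀ N, frob (x - T ^ (N + 1) * z * d ^ N * c) ≤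
      4 * (1 + (r ^ N) ^ 2 / (1 - r ^ 2)) * frob y := by
    intro N
    have hr2 : 0 < 1 - r ^ 2 := by nlinarith
    have := h (N + 1) (fun j => Nat.casesOn j aᵀ fun j => cᵀ * dᵀ ^ j * bᵀ)
      √(1 + (r ^ N) ^ 2 / (1 - r ^ 2)) (fun w hw => by
        have := transfer_matrix hV hw hr N
        rw [Finset.sum_range_succ', add_comm, pow_zero, one_smul]
        exact this) y
    rw [Real.sq_sqrt (by positivity), Finset.sum_range_succ', add_comm] at this
    rw [hexp]
    simpa [transpose_mul, transpose_pow, Matrix.mul_assoc] using this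
  have l1 : Tendsto (fun N => T ^ (N + 1) * z * d ^ N * c) atTop (𝓝 0) := by
    rw [tendsto_zero_iff_norm_tendsto_zero]
    have l2 : Tendsto (fun N => ‖T ^ (N + 1)‖ * ‖z‖ * 1 * ‖c‖) atTop (𝓝 0) := by
      have := ((((h.tendsto_pow hr0 hr).comp (tendsto_add_atTop_nat 1)).norm.mul_const
        ‖z‖).mul_const 1).mul_const ‖c‖
      simpa using this
    refine squeeze_zero (fun _ => norm_nonneg _) (fun N => ?_) l2
    have : ‖d ^ N‖ ≤ 1 := by
      induction N with
      | zero => simpa using norm_one_le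
      | succ N ih =>
        rw [pow_succ]
        exact (norm_mul_le _ _).trans (mul_le_one₀ ih (norm_nonneg _) hd)
    refine (norm_mul_le _ _).trans (mul_le_mul_of_nonneg_right ?_ (norm_nonneg _))
    exact (norm_mul_le _ _).trans (mul_le_mul (norm_mul_le _ _) this (norm_nonneg _)
      (by positivity))
  have l3 := (continuous_frob.tendsto _).comp ((tendsto_const_nhds (x := x)).sub l1)
  have l4 := (((((tendsto_pow_atTop_nhds_zero_of_lt_one hr0 hr).pow 2).div_const
    (1 - r ^ 2)).const_add 1).const_mul 4).mul_const (frob y)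
  simpa using le_of_tendsto_of_tendsto' l3 l4 hN

theorem exists_factor_psd {X : Matrix n n ℂ} (hX : X.PosSemidef) : ∃ x, X = x * xᴴ := by
  obtain ⟨b, hb⟩ := CStarAlgebra.nonneg_iff_eq_mul_star_self.mp hX.nonneg
  exact ⟨b, hb⟩

theorem CPB.trace_le {T : Matrix n n ℂ} {r : ℝ} (h : CPB T r) (hr0 : 0 ≤ r) (hr : r < 1)
    {X Y Z : Matrix n n ℂ} (hX : X.PosSemidef) (hY : Y.PosSemidef) (hZ : Z.PosSemidef)
    (hXYZ : X + Z = Y + T * Z * Tᴴ) : X.trace.re ≤ 4 * Y.trace.re := by
  obtain ⟨x, rfl⟩ := exists_factor_psd hX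
  obtain ⟨y, rfl⟩ := exists_factor_psd hY
  obtain ⟨z, rfl⟩ := exists_factor_psd hZ
  rw [trace_mul_conjTranspose, trace_mul_conjTranspose, Complex.ofReal_re, Complex.ofReal_re]
  exact h.frob_le hr0 hr hXYZ

theorem isCompact_interval (τ : ℝ) :
    IsCompact {H : Matrix n n ℂ | (H - 1).PosSemidef ∧ ((τ : ℂ) • (1 : Matrix n n ℂ) - H).PosSemidef} := by
  have : ProperSpace (Matrix n n ℂ) := FiniteDimensional.proper ℂ _
  refine Metric.isCompact_of_isClosed_isBounded
    ((isClosed_psd.preimage (f := fun H => H - 1) (by fun_prop)).inter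
      (isClosed_psd.preimage (f := fun H => (τ : ℂ) • (1 : Matrix n n ℂ) - H) (by fun_prop))) ?_
  refine (Metric.isBounded_closedBall (x := 0) (r := |τ|)).subset fun H hH => ?_
  rw [mem_closedBall_zero_iff]
  have h0 : 0 ≤ H := by
    have := (hH.1.add PosSemidef.one).nonneg
    simpa using this
  rw [CStarAlgebra.norm_le_iff_le_algebraMap H (abs_nonneg τ) h0, le_iff]
  have h1 : (((|τ| - τ : ℝ) : ℂ) • (1 : Matrix n n ℂ)).PosSemidef :=
    PosSemidef.one.smul (Complex.zero_le_real.mpr (sub_nonneg.mpr (le_abs_self τ)))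
  have e : algebraMap ℝ (Matrix n n ℂ) |τ| - H =
      ((|τ| - τ : ℝ) : ℂ) • (1 : Matrix n n ℂ) + ((τ : ℂ) • (1 : Matrix n n ℂ) - H) := by
    rw [Algebra.algebraMap_eq_smul_one, ← Complex.coe_smul]
    push_cast
    module
  rw [e]
  exact h1.add hH.2

theorem exists_dual {T : Matrix n n ℂ} {K : Set (Matrix n n ℂ)} (hK : IsCompact K)
    (hKc : Convex ℝ K) (hKh : ∀ H ∈ K, Hᴴ = H)
    (h : ∀ H ∈ K, ¬ (H - Tᴴ * H * T).PosSemidef) :
    ∃ Z : Matrix n n ℂ, Z.PosSemidef ∧ ∀ H ∈ K, ((Z - T * Z * Tᴴ) * H).trace.re < 0 := by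
  let Λ : Matrix n n ℂ →ₗ[ℝ] Matrix n n ℂ :=
    { toFun := fun H => H - Tᴴ * H * T
      map_add' := fun A B => by simp only [mul_add, add_mul]; abel
      map_smul' := fun c A => by simp [smul_sub] }
  have hcv : Convex ℝ {M : Matrix n n ℂ | M.PosSemidef} := fun A hA B hB s t hs ht _ =>
    (hA.smul hs).add (hB.smul ht)
  obtain ⟨φ, u, v, h1, huv, h2⟩ := RCLike.geometric_hahn_banach_compact_closed (𝕜 := ℂ)
    (hKc.linear_image Λ) (hK.image (show Continuous fun H => H - Tᴴ * H * T by fun_prop))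
    hcv isClosed_psd (Set.disjoint_left.mpr (by rintro _ ⟨H, hH, rfl⟩; exact h H hH))
  have hv : v < 0 := by simpa using h2 0 PosSemidef.zero
  have h3 : ∀ P : Matrix n n ℂ, P.PosSemidef → 0 ≤ (φ P).re := by
    intro P hP
    by_contra hc
    rw [not_le] at hc
    have := h2 ((v / (φ P).re : ℝ) • P) (hP.smul (div_pos_of_neg_of_neg hv hc).le)
    rw [← Complex.coe_smul, map_smul] at this
    simp only [RCLike.re_to_complex, smul_eq_mul, Complex.re_ofReal_mul] at this
    rw [div_mul_cancel₀ _ hc.ne] at this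
    exact lt_irrefl _ this
  let Z0 : Matrix n n ℂ := of fun j i => φ (single i j 1)
  have h4 : ∀ M, φ M = (Z0 * M).trace := by
    intro M
    conv_lhs => rw [matrix_eq_sum_single M]
    simp only [map_sum, trace, diag_apply, mul_apply, Z0, of_apply]
    rw [Finset.sum_comm]
    refine Finset.sum_congr rfl fun j _ => Finset.sum_congr rfl fun i _ => ?_
    rw [mul_comm, ← smul_eq_mul, ← map_smul, smul_single, smul_eq_mul, mul_one]
  have h5 : ∀ M : Matrix n n ℂ, Mᴴ = M → ((Z0 + Z0ᴴ) * M).trace = (2 * (φ M).re : ℝ) := by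
    intro M hM
    have : (Z0ᴴ * M).trace = star (Z0 * M).trace := by
      rw [← trace_conjTranspose, conjTranspose_mul, hM, trace_mul_comm]
    rw [add_mul, trace_add, this, ← h4, Complex.star_def, Complex.add_conj]
  refine ⟨Z0 + Z0ᴴ, ?_, fun H hH => ?_⟩
  · refine PosSemidef.of_dotProduct_mulVec_nonneg (isHermitian_add_transpose_self Z0) fun x => ?_
    have hP := posSemidef_vecMulVec_self_star x
    have := h5 _ hP.1
    rw [mul_vecMulVec, trace_vecMulVec, dotProduct_comm] at this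
    rw [this]
    exact Complex.zero_le_real.mpr (mul_nonneg zero_le_two (h3 _ hP))
  · have e : ((Z0 + Z0ᴴ - T * (Z0 + Z0ᴴ) * Tᴴ) * H).trace =
        ((Z0 + Z0ᴴ) * (H - Tᴴ * H * T)).trace := by
      rw [sub_mul, mul_sub, trace_sub, trace_sub, Matrix.mul_assoc, Matrix.mul_assoc,
        trace_mul_comm T]
      simp only [Matrix.mul_assoc]
    rw [e, h5 _ (by simp [conjTranspose_mul, hKh H hH, Matrix.mul_assoc]), Complex.ofReal_re]
    have : (φ (H - Tᴴ * H * T)).re < u := h1 _ ⟨H, hH, rfl⟩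
    linarith

theorem CPB.exists_feasible {T : Matrix n n ℂ} {r : ℝ} (h : CPB T r) (hr0 : 0 ≤ r) (hr : r < 1) :
    ∃ H : Matrix n n ℂ, (H - 1).PosSemidef ∧ (((4 : ℝ) : ℂ) • (1 : Matrix n n ℂ) - H).PosSemidef ∧
      (H - Tᴴ * H * T).PosSemidef := by
  by_contra hc
  obtain ⟨Z, hZ, hneg⟩ := exists_dual (T := T) (isCompact_interval 4) (by
      intro A hA B hB s t hs ht hst
      have e : (s : ℂ) + t = 1 := by exact_mod_cast hst
      refine ⟨?_, ?_⟩
      · convert (hA.1.smul hs).add (hB.1.smul ht) using 1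
        rw [smul_sub, smul_sub, sub_add_sub_comm, ← add_smul, hst, one_smul]
      · convert (hA.2.smul hs).add (hB.2.smul ht) using 1
        rw [smul_sub, smul_sub, sub_add_sub_comm, ← add_smul, hst, one_smul])
    (fun H hH => by simpa using (hH.1.add PosSemidef.one).1.eq)
    (fun H hH hp => hc ⟨H, hH.1, hH.2, hp⟩)
  have hD : (T * Z * Tᴴ - Z).IsHermitian := (hZ.mul_mul_conjTranspose_same T).1.sub hZ.1
  let U : Matrix n n ℂ := hD.eigenvectorUnitary
  have hU1 : Uᴴ * U = 1 := hD.eigenvectorUnitary.2.1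
  have hU2 : U * Uᴴ = 1 := hD.eigenvectorUnitary.2.2
  let F : (n → ℝ) → Matrix n n ℂ := fun v => U * diagonal (fun i => (v i : ℂ)) * Uᴴ
  have Fpsd : ∀ v : n → ℝ, (∀ i, 0 ≤ v i) → (F v).PosSemidef := fun v hv =>
    (PosSemidef.diagonal fun i => Complex.zero_le_real.mpr (hv i)).mul_mul_conjTranspose_same U
  have Fsub : ∀ v w : n → ℝ, F v - F w = F (fun i => v i - w i) := by
    intro v w
    simp only [F, ← sub_mul, ← mul_sub, diagonal_sub, Complex.ofReal_sub]
  have Fmul : ∀ v w : n → ℝ, F v * F w = F (fun i => v i * w i) := by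
    intro v w
    simp only [F, Matrix.mul_assoc]
    rw [← Matrix.mul_assoc Uᴴ, hU1, Matrix.one_mul, ← Matrix.mul_assoc (diagonal _),
      diagonal_mul_diagonal]
    simp only [Complex.ofReal_mul]
  have Fc : ∀ c : ℝ, F (fun _ => c) = (c : ℂ) • (1 : Matrix n n ℂ) := by
    intro c
    simp only [F, ← smul_one_eq_diagonal, Matrix.mul_smul, Matrix.mul_one, Matrix.smul_mul, hU2]
  have Ftr : ∀ v : n → ℝ, (F v).trace.re = ∑ i, v i := by
    intro v
    simp only [F]
    rw [trace_mul_cycle, hU1, Matrix.one_mul, trace_diagonal]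
    simp
  have hDF : T * Z * Tᴴ - Z = F hD.eigenvalues := hD.spectral_theorem
  set l := hD.eigenvalues
  have t1 := h.trace_le hr0 hr (Fpsd (fun i => max (l i) 0) fun i => le_max_right _ _)
    (Fpsd (fun i => max (-l i) 0) fun i => le_max_right _ _) hZ (by
      rw [← sub_eq_iff_eq_add', add_sub_right_comm, Fsub, ← eq_sub_iff_add_eq, hDF]
      congr 1
      funext i
      exact max_zero_sub_max_neg_zero_eq_self _)
  have t2 := hneg (F fun i => if 0 < l i then 1 else 4) ⟨?_, ?_⟩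
  · have e : Z - T * Z * Tᴴ = F (fun i => 0 - l i) := by
      rw [← Fsub, ← hDF, Fc]; simp
    rw [e, Fmul, Ftr] at t2
    rw [Ftr, Ftr, Finset.mul_sum, ← sub_nonneg, ← Finset.sum_sub_distrib] at t1
    refine absurd t2 (not_lt.mpr (t1.trans (le_of_eq (Finset.sum_congr rfl fun i _ => ?_))))
    split_ifs with hi
    · rw [max_eq_left hi.le, max_eq_right (by linarith)]; ring
    · rw [max_eq_right (not_lt.mp hi), max_eq_left (by linarith)]; ring
  · have := Fc 1
    rw [Complex.ofReal_one, one_smul] at this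
    rw [← this, Fsub]
    exact Fpsd _ fun i => by split_ifs <;> norm_num
  · rw [← Fc, Fsub]
    exact Fpsd _ fun i => by split_ifs <;> norm_num

end Crest.Agent.R132
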