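import Mathlib
import Crest.Prelude.Def_NumRangeMetric
import Crest.Agent.R132.MainStmt
import Crest.Agent.R132.TH
import Crest.Agent.R132.Factor
import Crest.Agent.R132.MetricDual

/-! Row 132, part C: the statement S0180 follows from the main estimate. -/

set_option autoImplicit false
set_option linter.unusedSectionVars false

open scoped ComplexOrder InnerProductSpace MatrixOrder Matrix.Norms.L2Operator
open Matrix Finset Filter Topology Polynomial
open Crest.AnalysisR.NumRange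

namespace Crest.Agent.R132

theorem smul_one_sub_psd {n : Type*} [Fintype n] [DecidableEq n] {H : Matrix n n ℂ}
    (h0 : H.PosSemidef) : (((‖H‖ : ℝ) : ℂ) • (1 : Matrix n n ℂ) - H).PosSemidef := by
  have := (CStarAlgebra.norm_le_iff_le_algebraMap H (norm_nonneg H) h0.nonneg).mp le_rfl
  rwa [le_iff, Algebra.algebraMap_eq_smul_one, ← Complex.coe_smul] at this

theorem smul_one_posDef {n : Type*} [Fintype n] [DecidableEq n] {c : ℝ} (hc : 0 < c) :
    ((c : ℂ) • (1 : Matrix n n ℂ)).PosDef :=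
  PosDef.one.smul (Complex.zero_lt_real.mpr hc)

theorem exists_strict {n : ℕ} {T : Matrix (Fin n) (Fin n) ℂ}
    (h : Tendsto (fun k => T ^ k) atTop (𝓝 0)) :
    ∃ (H : Matrix (Fin n) (Fin n) ℂ) (τ : ℝ), MetricStrictlyFeasible T H τ := by
  obtain ⟨k, hk⟩ := (((h.comp (tendsto_add_atTop_nat 1)).norm).eventually
    (gt_mem_nhds (show ‖(0 : Matrix (Fin n) (Fin n) ℂ)‖ < 1 by simp))).exists
  have hk' : ‖T ^ (k + 1)‖ < 1 := hk
  let S : Matrix (Fin n) (Fin n) ℂ := ∑ j ∈ range (k + 1), (T ^ j)ᴴ * T ^ j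
  have hS : S.PosSemidef := posSemidef_sum _ fun j _ => posSemidef_conjTranspose_mul_self _
  have hH : (S + S).PosSemidef := hS.add hS
  refine ⟨S + S, ‖S + S‖ + 1, ?_, ?_, ?_⟩
  · have e : S + S - 1 = 1 + (∑ j ∈ range k, (T ^ (j + 1))ᴴ * T ^ (j + 1) +
        ∑ j ∈ range k, (T ^ (j + 1))ᴴ * T ^ (j + 1)) := by
      simp only [S, Finset.sum_range_succ', pow_zero, conjTranspose_one, Matrix.mul_one]
      abel
    rw [e]
    have : (∑ j ∈ range k, (T ^ (j + 1))ᴴ * T ^ (j + 1)).PosSemidef :=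
      posSemidef_sum _ fun j _ => posSemidef_conjTranspose_mul_self _
    exact PosDef.one.add_posSemidef (this.add this)
  · have e : ((‖S + S‖ + 1 : ℝ) : ℂ) • (1 : Matrix (Fin n) (Fin n) ℂ) - (S + S) =
        1 + (((‖S + S‖ : ℝ) : ℂ) • (1 : Matrix (Fin n) (Fin n) ℂ) - (S + S)) := by
      push_cast
      module
    rw [e]
    exact PosDef.one.add_posSemidef (smul_one_sub_psd hH)
  · have e1 : S - Tᴴ * S * T = 1 - (T ^ (k + 1))ᴴ * T ^ (k + 1) := by
      have : Tᴴ * S * T = ∑ j ∈ range (k + 1), (T ^ (j + 1))ᴴ * T ^ (j + 1) := by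
        simp only [S, Finset.mul_sum, Finset.sum_mul, pow_succ, conjTranspose_mul,
          Matrix.mul_assoc]
      rw [this, Finset.sum_range_succ]
      simp only [S, Finset.sum_range_succ', pow_zero, conjTranspose_one, Matrix.mul_one]
      abel
    have hp : (1 - (T ^ (k + 1))ᴴ * T ^ (k + 1)).PosDef := by
      set B := (T ^ (k + 1))ᴴ * T ^ (k + 1) with hB
      have hB1 : ‖B‖ < 1 := by
        rw [hB, l2_opNorm_conjTranspose_mul_self]
        nlinarith [norm_nonneg (T ^ (k + 1))]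
      have e : 1 - B = ((1 - ‖B‖ : ℝ) : ℂ) • (1 : Matrix (Fin n) (Fin n) ℂ) +
          (((‖B‖ : ℝ) : ℂ) • (1 : Matrix (Fin n) (Fin n) ℂ) - B) := by
        push_cast
        module
      rw [e]
      exact (smul_one_posDef (by linarith)).add_posSemidef
        (smul_one_sub_psd (posSemidef_conjTranspose_mul_self _))
    have e2 : S + S - Tᴴ * (S + S) * T = (S - Tᴴ * S * T) + (S - Tᴴ * S * T) := by
      simp only [mul_add, add_mul]; abel
    rw [e2, e1]
    exact hp.add hp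

theorem one_le_of_feasible {n : ℕ} (hn : 1 ≤ n) {T H : Matrix (Fin n) (Fin n) ℂ} {τ : ℝ}
    (h : MetricFeasible T H τ) : 1 ≤ τ := by
  have := (h.1.add h.2.1).diag_nonneg (i := ⟨0, hn⟩)
  simp only [Matrix.add_apply, Matrix.sub_apply, Matrix.smul_apply, one_apply_eq, smul_eq_mul,
    mul_one] at this
  have h2 : (0 : ℂ) ≤ ((τ - 1 : ℝ) : ℂ) := by
    convert this using 1
    push_cast
    ring
  exact sub_nonneg.mp (Complex.zero_le_real.mp h2)

theorem exists_optimal {n : ℕ} (hn : 1 ≤ n) {T H₀ : Matrix (Fin n) (Fin n) ℂ}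
    (h : MetricFeasible T H₀ 4) :
    ∃ (H : Matrix (Fin n) (Fin n) ℂ) (κsq : ℝ), IsOptimalMetric T H κsq ∧ 1 ≤ κsq ∧ κsq ≤ 4 := by
  let C : Set (Matrix (Fin n) (Fin n) ℂ × ℝ) := {q | MetricFeasible T q.1 q.2 ∧ q.2 ≤ 4}
  have hcl : IsClosed C :=
    ((isClosed_psd.preimage (f := fun q : Matrix (Fin n) (Fin n) ℂ × ℝ => q.1 - 1)
      (by fun_prop)).inter ((isClosed_psd.preimage
        (f := fun q : Matrix (Fin n) (Fin n) ℂ × ℝ => (q.2 : ℂ) • (1 : Matrix _ _ ℂ) - q.1)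
      (by fun_prop)).inter (isClosed_psd.preimage
        (f := fun q : Matrix (Fin n) (Fin n) ℂ × ℝ => q.1 - Tᴴ * q.1 * T) (by fun_prop)))).inter
      (isClosed_le continuous_snd continuous_const)
  have hC : IsCompact C := by
    refine ((isCompact_interval 4).prod (isCompact_Icc (a := (1 : ℝ)) (b := 4))).of_isClosed_subset
      hcl fun q hq => ⟨⟨hq.1.1, ?_⟩, one_le_of_feasible hn hq.1, hq.2⟩
    have h1 : (((4 - q.2 : ℝ) : ℂ) • (1 : Matrix (Fin n) (Fin n) ℂ)).PosSemidef :=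
      PosSemidef.one.smul (Complex.zero_le_real.mpr (sub_nonneg.mpr hq.2))
    have e : ((4 : ℝ) : ℂ) • (1 : Matrix (Fin n) (Fin n) ℂ) - q.1 =
        ((4 - q.2 : ℝ) : ℂ) • (1 : Matrix (Fin n) (Fin n) ℂ) + ((q.2 : ℂ) • 1 - q.1) := by
      push_cast
      module
    rw [e]
    exact h1.add hq.1.2.1
  obtain ⟨q, hq, hmin⟩ := hC.exists_isMinOn ⟨(H₀, 4), h, le_rfl⟩ continuous_snd.continuousOn
  refine ⟨q.1, q.2, ⟨hq.1, fun H' τ' h' => ?_⟩, one_le_of_feasible hn hq.1, hq.2⟩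
  by_cases h4 : τ' ≤ 4
  · exact hmin (a := (H', τ')) ⟨h', h4⟩
  · exact hq.2.trans (not_le.mp h4).le

theorem cpb_of_main (hmain : MainStmt) {n : ℕ} (A : Matrix (Fin n) (Fin n) ℂ) {V : Set ℂ}
    (hV : IsOpen V) (hVc : Convex ℝ V) (hAV : numRange A ⊆ V) {f : ℂ → ℂ}
    (hf : DifferentiableOn ℂ f V) {p : ℂ[X]} (hp : AgreesOnSpectrum A f p) {r : ℝ}
    (hr : ∀ z ∈ V, ‖f z‖ ≤ r) : CPB (aeval A p) r := by
  obtain ⟨ρ, hρ, hfρ⟩ := exists_factor A hV ((spectrum_subset_numRange A).trans hAV) hf hp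
  intro N g M hM W
  have hpd : Differentiable ℂ fun z => p.eval z := p.differentiable
  have key := hmain n (Fin n) A V hV hVc hAV (fun z => ∑ j ∈ range N, f z ^ j • g j)
    (fun i k => ∑ j ∈ range N, C (g j i k) * p ^ j)
    (fun i k z => ∑ j ∈ range N, g j i k *
      ((∑ l ∈ range j, f z ^ l * p.eval z ^ (j - 1 - l)) * ρ z))
    (fun i k => DifferentiableOn.fun_sum fun j _ => ((DifferentiableOn.fun_sum fun l _ =>
      (hf.pow l).mul (hpd.differentiableOn.pow _)).mul hρ).const_mul _)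
    (fun z hz i k => by
      simp only [Matrix.sum_apply, Matrix.smul_apply, smul_eq_mul, eval_finsetSum, eval_mul,
        eval_C, eval_pow, Finset.mul_sum, ← Finset.sum_add_distrib]
      refine Finset.sum_congr rfl fun j _ => ?_
      have h1 := geom_sum₂_mul (f z) (p.eval z) j
      have h2 := hfρ z hz
      linear_combination (-g j i k) * h1 +
        g j i k * (∑ l ∈ range j, f z ^ l * p.eval z ^ (j - 1 - l)) * h2)
    M (fun z hz => hM _ (hr z hz)) W
  refine le_of_eq_of_le ?_ key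
  unfold frob
  refine Finset.sum_congr rfl fun i _ => Finset.sum_congr rfl fun a _ => ?_
  congr 2
  simp only [Matrix.sum_apply, Finset.sum_apply, map_sum, map_mul, aeval_C, map_pow, sum_mulVec,
    Algebra.algebraMap_eq_smul_one, Matrix.smul_mul, Matrix.one_mul, smul_mulVec, Pi.smul_apply,
    smul_eq_mul]
  rw [Finset.sum_comm]
  refine Finset.sum_congr rfl fun j _ => ?_
  rw [Matrix.mul_apply]
  refine Finset.sum_congr rfl fun k _ => ?_
  rw [transpose_apply, mul_comm]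
  rfl

theorem S0180_of_main (hmain : MainStmt)
    (n : ℕ) (hn : 1 ≤ n) (A : Matrix (Fin n) (Fin n) ℂ)
    (Ω U : Set ℂ) (hΩ₁ : IsOpen Ω) (_hΩ₂ : Bornology.IsBounded Ω) (_hΩ₃ : Convex ℝ Ω)
    (_hU : IsOpen U) (hΩU : closure Ω ⊆ U)
    (f : ℂ → ℂ) (hf₁ : DifferentiableOn ℂ f U) (_hf₂ : Set.InjOn f U)
    (hf₃ : f '' Ω = Metric.ball 0 1)
    (hA : numRange A ⊆ Ω) (p : Polynomial ℂ) (hp : AgreesOnSpectrum A f p) :
    (∃ (H : Matrix (Fin n) (Fin n) ℂ) (τ : ℝ), MetricStrictlyFeasible (Polynomial.aeval A p) H τ) ∧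
    ∃ (H : Matrix (Fin n) (Fin n) ℂ) (κsq : ℝ),
      IsOptimalMetric (Polynomial.aeval A p) H κsq ∧ 1 ≤ κsq ∧ κsq ≤ 4 := by
  have hΩU' : Ω ⊆ U := subset_closure.trans hΩU
  obtain ⟨δ, hδ, hsub⟩ := (isCompact_numRange A).exists_cthickening_subset_open hΩ₁ hA
  have hK : IsCompact (Metric.cthickening δ (numRange A)) := (isCompact_numRange A).cthickening
  have hne : (Metric.cthickening δ (numRange A)).Nonempty :=
    ⟨_, Metric.self_subset_cthickening _ ⟨EuclideanSpace.single ⟨0, hn⟩ 1, by simp, rfl⟩⟩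
  obtain ⟨z₀, hz₀, hmax⟩ := hK.exists_isMaxOn hne
    (hf₁.continuousOn.mono (hsub.trans hΩU')).norm
  have hr : ‖f z₀‖ < 1 := by
    have : f z₀ ∈ Metric.ball (0 : ℂ) 1 := hf₃ ▸ Set.mem_image_of_mem f (hsub hz₀)
    simpa using this
  have hsub' := Metric.thickening_subset_cthickening δ (numRange A)
  have h := cpb_of_main hmain A Metric.isOpen_thickening ((convex_numRange A).thickening δ)
    (Metric.self_subset_thickening hδ _) (hf₁.mono ((hsub'.trans hsub).trans hΩU')) hp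
    (r := ‖f z₀‖) fun z hz => hmax (hsub' hz)
  obtain ⟨H, hH⟩ := h.exists_feasible (norm_nonneg _) hr
  exact ⟨exists_strict (h.tendsto_pow (norm_nonneg _) hr), exists_optimal hn hH⟩

end Crest.Agent.R132
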