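import Crest.Agent.R132.Kernel

/-! The Cauchy kernel of an operator in the exterior conformal parameter. -/

open Filter Topology Set Metric MeasureTheory Polynomial
open scoped Real ComplexConjugate InnerProductSpace

namespace Crest.Agent.R132

variable {E : Type*} [NormedAddCommGroup E] [InnerProductSpace ℂ E] [CompleteSpace E]

/-- The Cauchy kernel `q(u) (1 - g(u) A)⁻¹`. -/
noncomputable def CK (g : ℂ → ℂ) (A : E →L[ℂ] E) (u : ℂ) : E →L[ℂ] E :=
  qq g u • Ring.inverse (1 - g u • A)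

/-- Matrix coefficients of the Cauchy kernel. -/
noncomputable def cc (g : ℂ → ℂ) (A : E →L[ℂ] E) (x y : E) (u : ℂ) : ℂ := ⟪x, CK g A u y⟫_ℂ

theorem cc_add (g : ℂ → ℂ) (A : E →L[ℂ] E) (x y y' : E) (u : ℂ) :
    cc g A x (y + y') u = cc g A x y u + cc g A x y' u := by
  simp [cc, inner_add_right]

theorem cc_smul (g : ℂ → ℂ) (A : E →L[ℂ] E) (x y : E) (c u : ℂ) :
    cc g A x (c • y) u = c * cc g A x y u := by
  simp [cc, inner_smul_right]

theorem cc_zero_right (g : ℂ → ℂ) (A : E →L[ℂ] E) (x : E) (u : ℂ) : cc g A x 0 u = 0 := by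
  simp [cc]

namespace Conf
variable {g : ℂ → ℂ} {R : ℝ} (h : Conf g R) {A : E →L[ℂ] E}
  (hU : ∀ u ∈ ball (0 : ℂ) R, IsUnit (1 - g u • A))
include h hU

theorem diff_cc (x y : E) : DifferentiableOn ℂ (cc g A x y) (ball 0 R) := by
  have h1 : DifferentiableOn ℂ (fun u => Ring.inverse (1 - g u • A)) (ball 0 R) :=
    DifferentiableOn.inverse ((differentiableOn_const _).sub (h.diff.smul_const A)) hU
  have h2 : DifferentiableOn ℂ (fun u => CK g A u y) (ball 0 R) :=
    (h.diff_qq.smul h1).clm_apply (differentiableOn_const y)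
  exact (innerSL ℂ x).differentiable.comp_differentiableOn h2

theorem cont_cc (x y : E) : Continuous fun θ => cc g A x y (ec θ) :=
  continuous_comp_ec h.one_lt (h.diff_cc hU x y)

omit hU in
theorem cc_zero (x y : E) : cc g A x y 0 = ⟪x, y⟫_ℂ := by
  simp [cc, CK, h.qq_zero, h.zero]

omit h in
theorem cc_step (x y : E) {u : ℂ} (hu : u ∈ ball (0 : ℂ) R) :
    cc g A x y u = qq g u * ⟪x, y⟫_ℂ + g u * cc g A x (A y) u := by
  have h1 := congrArg (fun T : E →L[ℂ] E => T y) (Ring.inverse_mul_cancel _ (hU u hu))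
  simp only [ContinuousLinearMap.mul_apply, ContinuousLinearMap.sub_apply,
    ContinuousLinearMap.one_apply, ContinuousLinearMap.smul_apply, map_sub, map_smul] at h1
  have h2 := sub_eq_iff_eq_add.mp h1
  simp only [cc, CK, ContinuousLinearMap.smul_apply, inner_smul_right]
  rw [h2, inner_add_right, inner_smul_right]
  ring

omit h in
theorem cc_expand (x y : E) {u : ℂ} (hu : u ∈ ball (0 : ℂ) R) (n : ℕ) :
    cc g A x y u = ∑ j ∈ Finset.range n, qq g u * g u ^ j * ⟪x, (A ^ j) y⟫_ℂ +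
      g u ^ n * cc g A x ((A ^ n) y) u := by
  induction n with
  | zero => simp
  | succ n ih =>
    rw [Finset.sum_range_succ, ih, cc_step hU x ((A ^ n) y) hu, pow_succ' A n,
      ContinuousLinearMap.mul_apply]
    ring

theorem mean_faber (x y : E) (k : ℕ) :
    mean (fun θ => conj (ec θ) ^ k * cc g A x y (ec θ)) = ⟪x, aeval A (faber g k) y⟫_ℂ := by
  have c1 := h.cont_g
  have c2 := h.cont_q
  have c3 := h.cont_cc hU x ((A ^ (k + 1)) y)
  have c4 := continuous_comp_ec h.one_lt (h.diff_dslope h.zero_mem)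
  have e : (fun θ => conj (ec θ) ^ k * cc g A x y (ec θ)) = fun θ =>
      ∑ j ∈ Finset.range (k + 1), conj (ec θ) ^ k * (qq g (ec θ) * g (ec θ) ^ j) *
        ⟪x, (A ^ j) y⟫_ℂ +
      ec θ * (dslope g 0 (ec θ) ^ (k + 1) * cc g A x ((A ^ (k + 1)) y) (ec θ)) := by
    ext θ
    rw [cc_expand hU x y (h.ec_mem θ) (k + 1), mul_add, Finset.mul_sum]
    congr 1
    · exact Finset.sum_congr rfl fun _ _ => by ring
    · rw [h.eq_mul (ec θ), mul_pow, ← mul_assoc, ← mul_assoc,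
        conj_ec_pow_mul_pow_of_le (Nat.le_succ k)]
      simp [mul_assoc]
  have e2 : mean (fun θ =>
      ec θ * (dslope g 0 (ec θ) ^ (k + 1) * cc g A x ((A ^ (k + 1)) y) (ec θ))) = 0 := by
    have d1 := h.diff_dslope h.zero_mem
    have d2 := h.diff_cc hU x ((A ^ (k + 1)) y)
    rw [mean_holo (f := fun u => u * (dslope g 0 u ^ (k + 1) * cc g A x ((A ^ (k + 1)) y) u))
      h.one_lt (differentiableOn_id.mul ((d1.pow _).mul d2)), zero_mul]
  simp only [faber, map_sum, aeval_monomial, ContinuousLinearMap.sum_apply, inner_sum, fc]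
  rw [e]
  obtain ⟨G, hG⟩ : ∃ G : ℝ → ℂ, ∀ θ, g (ec θ) = G θ := ⟨_, fun _ => rfl⟩
  simp only [hG] at c1 ⊢
  rw [mean_add (by fun_prop) (by fun_prop), e2, add_zero, mean_sum' _ (fun _ => by fun_prop)]
  refine Finset.sum_congr rfl fun j _ => ?_
  rw [mean_mul_const, Algebra.algebraMap_eq_smul_one]
  simp [inner_smul_right]

variable {V : Set ℂ} (hVo : IsOpen V) (hVc : Convex ℝ V) (hΓ : ∀ θ, (g (ec θ))⁻¹ ∈ V)
include hVo hVc hΓ

omit hU in
theorem mean_closed {φ : ℂ → ℂ} (hφ : DifferentiableOn ℂ φ V) :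
    mean (fun θ => φ (g (ec θ))⁻¹ * ((g (ec θ))⁻¹ * qq g (ec θ))) = 0 := by
  obtain ⟨Φ, hΦ⟩ := hVc.exists_forall_hasDerivWithinAt hφ
  have hg0 : ∀ θ, g (ec θ) ≠ 0 := fun θ => h.ne_zero (h.ec_mem θ) (ec_ne_zero θ)
  have h1 : ∀ θ, HasDerivAt (fun u => Φ (g u)⁻¹)
      (φ (g (ec θ))⁻¹ * (-deriv g (ec θ) / g (ec θ) ^ 2)) (ec θ) := by
    intro θ
    have a1 : HasDerivAt g (deriv g (ec θ)) (ec θ) :=
      (h.diff.differentiableAt (isOpen_ball.mem_nhds (h.ec_mem θ))).hasDerivAt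
    exact ((hΦ _ (hΓ θ)).hasDerivAt (hVo.mem_nhds (hΓ θ))).comp (ec θ) (a1.inv (hg0 θ))
  have c1 : Continuous fun θ => φ (g (ec θ))⁻¹ := hφ.continuousOn.comp_continuous h.cont_ginv hΓ
  have c2 := continuous_comp_ec h.one_lt (h.diff.deriv isOpen_ball)
  have h2 := mean_deriv h1 (c1.mul (c2.neg.div (h.cont_g.pow 2) fun θ => pow_ne_zero _ (hg0 θ)))
  have : (fun θ => φ (g (ec θ))⁻¹ * ((g (ec θ))⁻¹ * qq g (ec θ))) =
      fun θ => -1 * (ec θ * (φ (g (ec θ))⁻¹ * (-deriv g (ec θ) / g (ec θ) ^ 2))) := by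
    ext θ
    have := h.qq_mul _ (h.ec_mem θ)
    have := hg0 θ
    field_simp
    grind
  rw [this, mean_const_mul, h2, mul_zero]

theorem mean_X_mul {φ : ℂ → ℂ} (hφ : DifferentiableOn ℂ φ V) (x y : E) :
    mean (fun θ => (g (ec θ))⁻¹ * φ (g (ec θ))⁻¹ * cc g A x y (ec θ)) =
      mean (fun θ => φ (g (ec θ))⁻¹ * cc g A x (A y) (ec θ)) := by
  have hg0 : ∀ θ, g (ec θ) ≠ 0 := fun θ => h.ne_zero (h.ec_mem θ) (ec_ne_zero θ)
  have c1 : Continuous fun θ => φ (g (ec θ))⁻¹ := hφ.continuousOn.comp_continuous h.cont_ginv hΓ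
  have : (fun θ => (g (ec θ))⁻¹ * φ (g (ec θ))⁻¹ * cc g A x y (ec θ)) = fun θ =>
      φ (g (ec θ))⁻¹ * ((g (ec θ))⁻¹ * qq g (ec θ)) * ⟪x, y⟫_ℂ +
        φ (g (ec θ))⁻¹ * cc g A x (A y) (ec θ) := by
    ext θ
    rw [cc_step hU x y (h.ec_mem θ)]
    have := hg0 θ
    field_simp
  rw [this, mean_add (by exact (c1.mul (h.cont_ginv.mul h.cont_q)).mul continuous_const)
    (by exact c1.mul (h.cont_cc hU _ _)), mean_mul_const, h.mean_closed hVo hVc hΓ hφ, zero_mul, zero_add]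

theorem mean_poly_mul (P : ℂ[X]) {φ : ℂ → ℂ} (hφ : DifferentiableOn ℂ φ V) (x y : E) :
    mean (fun θ => P.eval (g (ec θ))⁻¹ * φ (g (ec θ))⁻¹ * cc g A x y (ec θ)) =
      mean (fun θ => φ (g (ec θ))⁻¹ * cc g A x (aeval A P y) (ec θ)) := by
  have c1 : Continuous fun θ => φ (g (ec θ))⁻¹ := hφ.continuousOn.comp_continuous h.cont_ginv hΓ
  have c2 : ∀ Q : ℂ[X], Continuous fun θ => Q.eval (g (ec θ))⁻¹ := fun Q =>
    Q.continuous.comp h.cont_ginv
  induction P using Polynomial.induction_on generalizing y with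
  | C a =>
    simp only [eval_C, aeval_C, Algebra.algebraMap_eq_smul_one, ContinuousLinearMap.smul_apply,
      ContinuousLinearMap.one_apply, cc_smul]
    exact mean_congr fun θ => by ring
  | add p q hp hq =>
    simp only [eval_add, map_add, ContinuousLinearMap.add_apply, cc_add, add_mul, mul_add]
    rw [mean_add (by exact ((c2 p).mul c1).mul (h.cont_cc hU _ _))
      (by exact ((c2 q).mul c1).mul (h.cont_cc hU _ _)),
      mean_add (by exact c1.mul (h.cont_cc hU _ _)) (by exact c1.mul (h.cont_cc hU _ _)), hp, hq]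
  | monomial n a ih =>
    have := h.mean_X_mul hU hVo hVc hΓ (φ := fun z => (C a * X ^ n).eval z * φ z)
      ((C a * X ^ n).differentiable.differentiableOn.mul hφ) x y
    rw [ih] at this
    rw [pow_succ, ← mul_assoc, map_mul, aeval_X, ContinuousLinearMap.mul_apply, ← this]
    exact mean_congr fun θ => by simp only [eval_mul, eval_X]; ring

theorem mean_cauchy (P χ : ℂ[X]) (hχ : aeval A χ = 0) {r : ℂ → ℂ} (hr : DifferentiableOn ℂ r V)
    (x y : E) :
    mean (fun θ => (P.eval (g (ec θ))⁻¹ + χ.eval (g (ec θ))⁻¹ * r (g (ec θ))⁻¹) *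
      cc g A x y (ec θ)) = ⟪x, aeval A P y⟫_ℂ := by
  have c1 : Continuous fun θ => r (g (ec θ))⁻¹ := hr.continuousOn.comp_continuous h.cont_ginv hΓ
  have c2 : ∀ Q : ℂ[X], Continuous fun θ => Q.eval (g (ec θ))⁻¹ := fun Q =>
    Q.continuous.comp h.cont_ginv
  have a1 := h.mean_poly_mul hU hVo hVc hΓ P (φ := fun _ => 1) (differentiableOn_const _) x y
  have a2 := h.mean_poly_mul hU hVo hVc hΓ χ hr x y
  simp only [mul_one, one_mul] at a1
  simp only [hχ, ContinuousLinearMap.zero_apply, cc_zero_right, mul_zero, mean_const] at a2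
  simp only [add_mul]
  rw [mean_add (by exact (c2 P).mul (h.cont_cc hU _ _))
    (by exact ((c2 χ).mul c1).mul (h.cont_cc hU _ _)), a1, a2,
    add_zero, mean_holo h.one_lt (h.diff_cc hU _ _), h.cc_zero]

end Conf

end Crest.Agent.R132
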