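import Crest.Agent.R132.Mean

/-! The scalar testing inequality. -/

open Filter Topology Set Metric MeasureTheory
open scoped Real ComplexConjugate

namespace Crest.Agent.R132

theorem norm_add_sq' (a b : ℂ) : ‖a + b‖ ^ 2 = ‖a‖ ^ 2 + ‖b‖ ^ 2 + 2 * (conj a * b).re := by
  simp only [← Complex.normSq_eq_norm_sq, Complex.normSq_apply, Complex.add_re, Complex.add_im,
    Complex.mul_re, Complex.conj_re, Complex.conj_im]
  ring

theorem mean_norm_add_sq {f g : ℝ → ℂ} (hf : Continuous f) (hg : Continuous g) :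
    mean (fun θ => ‖f θ + g θ‖ ^ 2) = mean (fun θ => ‖f θ‖ ^ 2) + mean (fun θ => ‖g θ‖ ^ 2) +
      2 * (mean (fun θ => conj (f θ) * g θ)).re := by
  simp only [norm_add_sq']
  rw [mean_add (by fun_prop) (by fun_prop), mean_add (by fun_prop) (by fun_prop),
    mean_const_mul_real, mean_re (by fun_prop)]

theorem conj_mul_self (a : ℂ) : conj a * a = ((‖a‖ ^ 2 : ℝ) : ℂ) := by
  rw [mul_comm, Complex.mul_conj, Complex.normSq_eq_norm_sq]

theorem mean_norm_sq_trig (s : Finset ℕ) (β : ℕ → ℂ) :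
    mean (fun θ => ‖∑ k ∈ s, β k * conj (ec θ) ^ k‖ ^ 2) = ∑ k ∈ s, ‖β k‖ ^ 2 := by
  apply Complex.ofReal_injective
  rw [← mean_ofReal]
  simp only [← conj_mul_self, map_sum, map_mul, map_pow, Complex.conj_conj, Finset.sum_mul_sum]
  rw [mean_sum' _ (fun _ => by fun_prop)]
  push_cast
  refine Finset.sum_congr rfl fun k hk => ?_
  rw [mean_sum' _ (fun _ => by fun_prop)]
  have : ∀ l, mean (fun θ => conj (β k) * ec θ ^ k * (β l * conj (ec θ) ^ l)) =
      if l = k then conj (β k) * β l else 0 := by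
    intro l
    have : (fun θ => conj (β k) * ec θ ^ k * (β l * conj (ec θ) ^ l)) =
        fun θ => conj (β k) * β l * (conj (ec θ) ^ l * ec θ ^ k) := by ext; ring
    rw [this, mean_const_mul, mean_conj_ec_pow_mul_pow]
    split_ifs <;> simp
  simp only [this, Finset.sum_ite_eq', if_pos hk, conj_mul_self]
  push_cast; rfl

theorem scalar_test {φ : ℝ → ℂ} (hφ : Continuous φ) {L : ℕ → ℝ → ℂ} (hL : ∀ k, Continuous (L k))
    (h1 : ∀ k j, mean (fun θ => ec θ ^ j * L k θ) = 0)
    (h2 : ∀ (s : Finset ℕ) (β : ℕ → ℂ), 0 ∉ s →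
      mean (fun θ => ‖∑ k ∈ s, β k * L k θ‖ ^ 2) ≤ ∑ k ∈ s, ‖β k‖ ^ 2)
    {u : ℂ → ℂ} {R : ℝ} (hR : 1 < R) (hu : DifferentiableOn ℂ u (ball 0 R))
    (h0 : u 0 = mean φ)
    (hk : ∀ k, k ≠ 0 → mean (fun θ => conj (ec θ) ^ k * u (ec θ)) =
      mean (fun θ => φ θ * (conj (ec θ) ^ k + L k θ))) :
    mean (fun θ => ‖u (ec θ)‖ ^ 2) + ‖u 0‖ ^ 2 ≤ 2 * mean (fun θ => ‖φ θ‖ ^ 2) := by
  set c : ℕ → ℂ := fun k => mean (fun θ => conj (ec θ) ^ k * u (ec θ)) with hc
  have hc0 : c 0 = u 0 := by simp [hc, mean_holo hR hu]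
  have key : ∀ s : Finset ℕ, 0 ∉ s →
      2 * ‖u 0‖ ^ 2 + ∑ k ∈ s, ‖c k‖ ^ 2 ≤ 2 * mean (fun θ => ‖φ θ‖ ^ 2) := by
    intro s hs
    set S := 2 * ‖u 0‖ ^ 2 + ∑ k ∈ s, ‖c k‖ ^ 2 with hS
    let ψ : ℝ → ℂ := fun θ => ∑ k ∈ s, conj (c k) * conj (ec θ) ^ k
    let E : ℝ → ℂ := fun θ => ∑ k ∈ s, conj (c k) * L k θ
    have hψ : Continuous ψ := by fun_prop
    have hE : Continuous E := by fun_prop
    let G : ℝ → ℂ := fun θ => (2 * conj (u 0) + ψ θ) + E θ
    have hG : Continuous G := by fun_prop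
    have e1 : mean (fun θ => φ θ * G θ) = (S : ℝ) := by
      have : (fun θ => φ θ * G θ) = fun θ => 2 * conj (u 0) * φ θ +
          ∑ k ∈ s, conj (c k) * (φ θ * (conj (ec θ) ^ k + L k θ)) := by
        ext θ
        simp only [G, ψ, E, mul_add, Finset.sum_add_distrib, Finset.mul_sum]
        rw [add_assoc]
        congr 1
        · ring
        · congr 1 <;> exact Finset.sum_congr rfl fun _ _ => by ring
      rw [this, mean_add (by fun_prop) (by fun_prop), mean_const_mul,
        mean_sum' _ (fun _ => by fun_prop), ← h0, hS]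
      push_cast
      congr 1
      · rw [mul_assoc, conj_mul_self]; push_cast; rfl
      · refine Finset.sum_congr rfl fun k hks => ?_
        rw [mean_const_mul, ← hk k (fun h => hs (h ▸ hks)), conj_mul_self]
        push_cast; rfl
    have e2 : mean (fun θ => ‖G θ‖ ^ 2) ≤ 2 * S := by
      have a1 : mean (fun θ => ‖ψ θ‖ ^ 2) = ∑ k ∈ s, ‖c k‖ ^ 2 := by
        simp only [ψ, mean_norm_sq_trig, Complex.norm_conj]
      have a2 : mean (fun θ => ‖E θ‖ ^ 2) ≤ ∑ k ∈ s, ‖c k‖ ^ 2 := by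
        simpa only [Complex.norm_conj] using h2 s (fun k => conj (c k)) hs
      have a3 : mean ψ = 0 := by
        simp only [ψ]
        rw [mean_sum' _ (fun _ => by fun_prop)]
        refine Finset.sum_eq_zero fun k hks => ?_
        rw [mean_const_mul, mean_conj_ec_pow (fun h => hs (h ▸ hks)), mul_zero]
      have a4 : ∀ j, mean (fun θ => ec θ ^ j * E θ) = 0 := by
        intro j
        simp only [E, Finset.mul_sum]
        rw [mean_sum' _ (fun _ => by fun_prop)]
        refine Finset.sum_eq_zero fun k _ => ?_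
        simp only [mul_left_comm _ (conj (c k))]
        rw [mean_const_mul, h1, mul_zero]
      have a5 : mean (fun θ => conj (2 * conj (u 0) + ψ θ) * E θ) = 0 := by
        have : (fun θ => conj (2 * conj (u 0) + ψ θ) * E θ) =
            fun θ => 2 * u 0 * (ec θ ^ 0 * E θ) + ∑ k ∈ s, c k * (ec θ ^ k * E θ) := by
          ext θ
          simp only [ψ, map_add, map_mul, map_sum, map_pow, Complex.conj_conj, add_mul,
            Finset.sum_mul, pow_zero, one_mul, map_ofNat, mul_assoc]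
        rw [this, mean_add (by fun_prop) (by fun_prop), mean_const_mul, a4,
          mean_sum' _ (fun _ => by fun_prop)]
        simp only [mean_const_mul, a4, mul_zero, Finset.sum_const_zero, add_zero]
      simp only [G]
      rw [mean_norm_add_sq (by fun_prop) hE, mean_norm_add_sq (by fun_prop) hψ, a5, a1,
        mean_const_mul, a3, mean_const]
      simp only [mul_zero, Complex.zero_re, add_zero, norm_mul, Complex.norm_conj,
        Complex.norm_ofNat]
      linarith
    have e3 : mean (fun θ => (φ θ * G θ).re) ≤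
        mean (fun θ => ‖φ θ‖ ^ 2 + 1 / 4 * ‖G θ‖ ^ 2) := by
      refine mean_mono (by fun_prop) (by fun_prop) fun θ => ?_
      have := Complex.re_le_norm (φ θ * G θ)
      rw [norm_mul] at this
      nlinarith [sq_nonneg (‖φ θ‖ - ‖G θ‖ / 2)]
    rw [mean_re (by fun_prop), e1, Complex.ofReal_re, mean_add (by fun_prop) (by fun_prop),
      mean_const_mul_real] at e3
    linarith
  have := mean_sq_le_of_coeff hR hu (B := 2 * mean (fun θ => ‖φ θ‖ ^ 2) - ‖u 0‖ ^ 2) (by
    intro N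
    have h3 := key ((Finset.range N).erase 0) (Finset.notMem_erase _ _)
    have h4 : ∑ k ∈ Finset.range N, ‖c k‖ ^ 2 ≤
        ‖c 0‖ ^ 2 + ∑ k ∈ (Finset.range N).erase 0, ‖c k‖ ^ 2 := by
      by_cases h : 0 ∈ Finset.range N
      · rw [Finset.add_sum_erase _ (fun k => ‖c k‖ ^ 2) h]
      · rw [Finset.erase_eq_of_notMem h]; linarith [sq_nonneg ‖c 0‖]
    rw [hc0] at h4
    change ∑ k ∈ Finset.range N, ‖c k‖ ^ 2 ≤ _
    linarith)
  linarith

end Crest.Agent.R132
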